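import Vale.Agent.P354YK.Out1

/-!
The GHP equations of the outgoing principal null frame of Kerr.
-/

namespace Vale.Agent.P354YK

set_option linter.unusedSimpArgs false

open Vale.Agent.P354XG Vale.Agent.P354XR Vale.Agent.P354XR.KC

variable {A : Type*} [CommRing A] [Algebra ℂ A] {K : KC A} (h : K.Is)
include h

theorem r1 : oth K (orh K) = orh K * orh K := by
  simp only [oth, otp, oet, oep, orh, orh2, ga, gab, ta, ta2, P2, z, zb, ee, De, W, V_ap, D_add,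
    D_sub, D_mul, D_neg, D_num, D_zero, D_ii, map_mul, map_add, map_sub, map_neg, map_zero,
    map_ofNat, h.tab]
  linear_combination (-K.x^2*K.a^2*K.N^2*K.sg^2) * ii_sq (A := A) + (K.N^2*K.sg) * h.hg

theorem r3 : oth K K.ta = (K.ta - K.c K.ta2) * orh K := by
  simp only [oth, otp, oet, oep, orh, orh2, ga, gab, ta, ta2, P2, z, zb, ee, De, W, V_ap, D_add,
    D_sub, D_mul, D_neg, D_num, D_zero, D_ii, map_mul, map_add, map_sub, map_neg, map_zero,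
    map_ofNat, h.tab]
  linear_combination (-ii A^2*K.x^3*K.a^4*K.s*K.N*K.sg^3 + ii A*K.r*K.x^2*K.a^3*K.s*K.N*K.sg^3 +
    K.r^2*K.x*K.a^2*K.s*K.N*K.sg^3 + K.x^3*K.a^4*K.s*K.N*K.sg^3 - K.x*K.a^2*K.s*K.N*K.sg^2) * ii_sq
    (A := A) + (-ii A*K.r*K.a*K.s*K.N*K.sg^2 - K.x*K.a^2*K.s*K.N*K.sg^2) * h.hg

theorem r4 : oet K (orh K) = (orh K - K.c (orh K)) * K.ta := by
  simp only [oth, otp, oet, oep, orh, orh2, ga, gab, ta, ta2, P2, z, zb, ee, De, W, V_ap, D_add,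
    D_sub, D_mul, D_neg, D_num, D_zero, D_ii, map_mul, map_add, map_sub, map_neg, map_zero,
    map_ofNat, h.tab]
  linear_combination (-ii A^2*K.x^3*K.a^4*K.s*K.N*K.sg^3 + ii A*K.r*K.x^2*K.a^3*K.s*K.N*K.sg^3 +
    K.r^2*K.x*K.a^2*K.s*K.N*K.sg^3 + 3*K.x^3*K.a^4*K.s*K.N*K.sg^3 - 3*K.x*K.a^2*K.s*K.N*K.sg^2) *
    ii_sq (A := A) + (-ii A*K.r*K.a*K.s*K.N*K.sg^2 - 3*K.x*K.a^2*K.s*K.N*K.sg^2) * h.hg

theorem r5 : oet K K.ta = K.ta * K.ta := by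
  simp only [oth, otp, oet, oep, orh, orh2, ga, gab, ta, ta2, P2, z, zb, ee, De, W, V_ap, D_add,
    D_sub, D_mul, D_neg, D_num, D_zero, D_ii, map_mul, map_add, map_sub, map_neg, map_zero,
    map_ofNat, h.tab]
  linear_combination (ii A^2*K.x^2*K.a^4*K.s^2*K.sg^3 - 2*ii A*K.r*K.x*K.a^3*K.s^2*K.sg^3 +
    K.r^2*K.a^2*K.s^2*K.sg^3 + K.x^2*K.a^4*K.s^2*K.sg^3 - K.a^2*K.s^2*K.sg^2) * ii_sq (A := A) +
    (-K.a^2*K.s^2*K.sg^2) * h.hg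

theorem r6 : oep K K.ta = otp K (orh K) - orh K * K.c (orh2 K) + K.ta * K.c K.ta + K.P2 := by
  simp only [oth, otp, oet, oep, orh, orh2, ga, gab, ta, ta2, P2, z, zb, ee, De, W, V_ap, D_add,
    D_sub, D_mul, D_neg, D_num, D_zero, D_ii, map_mul, map_add, map_sub, map_neg, map_zero,
    map_ofNat, h.tab]
  linear_combination (ii A^2*K.x^2*K.a^4*K.s*K.sb*K.sg^3 + 2*ii A*K.r*K.x*K.a^3*K.s*K.sb*K.sg^3 +
    2*ii A*K.x^3*K.a^3*K.M*K.sg^3 + K.r^2*K.x^2*K.a^2*K.N*K.Ni*K.sg^3 + K.r^2*K.a^2*K.s*K.sb*K.sg^3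
    - 2*K.r*K.x^2*K.a^2*K.M*K.N*K.Ni*K.sg^3 + 6*K.r*K.x^2*K.a^2*K.M*K.sg^3 -
    3*K.x^2*K.a^4*K.s*K.sb*K.sg^3 + K.x^2*K.a^4*K.N*K.Ni*K.sg^3 - 2*K.x^2*K.a^2*K.sg^2 +
    K.a^2*K.s*K.sb*K.sg^2) * ii_sq (A := A) + (-4*ii A*K.r*K.x*K.a^3*K.sg^3 - K.r^2*K.a^2*K.sg^3 +
    3*K.x^2*K.a^4*K.sg^3 - K.a^2*K.sg^2) * h.hs + (4*ii A*K.r^3*K.x*K.a*K.sg^3 - 8*ii
    A*K.r^2*K.x*K.a*K.M*K.sg^3 + 4*ii A*K.r*K.x*K.a^3*K.sg^3 - 2*ii A*K.r*K.x*K.a*K.sg^2 + 2*ii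
    A*K.x*K.a*K.M*K.sg^2 + 3*K.r^4*K.sg^3 - 6*K.r^3*K.M*K.sg^3 - K.r^2*K.x^2*K.a^2*K.sg^3 +
    3*K.r^2*K.a^2*K.sg^3 - 3*K.r^2*K.sg^2 + 2*K.r*K.x^2*K.a^2*K.M*K.sg^3 + 4*K.r*K.M*K.sg^2 -
    K.x^2*K.a^4*K.sg^3 - K.a^2*K.sg^2) * h.hN + (4*ii A*K.r*K.x*K.a*K.sg^2 - 2*ii
    A*K.x*K.a*K.M*K.sg^2 + 3*K.r^2*K.sg^2 - 4*K.r*K.M*K.sg^2 - 3*K.x^2*K.a^2*K.sg^2 +
    2*K.a^2*K.sg^2) * h.hg

theorem q1 : otp K (orh2 K) = orh2 K * orh2 K := by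
  simp only [oth, otp, oet, oep, orh, orh2, ga, gab, ta, ta2, P2, z, zb, ee, De, W, V_ap, D_add,
    D_sub, D_mul, D_neg, D_num, D_zero, D_ii, map_mul, map_add, map_sub, map_neg, map_zero,
    map_ofNat, h.tab]
  linear_combination (-K.r^4*K.x^2*K.a^2*K.Ni^2*K.sg^4 + 4*K.r^3*K.x^2*K.a^2*K.M*K.Ni^2*K.sg^4 -
    2*K.r^2*K.x^2*K.a^4*K.Ni^2*K.sg^4 - 4*K.r^2*K.x^2*K.a^2*K.M^2*K.Ni^2*K.sg^4 +
    4*K.r*K.x^2*K.a^4*K.M*K.Ni^2*K.sg^4 - K.x^2*K.a^6*K.Ni^2*K.sg^4) * ii_sq (A := A) +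
    (K.r^4*K.Ni^2*K.sg^3 - 4*K.r^3*K.M*K.Ni^2*K.sg^3 + 2*K.r^2*K.a^2*K.Ni^2*K.sg^3 +
    4*K.r^2*K.M^2*K.Ni^2*K.sg^3 - 4*K.r*K.a^2*K.M*K.Ni^2*K.sg^3 + K.a^4*K.Ni^2*K.sg^3) * h.hg

theorem q3 : otp K K.ta2 = (K.ta2 - K.c K.ta) * orh2 K := by
  simp only [oth, otp, oet, oep, orh, orh2, ga, gab, ta, ta2, P2, z, zb, ee, De, W, V_ap, D_add,
    D_sub, D_mul, D_neg, D_num, D_zero, D_ii, map_mul, map_add, map_sub, map_neg, map_zero,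
    map_ofNat, h.tab]
  linear_combination (3*ii A^2*K.r^2*K.x^3*K.a^4*K.sb*K.Ni*K.sg^4 - 6*ii
    A^2*K.r*K.x^3*K.a^4*K.M*K.sb*K.Ni*K.sg^4 + 3*ii A^2*K.x^3*K.a^6*K.sb*K.Ni*K.sg^4 + 3*ii
    A*K.r^3*K.x^2*K.a^3*K.sb*K.Ni*K.sg^4 - 6*ii A*K.r^2*K.x^2*K.a^3*K.M*K.sb*K.Ni*K.sg^4 + 3*ii
    A*K.r*K.x^2*K.a^5*K.sb*K.Ni*K.sg^4 - 3*K.r^4*K.x*K.a^2*K.sb*K.Ni*K.sg^4 +
    6*K.r^3*K.x*K.a^2*K.M*K.sb*K.Ni*K.sg^4 - 3*K.r^2*K.x^3*K.a^4*K.sb*K.Ni*K.sg^4 -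
    3*K.r^2*K.x*K.a^4*K.sb*K.Ni*K.sg^4 + 3*K.r^2*K.x*K.a^2*K.sb*K.Ni*K.sg^3 +
    6*K.r*K.x^3*K.a^4*K.M*K.sb*K.Ni*K.sg^4 - 6*K.r*K.x*K.a^2*K.M*K.sb*K.Ni*K.sg^3 -
    3*K.x^3*K.a^6*K.sb*K.Ni*K.sg^4 + 3*K.x*K.a^4*K.sb*K.Ni*K.sg^3) * ii_sq (A := A) + (-3*ii
    A*K.r^3*K.a*K.sb*K.Ni*K.sg^3 + 6*ii A*K.r^2*K.a*K.M*K.sb*K.Ni*K.sg^3 - 3*ii
    A*K.r*K.a^3*K.sb*K.Ni*K.sg^3 + 3*K.r^2*K.x*K.a^2*K.sb*K.Ni*K.sg^3 -
    6*K.r*K.x*K.a^2*K.M*K.sb*K.Ni*K.sg^3 + 3*K.x*K.a^4*K.sb*K.Ni*K.sg^3) * h.hg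

theorem q4 : oep K (orh2 K) = (orh2 K - K.c (orh2 K)) * K.ta2 := by
  simp only [oth, otp, oet, oep, orh, orh2, ga, gab, ta, ta2, P2, z, zb, ee, De, W, V_ap, D_add,
    D_sub, D_mul, D_neg, D_num, D_zero, D_ii, map_mul, map_add, map_sub, map_neg, map_zero,
    map_ofNat, h.tab]
  linear_combination (3*ii A^2*K.r^2*K.x^3*K.a^4*K.sb*K.Ni*K.sg^4 - 6*ii
    A^2*K.r*K.x^3*K.a^4*K.M*K.sb*K.Ni*K.sg^4 + 3*ii A^2*K.x^3*K.a^6*K.sb*K.Ni*K.sg^4 + 7*ii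
    A*K.r^3*K.x^2*K.a^3*K.sb*K.Ni*K.sg^4 - 14*ii A*K.r^2*K.x^2*K.a^3*K.M*K.sb*K.Ni*K.sg^4 + 7*ii
    A*K.r*K.x^2*K.a^5*K.sb*K.Ni*K.sg^4 + 5*K.r^4*K.x*K.a^2*K.sb*K.Ni*K.sg^4 -
    10*K.r^3*K.x*K.a^2*K.M*K.sb*K.Ni*K.sg^4 + K.r^2*K.x^3*K.a^4*K.sb*K.Ni*K.sg^4 +
    5*K.r^2*K.x*K.a^4*K.sb*K.Ni*K.sg^4 - K.r^2*K.x*K.a^2*K.sb*K.Ni*K.sg^3 -
    2*K.r*K.x^3*K.a^4*K.M*K.sb*K.Ni*K.sg^4 + 2*K.r*K.x*K.a^2*K.M*K.sb*K.Ni*K.sg^3 +
    K.x^3*K.a^6*K.sb*K.Ni*K.sg^4 - K.x*K.a^4*K.sb*K.Ni*K.sg^3) * ii_sq (A := A) + (ii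
    A*K.r^3*K.a*K.sb*K.Ni*K.sg^3 - 2*ii A*K.r^2*K.a*K.M*K.sb*K.Ni*K.sg^3 + ii
    A*K.r*K.a^3*K.sb*K.Ni*K.sg^3 - K.r^2*K.x*K.a^2*K.sb*K.Ni*K.sg^3 +
    2*K.r*K.x*K.a^2*K.M*K.sb*K.Ni*K.sg^3 - K.x*K.a^4*K.sb*K.Ni*K.sg^3) * h.hg

theorem q5 : oep K K.ta2 = K.ta2 * K.ta2 := by
  simp only [oth, otp, oet, oep, orh, orh2, ga, gab, ta, ta2, P2, z, zb, ee, De, W, V_ap, D_add,
    D_sub, D_mul, D_neg, D_num, D_zero, D_ii, map_mul, map_add, map_sub, map_neg, map_zero,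
    map_ofNat, h.tab]
  linear_combination (-2*ii A^4*K.x^4*K.a^6*K.sb^2*K.sg^4 - 8*ii A^3*K.r*K.x^3*K.a^5*K.sb^2*K.sg^4
    - 12*ii A^2*K.r^2*K.x^2*K.a^4*K.sb^2*K.sg^4 - 2*ii A^2*K.x^4*K.a^6*K.sb^2*K.sg^4 + 2*ii
    A^2*K.x^2*K.a^4*K.sb^2*K.sg^3 - 8*ii A*K.r^3*K.x*K.a^3*K.sb^2*K.sg^4 - 4*ii
    A*K.r*K.x^3*K.a^5*K.sb^2*K.sg^4 + 4*ii A*K.r*K.x*K.a^3*K.sb^2*K.sg^3 -
    2*K.r^4*K.a^2*K.sb^2*K.sg^4 + 2*K.r^2*K.a^2*K.sb^2*K.sg^3 + 2*K.x^4*K.a^6*K.sb^2*K.sg^4 -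
    2*K.x^2*K.a^4*K.sb^2*K.sg^3) * ii_sq (A := A) + (4*ii A*K.r*K.x*K.a^3*K.sb^2*K.sg^3 +
    2*K.r^2*K.a^2*K.sb^2*K.sg^3 - 2*K.x^2*K.a^4*K.sb^2*K.sg^3) * h.hg

theorem q6 : oet K K.ta2 = oth K (orh2 K) - orh2 K * K.c (orh K) + K.ta2 * K.c K.ta2 + K.P2 := by
  simp only [oth, otp, oet, oep, orh, orh2, ga, gab, ta, ta2, P2, z, zb, ee, De, W, V_ap, D_add,
    D_sub, D_mul, D_neg, D_num, D_zero, D_ii, map_mul, map_add, map_sub, map_neg, map_zero,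
    map_ofNat, h.tab]
  linear_combination (4*ii A^2*K.x^4*K.a^6*K.s*K.sb*K.sg^4 + 2*ii A^2*K.x^4*K.a^4*K.sg^3 - 2*ii
    A^2*K.x^2*K.a^4*K.s*K.sb*K.sg^3 + 4*ii A*K.r*K.x^3*K.a^5*K.s*K.sb*K.sg^4 + 2*ii
    A*K.r*K.x^3*K.a^3*K.sg^3 + 2*ii A*K.x^3*K.a^3*K.M*K.sg^3 - 4*K.r^2*K.x^2*K.a^4*K.s*K.sb*K.sg^4 +
    K.r^2*K.x^2*K.a^2*K.N*K.Ni*K.sg^3 - 2*K.r^2*K.x^2*K.a^2*K.sg^3 + 2*K.r^2*K.a^2*K.s*K.sb*K.sg^3 -
    2*K.r*K.x^2*K.a^2*K.M*K.N*K.Ni*K.sg^3 + 6*K.r*K.x^2*K.a^2*K.M*K.sg^3 -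
    4*K.x^4*K.a^6*K.s*K.sb*K.sg^4 - 2*K.x^4*K.a^4*K.sg^3 + 2*K.x^2*K.a^4*K.s*K.sb*K.sg^3 +
    K.x^2*K.a^4*K.N*K.Ni*K.sg^3) * ii_sq (A := A) + (-4*ii A*K.r^3*K.x*K.a^3*K.sg^4 - 4*ii
    A*K.r*K.x^3*K.a^5*K.sg^4 + 4*K.r^2*K.x^2*K.a^4*K.sg^4 - 2*K.r^2*K.a^2*K.sg^3 +
    4*K.x^4*K.a^6*K.sg^4 - 2*K.x^2*K.a^4*K.sg^3) * h.hs + (4*ii A*K.r^3*K.x*K.a*K.sg^3 - 8*ii
    A*K.r^2*K.x*K.a*K.M*K.sg^3 + 4*ii A*K.r*K.x*K.a^3*K.sg^3 - 2*ii A*K.r*K.x*K.a*K.sg^2 + 2*ii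
    A*K.x*K.a*K.M*K.sg^2 + 3*K.r^4*K.sg^3 - 6*K.r^3*K.M*K.sg^3 - K.r^2*K.x^2*K.a^2*K.sg^3 +
    3*K.r^2*K.a^2*K.sg^3 - 3*K.r^2*K.sg^2 + 2*K.r*K.x^2*K.a^2*K.M*K.sg^3 + 4*K.r*K.M*K.sg^2 -
    K.x^2*K.a^4*K.sg^3 - K.a^2*K.sg^2) * h.hN + (4*ii A*K.r*K.x^3*K.a^3*K.sg^3 - 4*ii
    A*K.r*K.x*K.a^3*K.sg^3 + 2*ii A*K.r*K.x*K.a*K.sg^2 - 2*ii A*K.x*K.a*K.M*K.sg^2 + 3*K.r^2*K.sg^2
    - 4*K.r*K.M*K.sg^2 - 4*K.x^4*K.a^4*K.sg^3 + 4*K.x^2*K.a^4*K.sg^3 + K.a^2*K.sg^2) * h.hg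

theorem th_z : oth K K.z = orh K * K.z := by
  simp only [oth, otp, oet, oep, orh, orh2, ga, gab, ta, ta2, P2, z, zb, ee, De, W, V_ap, D_add,
    D_sub, D_mul, D_neg, D_num, D_zero, D_ii, map_mul, map_add, map_sub, map_neg, map_zero,
    map_ofNat, h.tab]
  linear_combination (K.x^2*K.a^2*K.N*K.sg^2) * ii_sq (A := A) + (-K.N*K.sg) * h.hg

theorem tp_z : otp K K.z = orh2 K * K.z := by
  simp only [oth, otp, oet, oep, orh, orh2, ga, gab, ta, ta2, P2, z, zb, ee, De, W, V_ap, D_add,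
    D_sub, D_mul, D_neg, D_num, D_zero, D_ii, map_mul, map_add, map_sub, map_neg, map_zero,
    map_ofNat, h.tab]
  linear_combination (-K.r^2*K.x^2*K.a^2*K.Ni*K.sg^3 + 2*K.r*K.x^2*K.a^2*K.M*K.Ni*K.sg^3 -
    K.x^2*K.a^4*K.Ni*K.sg^3) * ii_sq (A := A) + (K.r^2*K.Ni*K.sg^2 - 2*K.r*K.M*K.Ni*K.sg^2 +
    K.a^2*K.Ni*K.sg^2) * h.hg

theorem et_z : oet K K.z = K.ta * K.z := by
  simp only [oth, otp, oet, oep, orh, orh2, ga, gab, ta, ta2, P2, z, zb, ee, De, W, V_ap, D_add,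
    D_sub, D_mul, D_neg, D_num, D_zero, D_ii, map_mul, map_add, map_sub, map_neg, map_zero,
    map_ofNat, h.tab]
  linear_combination (-2*K.x^3*K.a^4*K.s*K.sg^3 + 2*K.x*K.a^2*K.s*K.sg^2) * ii_sq (A := A) +
    (2*K.x*K.a^2*K.s*K.sg^2) * h.hg

theorem ep_z : oep K K.z = K.ta2 * K.z := by
  simp only [oth, otp, oet, oep, orh, orh2, ga, gab, ta, ta2, P2, z, zb, ee, De, W, V_ap, D_add,
    D_sub, D_mul, D_neg, D_num, D_zero, D_ii, map_mul, map_add, map_sub, map_neg, map_zero,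
    map_ofNat, h.tab]
  linear_combination (ii A^2*K.x^3*K.a^4*K.sb*K.sg^3 + 3*ii A*K.r*K.x^2*K.a^3*K.sb*K.sg^3 +
    3*K.r^2*K.x*K.a^2*K.sb*K.sg^3 + K.x^3*K.a^4*K.sb*K.sg^3 - K.x*K.a^2*K.sb*K.sg^2) * ii_sq (A :=
    A) + (ii A*K.r*K.a*K.sb*K.sg^2 - K.x*K.a^2*K.sb*K.sg^2) * h.hg

theorem c_th (f : A) : K.c (oth K f) = oth K (K.c f) := by
  rw [oth, h.c_V]
  simp only [oth, otp, oet, oep, orh, orh2, ga, gab, ta, ta2, P2, z, zb, ee, De, W, V_ap, D_add,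
    D_sub, D_mul, D_neg, D_num, D_zero, D_ii, map_mul, map_add, map_sub, map_neg, map_zero,
    map_ofNat, h.tab]
theorem c_tp (f : A) : K.c (otp K f) = otp K (K.c f) := by
  rw [otp, h.c_V]
  simp only [oth, otp, oet, oep, orh, orh2, ga, gab, ta, ta2, P2, z, zb, ee, De, W, V_ap, D_add,
    D_sub, D_mul, D_neg, D_num, D_zero, D_ii, map_mul, map_add, map_sub, map_neg, map_zero,
    map_ofNat, h.tab]
  ring
theorem c_et (f : A) : K.c (oet K f) = oep K (K.c f) := by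
  rw [oet, h.c_V]
  simp only [oth, otp, oet, oep, orh, orh2, ga, gab, ta, ta2, P2, z, zb, ee, De, W, V_ap, D_add,
    D_sub, D_mul, D_neg, D_num, D_zero, D_ii, map_mul, map_add, map_sub, map_neg, map_zero,
    map_ofNat, h.tab]
  ring
theorem c_ep (f : A) : K.c (oep K f) = oet K (K.c f) := by
  apply h.cinj; rw [h.cc, c_et h, h.cc]

theorem H_th (f : A) : K.H (oth K f) = oth K (K.H f) + oth K f := by
  rw [oth, h.H_V, add_right_inj]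
  simp only [oth, otp, oet, oep, orh, orh2, ga, gab, ta, ta2, P2, z, zb, ee, De, W, V_ap, D_add,
    D_sub, D_mul, D_neg, D_num, D_zero, D_ii, map_mul, map_add, map_sub, map_neg, map_zero,
    map_ofNat, h.tab]
  ring
theorem H_tp (f : A) : K.H (otp K f) = otp K (K.H f) + -otp K f := by
  rw [otp, h.H_V, add_right_inj]
  simp only [oth, otp, oet, oep, orh, orh2, ga, gab, ta, ta2, P2, z, zb, ee, De, W, V_ap, D_add,
    D_sub, D_mul, D_neg, D_num, D_zero, D_ii, map_mul, map_add, map_sub, map_neg, map_zero,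
    map_ofNat, h.tab]
  ring
theorem H_et (f : A) : K.H (oet K f) = oet K (K.H f) + oet K f := by
  rw [oet, h.H_V, add_right_inj]
  simp only [oth, otp, oet, oep, orh, orh2, ga, gab, ta, ta2, P2, z, zb, ee, De, W, V_ap, D_add,
    D_sub, D_mul, D_neg, D_num, D_zero, D_ii, map_mul, map_add, map_sub, map_neg, map_zero,
    map_ofNat, h.tab]
  ring
theorem H_ep (f : A) : K.H (oep K f) = oep K (K.H f) + -oep K f := by
  rw [oep, h.H_V, add_right_inj]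
  simp only [oth, otp, oet, oep, orh, orh2, ga, gab, ta, ta2, P2, z, zb, ee, De, W, V_ap, D_add,
    D_sub, D_mul, D_neg, D_num, D_zero, D_ii, map_mul, map_add, map_sub, map_neg, map_zero,
    map_ofNat, h.tab]
  ring

theorem wts : K.H (orh K) = orh K ∧ K.B (orh K) = orh K ∧ K.H (orh2 K) = -orh2 K ∧
    K.B (orh2 K) = -orh2 K := by
  simp only [oth, otp, oet, oep, orh, orh2, ga, gab, ta, ta2, P2, z, zb, ee, De, W, V_ap, D_add,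
    D_sub, D_mul, D_neg, D_num, D_zero, D_ii, map_mul, map_add, map_sub, map_neg, map_zero,
    map_ofNat, h.tab]
  refine ⟨?_, ?_, ?_, ?_⟩ <;> ring

theorem half1 : (out K).Half where
  cc := h.cc
  calg := h.calg
  c_th := (c_th h)
  c_et := (c_et h)
  c_H := h.c_H
  H_Hb f := (h.B_H f).symm
  H_th := (H_th h)
  H_et := (H_et h)
  H_ka := by simp [out]
  Hb_ka := by simp [out]
  H_si := by simp [out]
  Hb_si := by simp [out]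
  H_rh := (wts h).1
  Hb_rh := (wts h).2.1
  H_ta := h.wts.2.2.1
  Hb_ta := h.wts.2.2.2.1
  H_P0 := by simp [out]
  Hb_P0 := by simp [out]
  H_P1 := by simp [out]
  Hb_P1 := by simp [out]
  H_P2 := h.wts.2.2.2.2.2.2.2.2.1
  Hb_P2 := h.wts.2.2.2.2.2.2.2.2.2.1
  th_tp f := by
    simp only [out, GHP.pr, Derivation.neg_apply, D_neg, D_zero, map_zero, map_neg]
    linear_combination (th_tp h) f
  th_et f := by
    simp only [out, GHP.pr, Derivation.neg_apply, D_neg, D_zero, map_zero, map_neg]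
    linear_combination (th_et h) f
  et_ep f := by
    simp only [out, GHP.pr, Derivation.neg_apply, D_neg, D_zero, map_zero, map_neg]
    linear_combination (et_ep h) f
  r1 := by
    simp only [out, GHP.pr, Derivation.neg_apply, D_neg, D_zero, map_zero, map_neg]
    linear_combination (r1 h)
  r2 := by simp [out]
  r3 := by
    simp only [out, GHP.pr, Derivation.neg_apply, D_neg, D_zero, map_zero, map_neg]
    linear_combination (r3 h)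
  r4 := by
    simp only [out, GHP.pr, Derivation.neg_apply, D_neg, D_zero, map_zero, map_neg]
    linear_combination (r4 h)
  r5 := by
    simp only [out, GHP.pr, Derivation.neg_apply, D_neg, D_zero, map_zero, map_neg]
    linear_combination (r5 h)
  r6 := by
    simp only [out, GHP.pr, Derivation.neg_apply, D_neg, D_zero, map_zero, map_neg]
    linear_combination (r6 h)
  b1 := by simp [out]
  b2 := by
    simp only [out, GHP.pr, Derivation.neg_apply, D_neg, D_zero, map_zero, map_neg]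
    linear_combination Is.D_P2 (oth K) _ (h.V_M _ _ _ _ _ _) (th_z h)
  b3 := by
    simp only [out, GHP.pr, Derivation.neg_apply, D_neg, D_zero, map_zero, map_neg]
    linear_combination -Is.D_P2 (oep K) _ (h.V_M _ _ _ _ _ _) (ep_z h)
  b4 := by simp [out]

theorem half2 : (out K).pr.Half where
  cc := h.cc
  calg := h.calg
  c_th := (c_tp h)
  c_et := (c_ep h)
  c_H f := by
    simp only [out, GHP.pr, Derivation.neg_apply, D_neg, D_zero, map_zero, map_neg]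
    rw [h.c_H]
  H_Hb f := by
    simp only [out, GHP.pr, Derivation.neg_apply, D_neg, D_zero, map_zero, map_neg]
    rw [h.B_H]
  H_th f := by
    simp only [out, GHP.pr, Derivation.neg_apply, D_neg, D_zero, map_zero, map_neg]
    linear_combination -(H_tp h) f
  H_et f := by
    simp only [out, GHP.pr, Derivation.neg_apply, D_neg, D_zero, map_zero, map_neg]
    linear_combination -(H_ep h) f
  H_ka := by simp [out, GHP.pr]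
  Hb_ka := by simp [out, GHP.pr]
  H_si := by simp [out, GHP.pr]
  Hb_si := by simp [out, GHP.pr]
  H_rh := by
    simp only [out, GHP.pr, Derivation.neg_apply, D_neg, D_zero, map_zero, map_neg]
    linear_combination -(wts h).2.2.1
  Hb_rh := by
    simp only [out, GHP.pr, Derivation.neg_apply, D_neg, D_zero, map_zero, map_neg]
    linear_combination -(wts h).2.2.2
  H_ta := by
    simp only [out, GHP.pr, Derivation.neg_apply, D_neg, D_zero, map_zero, map_neg]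
    linear_combination -h.wts.2.2.2.2.2.2.1
  Hb_ta := by
    simp only [out, GHP.pr, Derivation.neg_apply, D_neg, D_zero, map_zero, map_neg]
    linear_combination -h.wts.2.2.2.2.2.2.2.1
  H_P0 := by simp [out, GHP.pr]
  Hb_P0 := by simp [out, GHP.pr]
  H_P1 := by simp [out, GHP.pr]
  Hb_P1 := by simp [out, GHP.pr]
  H_P2 := by
    simp only [out, GHP.pr, Derivation.neg_apply, D_neg, D_zero, map_zero, map_neg]
    linear_combination -h.wts.2.2.2.2.2.2.2.2.1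
  Hb_P2 := by
    simp only [out, GHP.pr, Derivation.neg_apply, D_neg, D_zero, map_zero, map_neg]
    linear_combination -h.wts.2.2.2.2.2.2.2.2.2.1
  th_tp f := by
    simp only [out, GHP.pr, Derivation.neg_apply, D_neg, D_zero, map_zero, map_neg]
    linear_combination -(th_tp h) f
  th_et f := by
    simp only [out, GHP.pr, Derivation.neg_apply, D_neg, D_zero, map_zero, map_neg]
    linear_combination (tp_ep h) f
  et_ep f := by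
    simp only [out, GHP.pr, Derivation.neg_apply, D_neg, D_zero, map_zero, map_neg]
    linear_combination -(et_ep h) f
  r1 := by
    simp only [out, GHP.pr, Derivation.neg_apply, D_neg, D_zero, map_zero, map_neg]
    linear_combination (q1 h)
  r2 := by simp [out, GHP.pr]
  r3 := by
    simp only [out, GHP.pr, Derivation.neg_apply, D_neg, D_zero, map_zero, map_neg]
    linear_combination (q3 h)
  r4 := by
    simp only [out, GHP.pr, Derivation.neg_apply, D_neg, D_zero, map_zero, map_neg]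
    linear_combination (q4 h)
  r5 := by
    simp only [out, GHP.pr, Derivation.neg_apply, D_neg, D_zero, map_zero, map_neg]
    linear_combination (q5 h)
  r6 := by
    simp only [out, GHP.pr, Derivation.neg_apply, D_neg, D_zero, map_zero, map_neg]
    linear_combination (q6 h)
  b1 := by simp [out, GHP.pr]
  b2 := by
    simp only [out, GHP.pr, Derivation.neg_apply, D_neg, D_zero, map_zero, map_neg]
    linear_combination Is.D_P2 (otp K) _ (h.V_M _ _ _ _ _ _) (tp_z h)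
  b3 := by
    simp only [out, GHP.pr, Derivation.neg_apply, D_neg, D_zero, map_zero, map_neg]
    linear_combination -Is.D_P2 (oet K) _ (h.V_M _ _ _ _ _ _) (et_z h)
  b4 := by simp [out, GHP.pr]

/-- The outgoing frame satisfies the vacuum GHP equations. -/
theorem out_is : (out K).Is := ⟨half1 h, half2 h⟩

end Vale.Agent.P354YK
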