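import Vale.Agent.P354YK.Ref
import Vale.Agent.P354XR.Su

/-!
The far chart over a chart (t, r, xi): the algebraic part.
-/

namespace Vale.Agent.P354YK

open Vale.Agent.P354XG Vale.Agent.P354XI Vale.Agent.P354XZ Vale.Agent.P354XR Vale.Agent.P354XD
open Vale.Agent.P354XG.Geo (hf two_hf)

variable {A : Type} [CommRing A] [Algebra ℂ A]

/-- The data: u = t + m / r. -/
structure Pre (A : Type) [CommRing A] [Algebra ℂ A] where
  K : Hp A
  p : Pm A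
  m : ℝ
  J : Type
  B : J → Ibp A
  fn : Fam J → A
  R0 : J → ℝ
  U0 : J → ℝ
  Dom : J → Set (ℝ × ℝ)

/-- The structure constants of the rotations. -/
def eo (k i l : Fin 3) : ℝ :=
  if i = k + 1 ∧ l = k + 2 then -1 else if i = k + 2 ∧ l = k + 1 then 1 else 0

namespace Pre
variable (P : Pre A)

noncomputable abbrev kc : KC A := kk P.K P.p

/-- The chart. -/
noncomputable def ch (h : P.K.Is) : Ch A where
  J := P.J
  B := P.B
  c := P.K.c
  T := P.K.d 0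
  R := P.kc.R
  S := P.K.H + P.K.B
  Om := Om P.K
  an := ![P.K.P, P.K.Q, P.K.H - P.K.B]
  mu := ![fun i => ii A * wb P.K i, fun i => -(ii A * wm P.K i), fun i => 2 * (ii A * ww P.K i)]
  eo := eo
  u := P.K.z 0 + Ibp.rl A P.m * P.K.ri
  r := P.K.z 1
  ri := P.K.ri
  N := ⟨P.K.N, P.K.Ni, h.hN, by rw [mul_comm, h.hN]⟩
  fn := P.fn
  R0 := P.R0
  U0 := P.U0
  Dom := P.Dom

/-- The hypotheses. -/
structure Ok (h : P.K.Is) : Prop where
  pis : P.p.Is P.K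
  j1 : P.p.j1 = 0
  h1 : P.p.h1 = -(Ibp.rl A P.m * (P.K.ri * P.K.ri))
  ibp : ∀ j, (P.B j).Is
  c_eq : ∀ j, (P.B j).c = P.K.c
  dvT : ∀ j, (P.B j).Dv (P.K.d 0) 0
  dvR : ∀ j, (P.B j).Dv (P.K.d 1) 0
  dvO : ∀ j i, (P.B j).Dv (Om P.K i) 0
  N_le : ∀ x, 1 / 2 ≤ (P.ch h).val x P.K.N ∧ (P.ch h).val x P.K.N ≤ 3 / 2
  fn_val : ∀ φ, SmF φ → ∀ x : (P.ch h).Pt, (P.B x.1).ev x.2 (P.fn φ) = ((P.ch h).at' φ x : ℝ)
  fn_T : ∀ φ, SmF φ → P.K.d 0 (P.fn φ) = P.fn fun j u r => deriv (fun u => φ j u r) u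
  fn_R : ∀ φ, SmF φ → P.kc.R (P.fn φ) = P.fn fun j u r => deriv (φ j u) r
  fn_d : ∀ φ, SmF φ → ∀ i, 2 ≤ i → P.K.d i (P.fn φ) = 0
  fn_c : ∀ φ, SmF φ → P.K.c (P.fn φ) = P.fn φ
  dom : ∀ x : (P.ch h).Pt, ((P.ch h).uu x, (P.ch h).rr x) ∈ P.Dom x.1
  one_le : ∀ j, 1 ≤ P.R0 j ∧ P.R0 j ≤ P.U0 j
  rng : ∀ j, ∀ p ∈ P.Dom j, P.R0 j ≤ p.2 ∧ -(3 / 2) * p.2 ≤ p.1
  bd : ∃ L, ∀ x, (P.ch h).md x P.p.a ≤ L ∧ (P.ch h).md x P.p.M ≤ L

variable {P} {h : P.K.Is}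

theorem Om_cst {u : A} (e : ∀ i, i ≠ 1 → P.K.d i u = 0) (i : Fin 3) : Om P.K i u = 0 := by
  fin_cases i <;> simp [Om, e]

theorem Om_w (h : P.K.Is) (k i : Fin 3) :
    Om P.K k (ww P.K i) = ∑ l, Ibp.rl A (eo k i l) * ww P.K l := by
  have a := Om_ww h 0
  have b := Om_ww h 1
  have c := Om_ww h 2
  simp only [Fin.reduceAdd] at a b c
  fin_cases k <;> fin_cases i <;>
    simp [eo, Fin.sum_univ_three, Ibp.rl_neg, Ibp.rl_one, Ibp.rl_zero, a, b, c]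

theorem an_eq (h : P.K.Is) (a : Fin 3) (f : A) :
    (P.ch h).an a f = ∑ i, (P.ch h).mu a i * Om P.K i f := by
  have e1 := P_Om h f
  have e2 := Q_Om h f
  have e3 := spin h f
  simp only [Sp, Fin.sum_univ_three] at e1 e2 e3 ⊢
  fin_cases a <;> simp [ch]
  · linear_combination e1
  · linear_combination e2
  · linear_combination -(2 * ii A) * e3 - (P.K.H f - P.K.B f) * two_hf (A := A) +
      2 * hf A * (P.K.H f - P.K.B f) * ii_sq (A := A)

theorem O_mu (h : P.K.Is) (k a i : Fin 3) :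
    Om P.K k ((P.ch h).mu a i) = ∑ l, Ibp.rl A (eo k i l) * (P.ch h).mu a l := by
  have e := Om_w h k i
  have e1 := congrArg P.K.P e
  have e2 := congrArg P.K.Q e
  simp only [(Om_comm h k _).2.2.1, (Om_comm h k _).2.2.2.1, Fin.sum_univ_three, D_add, D_mul,
    Ibp.D_rl, tw h] at e e1 e2 ⊢
  fin_cases a <;> simp [ch, D_ii, D_num]
  · linear_combination ii A * e1
  · linear_combination -ii A * e2
  · linear_combination 2 * ii A * e

theorem mu_le (h : P.K.Is) {B : Ibp A} (b : B.Is) (hc : B.c = P.K.c) (a i : Fin 3) (x : B.Pt) :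
    B.md x ((P.ch h).mu a i) ≤ 2 := by
  obtain ⟨p1, -, -, -, -, p6⟩ := pw h
  have i1 : B.md x (ii A) = 1 := by rw [Ibp.md, ii, b.ev_alg, Complex.norm_I]
  have cw : ∀ j, B.c (ww P.K j) = ww P.K j := fun j => hc ▸ h.c_om j.succ
  have cm : ∀ j, B.c (wm P.K j) = wb P.K j := fun j => hc ▸ h.c_mu j.succ
  have v : ∀ f, B.val x (f * B.c f) = B.md x f ^ 2 := fun f => by
    rw [b.val_ip, Ibp.ip_self]
  have q1 := congrArg (B.val x) p1
  have q6 := congrArg (B.val x) p6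
  have s1 : ∑ j, B.md x (ww P.K j) ^ 2 = 1 := by
    simpa only [Ibp.val_sum, Ibp.val_one, ← v, cw] using q1
  have s6 : ∑ j, B.md x (wm P.K j) ^ 2 = 2 := by
    simpa only [Ibp.val_sum, Ibp.val_two, ← v, cm] using q6
  have t1 := Finset.single_le_sum (fun j _ => sq_nonneg (B.md x (ww P.K j)))
    (Finset.mem_univ i)
  have t6 := Finset.single_le_sum (fun j _ => sq_nonneg (B.md x (wm P.K j)))
    (Finset.mem_univ i)
  have u1 : B.md x (ww P.K i) ≤ 1 := by nlinarith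
  have u6 : B.md x (wm P.K i) ≤ 2 := by nlinarith
  fin_cases a
  · show B.md x (ii A * wb P.K i) ≤ 2
    rwa [Ibp.md_mul, i1, one_mul, ← cm, b.md_c]
  · show B.md x (-(ii A * wm P.K i)) ≤ 2
    rwa [Ibp.md_neg, Ibp.md_mul, i1, one_mul]
  · show B.md x (2 * (ii A * ww P.K i)) ≤ 2
    rw [Ibp.md_mul, Ibp.md_mul, i1, one_mul, b.md_re Ibp.re_two, Ibp.val_two, abs_two]
    linarith

namespace Ok
variable (o : P.Ok h)
include o

theorem R_ap (f : A) :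
    P.kc.R f = P.K.d 1 f + Ibp.rl A P.m * (P.K.ri * P.K.ri) * P.K.d 0 f := by
  rw [kk_R, o.j1, o.h1]
  simp [Hp.kc]

theorem R_w {u : A} (h0 : P.K.d 0 u = 0) (h1 : P.K.d 1 u = 0) : P.kc.R u = 0 := by
  rw [o.R_ap, h0, h1, mul_zero, add_zero]

theorem dvR' (j : P.J) : (P.B j).Dv P.kc.R 0 := by
  have e : P.kc.R = P.K.d 1 + (Ibp.rl A P.m * (P.K.ri * P.K.ri)) • P.K.d 0 :=
    Derivation.ext fun f => by rw [o.R_ap]; simp
  rw [e]
  exact ((o.dvR j).add ((o.dvT j).smul _)).congr (by simp [Ibp.D_rl, h.tab.2.2.2.2.2.2.1])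

theorem dva (j : P.J) (a : Fin 3) : (P.B j).Dv ((P.ch h).an a) 0 := by
  have e : (P.ch h).an a = (P.ch h).mu a 0 • Om P.K 0 + (P.ch h).mu a 1 • Om P.K 1 +
      (P.ch h).mu a 2 • Om P.K 2 := Derivation.ext fun f => by
    rw [an_eq, Fin.sum_univ_three]; simp
  rw [e]
  exact ((((o.dvO j 0).smul _).add ((o.dvO j 1).smul _)).add ((o.dvO j 2).smul _)).congr (by
    simp [O_mu, eo, Ibp.rl_zero])

/-- The chart satisfies the axioms. -/
theorem is : (P.ch h).Is := by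
  have k := kk_is h o.pis
  have k0 := h.kc
  obtain ⟨n1, n2, n3, n4, n5, n6, r1, r2, r3, r4, r5, r6, z3, z4, z5, z6⟩ := h.tab
  have dT : ∀ f, P.kc.T f = P.K.d 0 f := fun _ => rfl
  have dP : ∀ f, P.kc.P f = P.K.P f := fun _ => rfl
  have dQ : ∀ f, P.kc.Q f = P.K.Q f := fun _ => rfl
  have dH : ∀ f, P.kc.H f = P.K.H f := fun _ => rfl
  have dB : ∀ f, P.kc.B f = P.K.B f := fun _ => rfl
  have e1 := k.R_T
  have e2 := k.P_T
  have e3 := k.Q_T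
  have e4 := k.H_T
  have e5 := k.B_T
  have e6 := k.P_R
  have e7 := k.Q_R
  have e8 := k.H_R
  have e9 := k.B_R
  have f1 := k.P_Q
  have f2 := k.H_P
  have f3 := k.H_Q
  have f4 := k.B_P
  have f5 := k.B_Q
  have f6 := k.B_H
  simp only [dT, dP, dQ, dH, dB] at e1 e2 e3 e4 e5 e6 e7 e8 e9 f1 f2 f3 f4 f5 f6
  have oR : ∀ i f, Om P.K i (P.kc.R f) = P.kc.R (Om P.K i f) := fun i f => by
    simp only [o.R_ap, D_add, D_mul, Ibp.D_rl, Om_z h i, Om_comm h i f]; ring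
  have nn : P.K.d 0 P.K.N = 0 ∧ P.kc.R P.K.N = 0 ∧ P.K.P P.K.N = 0 ∧ P.K.Q P.K.N = 0 ∧
      P.K.H P.K.N = P.K.N ∧ P.K.B P.K.N = P.K.N := ⟨k.T_N, k.R_N, k.P_N, k.Q_N, k.H_N, k.B_N⟩
  have sk : ∀ {j D}, (P.B j).Dv D 0 → (∀ f, P.K.c (D f) = D (P.K.c f)) → (P.B j).Skew D :=
    fun a b => ⟨a, fun f => by rw [o.c_eq]; exact b f⟩
  refine
    { ibp := o.ibp, c_eq := o.c_eq
      skT := fun j => sk (o.dvT j) h.c0
      skR := fun j => sk (o.dvR' j) k.c_R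
      skO := fun j i => sk (o.dvO j i) (c_Om h i)
      dva := o.dva, c_P := h.c_P, c_V := fun f => ?_, c_S := fun f => ?_, T_D := fun a f => ?_
      R_D := fun a f => ?_, O_D := fun i a f => ?_, S_D := fun a f => ?_, S_O := fun i f => ?_
      P_Q := fun f => ?_, V_P := fun f => ?_, V_Q := fun f => ?_, an_eq := an_eq h
      T_mu := fun a i => ?_, R_mu := fun a i => ?_, O_mu := O_mu h, mu_le := fun a i x => mu_le h (o.ibp _) (o.c_eq _) a i x.2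
      D_u := fun a => ?_, D_r := fun a => ?_, O_r := fun i => (Om_z h i).2.1, S_r := ?_, c_u := ?_
      c_r := h.z1, hr := h.hr, D_N := fun a => ?_, O_N := fun i => (Om_z h i).2.2.1, S_N := ?_
      c_N := h.c_N, N_le := o.N_le, indep := fun a s e => ?_, fn_val := o.fn_val, fn_T := o.fn_T
      fn_R := o.fn_R, fn_an := fun φ s a => ?_, fn_c := o.fn_c, dom := o.dom, one_le := o.one_le
      rng := o.rng }
  · simp [ch, h.c_H, h.c_Bf]
  · simp [ch, h.c_H, h.c_Bf, add_comm]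
  · fin_cases a <;> simp [ch, Ch.D, e1, e2, e3, e4, e5]
  · fin_cases a <;> simp [ch, Ch.D, e1, e6, e7, e8, e9]
  · fin_cases a <;> simp [ch, Ch.D, Om_comm h i f, oR]
  · fin_cases a <;> simp [ch, Ch.D, e4, e5, e8, e9, f2, f3, f4, f5, f6]
    ring
  · simp [ch, Om_comm h i f]
  · simp [ch, f1]; ring
  · simp [ch, f2, f4]; ring
  · simp [ch, f3, f5]; ring
  · fin_cases a <;> simp [ch, D_ii, D_num, tw h]
  · fin_cases a <;> simp [ch, D_ii, D_num, o.R_w (tw h i).1 (tw h i).2.1,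
      o.R_w (tw h i).2.2.2.2.2.2.1 (tw h i).2.2.2.2.2.2.2.1,
      o.R_w (tw h i).2.2.2.2.2.2.2.2.2.2.2.2.1 (tw h i).2.2.2.2.2.2.2.2.2.2.2.2.2.1]
  · fin_cases a <;> simp [ch, Ch.D, o.R_ap, Ibp.D_rl, h.dz, r1, r2, r3, r4, r5, r6, z3, z4, z5, z6]
  · fin_cases a <;> simp [ch, Ch.D, o.R_ap, h.dz, z3, z4, z5, z6]
  · simp [ch, z5, z6]
  · have : P.K.c P.K.ri = P.K.ri := h.c_ri
    simp [ch, h.z0, this, Ibp.rl, h.calg]
  · fin_cases a <;> simp [ch, Ch.D, nn]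
  · simp [ch, nn, two_mul]
  · obtain ⟨a0, a1, a2, a3, a4, a5⟩ := kk_free h P.p (a 0) (a 1) (a 2) (a 3) (s + a 4) (s - a 4)
      (fun f => by
        have := e f
        simp [ch, Ch.vf, Ch.D, Fin.sum_univ_five] at this
        rw [KC.V_ap, dT, dP, dQ, dH, dB]
        linear_combination this)
    have t := two_hf (A := A)
    have s0 : s = 0 := by linear_combination hf A * (a4 + a5) - s * t
    refine ⟨funext fun i => ?_, s0⟩
    fin_cases i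
    exacts [a0, a1, a2, a3, by simpa [s0] using a4]
  · fin_cases a <;> simp [ch, Hp.P_ap, Hp.Q_ap, Hp.H_ap, Hp.B_ap, o.fn_d φ s]

theorem cmp : Cmp (P.ch h) P.kc where
  ch := o.is
  kc := kk_is h o.pis
  c := rfl
  T := rfl
  R := rfl
  P := rfl
  Q := rfl
  V _ := rfl
  S _ := rfl
  r := rfl
  N := rfl
  x := rfl
  s := by
    show -(ii A * wm P.K 2) = _
    rw [wm_two, mul_neg, neg_neg]; rfl
  sb := by
    show ii A * wb P.K 2 = _
    rw [wb_two, mul_neg]; rfl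
  Oa := Om_cst fun i _ => o.pis.da i
  OM := Om_cst fun i _ => o.pis.dM i
  bd := o.bd

end Ok
end Pre

end Vale.Agent.P354YK
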