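import Vale.Agent.P354YK.Sym
import Vale.Agent.P354YK.Out
import Vale.Agent.P354XZ.Props
import Vale.Agent.P354XG.Inst

/-!
The normal form of a GHP structure in the outgoing gauge, and Kerr as the reference solution.
-/

namespace Vale.Agent.P354YK

open Vale.Agent.P354XG Vale.Agent.P354XI Vale.Agent.P354XZ Vale.Agent.P354XR
open Vale.Agent.P354XG.Geo (hf two_hf)

variable {A : Type} [CommRing A] [Algebra ℂ A] {C : Ch A} {K : KC A} {a b : ℝ} {f g : A}

/-- The chart C is the chart algebra K. -/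
structure Cmp (C : Ch A) (K : KC A) : Prop where
  ch : C.Is
  kc : K.Is
  c : C.c = K.c
  T : C.T = K.T
  R : C.R = K.R
  P : C.an 0 = K.P
  Q : C.an 1 = K.Q
  V : ∀ f, C.an 2 f = K.H f - K.B f
  S : ∀ f, C.S f = K.H f + K.B f
  r : C.r = K.r
  N : (C.N : A) = K.N
  x : C.mu 2 2 = 2 * (ii A * K.x)
  s : C.mu 1 2 = ii A * K.s
  sb : C.mu 0 2 = -(ii A * K.sb)
  Oa : ∀ i, C.Om i K.a = 0
  OM : ∀ i, C.Om i K.M = 0
  bd : ∃ L, ∀ x, C.md x K.a ≤ L ∧ C.md x K.M ≤ L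

/-- The normal form of G; n and m are the components of thorn' and eth along T R P Q H B. -/
noncomputable def nfV (K : KC A) (G : GHP A) (n m : Fin 6 → A) (al : A) : NF A where
  G := G
  nc := ![K.N * n 0, K.N * n 1, K.N * n 2, K.N * n 3, hf A * (K.N * (n 4 - n 5))]
  mc := ![m 0, m 1, m 2, m 3, hf A * (m 4 - m 5)]
  ga := K.N * (n 4 + n 5)
  be := m 4 + m 5
  al := al

theorem nfV_is (h : Cmp C K) {G : GHP A} {n m : Fin 6 → A} {al : A} (hG : G.Is) (hc : G.c = K.c)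
    (hH : G.H = K.H) (hB : G.Hb = K.B) (ht : G.th = oth K) (hk : G.ka = 0)
    (hn : G.tp = K.V (n 0) (n 1) (n 2) (n 3) (n 4) (n 5))
    (hm : G.et = K.V (m 0) (m 1) (m 2) (m 3) (m 4) (m 5)) (h1 : K.R (K.r * al) = 0)
    (h2 : K.H al + K.B al = 0) : (nfV K G n m al).Is C where
  is := hG
  c_eq := hc.trans h.c.symm
  HS f := by rw [h.S, ← hH, ← hB]; rfl
  HV f := by rw [h.V, ← hH, ← hB]; rfl
  th f := by rw [h.N, h.R, ← oth_ap, ← ht]; rfl
  ka := hk
  tp f := by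
    simp only [nfV, hn, KC.V_ap, Ch.vf, Ch.D, Fin.sum_univ_five, Matrix.cons_val,
      Derivation.add_apply, Derivation.smul_apply, smul_eq_mul, h.N, h.T, h.R, h.P, h.Q, h.V, h.S]
    linear_combination -(K.N * (n 4 - n 5) * (K.H f - K.B f)) * two_hf (A := A)
  et f := by
    simp only [nfV, hm, KC.V_ap, Ch.vf, Ch.D, Fin.sum_univ_five, Matrix.cons_val,
      Derivation.add_apply, Derivation.smul_apply, smul_eq_mul, h.T, h.R, h.P, h.Q, h.V, h.S]
    linear_combination -((m 4 - m 5) * (K.H f - K.B f)) * two_hf (A := A)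
  al := ⟨by rw [h.R, h.r]; exact h1, (h.S _).trans h2⟩

/-- The components of the outgoing frame of Kerr, and of the field T. -/
noncomputable def onc (K : KC A) : Fin 6 → A :=
  ![2 * K.Ni * K.sg * K.W, -(K.Ni * K.sg * K.De), ii A * K.a * K.s * K.Ni * K.sg,
    -(ii A * K.a * K.sb * K.Ni * K.sg), -(K.Ni * (ga K + ii A * K.a * K.x * K.sg)),
    -(K.Ni * (gab K - ii A * K.a * K.x * K.sg))]
noncomputable def omc (K : KC A) : Fin 6 → A :=
  ![ii A * K.a * K.s * K.zb, 0, 0, K.zb, 0, ii A * K.a * K.s * K.zb * K.zb]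
noncomputable def otc (K : KC A) : Fin 4 → A :=
  ![hf A * (K.sg * K.De), hf A, hf A * (ii A * K.a * K.sb * K.z),
    -(hf A * (ii A * K.a * K.s * K.zb))]

/-- Kerr in normal form. -/
noncomputable def nfO (K : KC A) : NF A := nfV K (out K) (onc K) (omc K) 0

theorem nfO_is (h : Cmp C K) : (nfO K).Is C :=
  nfV_is h (out_is h.kc) rfl rfl rfl rfl rfl rfl rfl (by simp) (by simp)

/-- Stationary symbols. -/
def Sz (C : Ch A) (a : ℝ) (f : A) : Prop := C.T f = 0 ∧ Sb C a f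

theorem Sz.sy (hf : Sz C a f) : C.Sy a f := hf.2.sy hf.1
theorem Sz.of (hf : Sz C a f) (e : g = f) : Sz C a g := e ▸ hf
theorem sz_zero : Sz C a 0 := ⟨D_zero _, sb_zero⟩
theorem Sz.add (hf : Sz C a f) (hg : Sz C a g) : Sz C a (f + g) :=
  ⟨by rw [D_add, hf.1, hg.1, add_zero], hf.2.add hg.2⟩
theorem Sz.mul (h : C.Is) (hf : Sz C a f) (hg : Sz C b g) : Sz C (a + b) (f * g) :=
  ⟨by rw [D_mul, hf.1, hg.1]; ring, hf.2.mul h hg.2⟩
theorem Sz.mono (h : C.Is) (hf : Sz C a f) (e : b ≤ a) : Sz C b f := ⟨hf.1, hf.2.mono h e⟩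
theorem sz_alg (h : C.Is) (z : ℂ) : Sz C 0 (algebraMap ℂ A z) := ⟨D_alg _ _, sb_alg h z⟩
theorem Sz.cmul (h : C.Is) (hg : Sz C 0 g) (hf : Sz C a f) : Sz C a (g * f) := by
  simpa only [zero_add] using hg.mul h hf
theorem Sz.neg (h : C.Is) (hf : Sz C a f) : Sz C a (-f) :=
  ⟨by rw [D_neg, hf.1, neg_zero], hf.2.neg h⟩
theorem Sz.sub (h : C.Is) (hf : Sz C a f) (hg : Sz C a g) : Sz C a (f - g) := by
  rw [sub_eq_add_neg]; exact hf.add (hg.neg h)
theorem sz_two (h : C.Is) : Sz C 0 (2 : A) := by simpa only [map_ofNat] using sz_alg h 2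
theorem sz_one (h : C.Is) : Sz C 0 (1 : A) := by simpa only [map_one] using sz_alg h 1
theorem sz_r (h : C.Is) : Sz C (-1) C.r := ⟨h.D_r 0, sb_r h⟩
theorem sz_ri (h : C.Is) : Sz C 1 C.ri :=
  ⟨by rw [KC.D_inv _ (show C.ri * C.r = 1 by rw [mul_comm, h.hr]), (sz_r h).1]; ring, sb_ri h⟩
theorem sz_mu (h : C.Is) (p i : Fin 3) : Sz C 0 (C.mu p i) := ⟨h.T_mu p i, sb_mu h p i⟩

namespace Cmp
variable (h : Cmp C K)
include h

theorem z_i : Sz C 0 (ii A) := sz_alg h.ch _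
theorem z_hf : Sz C 0 (hf A) := sz_alg h.ch _
theorem z_r : Sz C (-1) K.r := h.r ▸ sz_r h.ch
theorem hr : K.r * C.ri = 1 := h.r ▸ h.ch.hr

theorem z_a : Sz C 0 K.a := by
  obtain ⟨L, e⟩ := h.bd
  refine ⟨h.T ▸ h.kc.T_a, sb_cst ⟨L, fun x => (e x).1⟩ fun i => ?_⟩
  fin_cases i <;> simp [Ch.X, h.T, h.R, h.kc.T_a, h.kc.R_a, h.Oa]

theorem z_M : Sz C 0 K.M := by
  obtain ⟨L, e⟩ := h.bd
  refine ⟨h.T ▸ h.kc.T_M, sb_cst ⟨L, fun x => (e x).2⟩ fun i => ?_⟩
  fin_cases i <;> simp [Ch.X, h.T, h.R, h.kc.T_M, h.kc.R_M, h.OM]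

theorem z_x : Sz C 0 K.x :=
  ((h.z_hf.cmul h.ch (h.z_i.cmul h.ch (sz_mu h.ch 2 2))).neg h.ch).of (by
    rw [h.x]; linear_combination -K.x * two_hf (A := A) + 2 * hf A * K.x * ii_sq (A := A))

theorem z_s : Sz C 0 K.s := ((h.z_i.cmul h.ch (sz_mu h.ch 1 2)).neg h.ch).of (by
  rw [h.s]; linear_combination K.s * ii_sq (A := A))

theorem z_sb : Sz C 0 K.sb := (h.z_i.cmul h.ch (sz_mu h.ch 0 2)).of (by
  rw [h.sb]; linear_combination K.sb * ii_sq (A := A))

theorem z_ax : Sz C 0 (K.a * K.x) := h.z_a.cmul h.ch h.z_x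

theorem z_sg : Sz C 2 K.sg := by
  have c := h.ch
  have y : Sz C 0 (1 + K.a * K.x * C.ri * (K.a * K.x * C.ri)) :=
    (sz_one c).add (((h.z_ax.cmul c (sz_ri c)).mul c (h.z_ax.cmul c (sz_ri c))).mono c
      (by norm_num))
  have e : K.r * K.r * K.sg * (1 + K.a * K.x * C.ri * (K.a * K.x * C.ri)) = 1 := by
    linear_combination h.kc.hg + K.sg * K.a * K.a * K.x * K.x * (K.r * C.ri + 1) * h.hr
  have q : Sb C 0 (K.r * K.r * K.sg) := by
    refine sb_closure c ⟨1, zero_le_one, fun x => ?_⟩ fun i => ?_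
    · have re : (C.B x.1).Re (K.a * K.x * C.ri) := by
        have := congrArg K.c h.hr
        rw [map_mul, map_one, h.kc.c_r] at this
        rw [Ibp.Re, c.c_eq, h.c, map_mul, map_mul, h.kc.c_a, h.kc.c_x]
        linear_combination K.a * K.x * C.ri * this - K.a * K.x * K.c C.ri * h.hr
      have v := congrArg (fun u => ‖(C.B x.1).ev x.2 u‖) e
      simp only [map_mul _ (K.r * K.r * K.sg), map_mul _ (K.a * K.x * C.ri), map_add, map_one,
        (c.ibp _).ev_re re, norm_mul, norm_one] at v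
      rw [← Complex.ofReal_mul, ← Complex.ofReal_one, ← Complex.ofReal_add, Complex.norm_real,
        Real.norm_of_nonneg (add_nonneg zero_le_one (mul_self_nonneg _))] at v
      rw [neg_zero, Real.rpow_zero, one_mul, Ch.md, Ibp.md]
      nlinarith [norm_nonneg ((C.B x.1).ev x.2 (K.r * K.r * K.sg)),
        mul_self_nonneg ((C.B x.1).val x.2 (K.a * K.x * C.ri))]
    · rw [KC.D_inv _ e]
      have m : K.r * K.r * K.sg ∈ Subring.closure ({K.r * K.r * K.sg} ∪ {g | Sb C 0 g}) :=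
        Subring.subset_closure (Or.inl rfl)
      exact neg_mem (mul_mem (mul_mem m m) (Subring.subset_closure (Or.inr (y.2.der i))))
  refine ⟨h.T ▸ h.kc.T_sg, ((q.cmul c ((sb_ri c).mul c (sb_ri c))).mono c (by norm_num)).of ?_⟩
  linear_combination -K.sg * (K.r * C.ri + 1) * h.hr

theorem z_iax : Sz C (-1) (ii A * K.a * K.x) :=
  (((h.z_i.cmul h.ch h.z_a).cmul h.ch h.z_x)).mono h.ch (by norm_num)

theorem z_z : Sz C 1 K.z := (h.z_sg.mul h.ch (h.z_r.add h.z_iax)).mono h.ch (by norm_num)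
theorem z_zb : Sz C 1 K.zb := (h.z_sg.mul h.ch (h.z_r.sub h.ch h.z_iax)).mono h.ch (by norm_num)

theorem z_De : Sz C 1 (K.sg * K.De - 1) := by
  have c := h.ch
  have := h.z_sg.mul c ((((h.z_a.cmul c h.z_a).sub c (h.z_ax.cmul c h.z_ax)).mono c
    (show (-1 : ℝ) ≤ 0 by norm_num)).sub c (((sz_two c).cmul c h.z_M).cmul c h.z_r))
  exact (this.mono c (by norm_num)).of (by rw [KC.De]; linear_combination h.kc.hg)

theorem z_zr : Sz C 2 (K.z - C.ri) := by
  have c := h.ch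
  have := ((h.z_i.cmul c h.z_ax).cmul c h.z_z).mul c (sz_ri c)
  exact (this.mono c (by norm_num)).of (by linear_combination C.ri * h.kc.z_ze - K.z * h.hr)

theorem z_zbr : Sz C 2 (K.zb - C.ri) := by
  have c := h.ch
  have := (((h.z_i.cmul c h.z_ax).cmul c h.z_zb).mul c (sz_ri c)).neg c
  refine (this.mono c (by norm_num)).of ?_
  rw [KC.zb]
  linear_combination C.ri * h.kc.hg - K.sg * (K.r - ii A * K.a * K.x) * h.hr -
    C.ri * K.sg * K.a * K.a * K.x * K.x * ii_sq (A := A)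

theorem z_ee : Sz C 2 K.ee := by
  have c := h.ch
  have a2 := (h.z_ax.cmul c h.z_ax).sub c (h.z_a.cmul c h.z_a)
  have := (h.z_sg.mul c h.z_sg).mul c (((h.z_M.cmul c (h.z_r.mul c h.z_r)).add
    ((a2.cmul c h.z_r).mono c (by norm_num))).sub c
    ((h.z_M.cmul c (h.z_ax.cmul c h.z_ax)).mono c (by norm_num)))
  exact (this.mono c (by norm_num)).of (by
    rw [KC.ee, KC.De]; linear_combination -((K.r - K.M) * K.sg) * h.kc.hg)

theorem nz_one : NF.nz C 1 = K.Ni := by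
  have := C.N.inv_mul
  rw [h.N] at this
  rw [NF.nz, zpow_neg, zpow_one]
  linear_combination K.Ni * this - (C.N⁻¹ : Aˣ) * h.kc.hN

theorem nz_neg : NF.nz C (-1) = K.N := by rw [NF.nz, neg_neg, zpow_one, h.N]

/-- Kerr is a reference solution. -/
theorem ref : (nfO K).Ref C (otc K) := by
  have c := h.ch
  have n := h.kc.hN
  have t := two_hf (A := A)
  have ia := h.z_i.cmul c h.z_a
  have zz : Sz C 2 (K.z * K.z) := (h.z_z.mul c h.z_z).mono c (by norm_num)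
  have bb : Sz C 2 (K.zb * K.zb) := (h.z_zb.mul c h.z_zb).mono c (by norm_num)
  have chf : K.c (hf A) = hf A := by rw [hf, h.kc.calg, map_div₀, map_one, map_ofNat]
  have dhf : ∀ D : Der A, D (hf A) = 0 := fun D => D_alg D _
  refine ⟨nfO_is h, Sz.sy ?_, Sz.sy ?_, ⟨Sz.sy ?_, Sz.sy ?_, Sz.sy ?_⟩, ⟨Sz.sy ?_, sz_zero.sy⟩,
    ⟨sz_zero.sy, h.z_zbr.sy, Sz.sy ?_⟩, ⟨Sz.sy ?_, Sz.sy ?_, Sz.sy ?_, Sz.sy ?_⟩,
    ⟨Sz.sy ?_, Sz.sy ?_⟩, ⟨rfl, rfl, rfl, rfl, rfl, rfl, rfl⟩, Sz.sy ?_, rfl,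
    ⟨Sz.sy ?_, Sz.sy ?_, Sz.sy ?_⟩, ?_, ?_⟩
  all_goals simp only [nfO, nfV, onc, omc, otc, out, Matrix.cons_val, orh, orh2, h.nz_one, h.nz_neg]
  · exact (((sz_two c).cmul c ((h.z_a.cmul c h.z_a).sub c (h.z_ax.cmul c h.z_ax))).cmul c
      h.z_sg).of (by
        rw [KC.W]; linear_combination 2 * K.sg * (K.r * K.r + K.a * K.a) * n + 2 * h.kc.hg)
  · exact (h.z_De.neg c).of (by linear_combination -(K.sg * K.De) * n)
  · exact ((ia.cmul c h.z_s).cmul c h.z_sg).of (by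
      linear_combination ii A * K.a * K.s * K.sg * n)
  · exact (((ia.cmul c h.z_sb).cmul c h.z_sg).neg c).of (by
      linear_combination -(ii A * K.a * K.sb * K.sg) * n)
  · exact (((ia.cmul c h.z_x).cmul c (h.z_sg.mul c h.z_De)).mono c (by norm_num)).of (by
      rw [ga, gab]
      linear_combination ii A * K.a * K.x * K.sg * (K.sg * K.De - 1) * (2 * hf A * n + t))
  · exact (ia.cmul c h.z_s).cmul c h.z_zb
  · exact (h.z_hf.cmul c (((ia.cmul c h.z_s).cmul c bb).neg c)).of (by ring)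
  · exact (((sz_two c).cmul c h.z_ee).neg c).of (by
      rw [ga, gab]; linear_combination -(2 * K.ee) * n)
  · exact ((ia.cmul c h.z_s).cmul c bb).of (by ring)
  · exact (((ia.cmul c h.z_s).cmul c h.z_sg).neg c).of (by rw [KC.ta]; ring)
  · exact (((ia.cmul c h.z_sb).cmul c zz).neg c).of (by rw [KC.ta2]; ring)
  · exact (h.z_zr.neg c).of (by linear_combination -K.z * n)
  · exact (((h.z_De.mul c h.z_z).mono c (by norm_num)).add h.z_zr).of (by
      linear_combination K.sg * K.De * K.z * n)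
  · exact (((((sz_two c).cmul c h.z_M).cmul c (zz.mul c h.z_z)).neg c).mono c (by norm_num)).of
      (by rw [KC.P2]; ring)
  · exact h.z_De.of (by linear_combination K.sg * K.De * t)
  · exact sz_zero.of (by linear_combination t)
  · exact h.z_hf.cmul c ((ia.cmul c h.z_sb).cmul c h.z_z)
  · simp only [h.c, map_mul, map_add, map_sub, map_ofNat, chf, KC.De, KC.z, KC.zb, h.kc.tab]
    exact ⟨trivial, trivial, by ring⟩
  · simp only [h.S, h.V, D_mul, D_add, D_sub, D_num, D_ii, dhf, KC.De, KC.z, h.kc.tab]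
    refine ⟨?_, ?_, ?_, ?_, ?_, ?_⟩ <;> ring

end Cmp

end Vale.Agent.P354YK
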