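import Vale.Agent.P354Z.Est
import Vale.Agent.P354YK.Ref

/-!
The components of the covector of l in the outgoing gauge are constant along the rays.
-/

namespace Vale.Agent.P354YK

open Vale.Agent.P354XG Vale.Agent.P354XG.Geo Vale.Agent.P354XD Vale.Agent.P354XR Vale.Agent.P354Z

variable {A : Type} [CommRing A] [Algebra ℂ A] {K : Hp A} {p : Pm A}
  {g : Fin 4 → Fin 4 → A} {Γ : Fin 4 → Fin 4 → Fin 4 → A} {F : Fr A}

theorem cm_V (h : K.Is) (e0 e1 e2 e3 e4 e5 : A) :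
    cm K p ((kk K p).V e0 e1 e2 e3 e4 e5) = ![e0, e1, e2, e3, e4, e5] := by
  obtain ⟨-, -, -, -, -, -, -, -, -, -, -, -, a, b, c, d⟩ := h.tab
  have n := h.hN
  simp only [Hp.N] at n
  rw [kk_V]
  funext i
  fin_cases i <;> simp [cm, KC.V_ap, Hp.kc, h.dz, a, b, c, d]
  · linear_combination (e2 - e1 * p.j1 * (ii A * (2 * K.z 2 * K.z 3 * K.Ni))) * n
  · linear_combination (e3 + e1 * p.j1 * (ii A * (2 * K.z 4 * K.z 5 * K.Ni))) * n
  · linear_combination (e4 + e1 * p.j1 * (ii A * ((K.z 2 * K.z 4 - K.z 3 * K.z 5) * K.Ni))) * n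
  · linear_combination (e5 - e1 * p.j1 * (ii A * ((K.z 2 * K.z 4 - K.z 3 * K.z 5) * K.Ni))) * n

theorem act_ex (u : Op A) : ∃ e0 e1 e2 e3 e4 e5,
    (K.geo g Γ).act u = (kk K p).V e0 e1 e2 e3 e4 e5 := by
  refine ⟨∑ a, u.X a * c1 K p a, ∑ a, u.X a * K.om a, ∑ a, u.X a * c3 K p a,
    ∑ a, u.X a * c4 K p a, u.a - (∑ a, u.X a * K.om a) * p.j1 * (ii A * K.kc.x),
    u.b + (∑ a, u.X a * K.om a) * p.j1 * (ii A * K.kc.x), Derivation.ext fun f => ?_⟩
  rw [kk_V, act_apply, KC.V_ap]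
  simp only [Hp.geo, Hp.L_ap, c1, c3, c4, Fin.sum_univ_four, Hp.kc]
  ring

/-- A lifted field is given by its components. -/
theorem act_cm (h : K.Is) (u : Op A) {D : Der A} (e : D = (K.geo g Γ).act u) :
    D = (kk K p).V (cm K p D 0) (cm K p D 1) (cm K p D 2) (cm K p D 3) (cm K p D 4)
      (cm K p D 5) := by
  obtain ⟨e0, e1, e2, e3, e4, e5, a⟩ := act_ex (K := K) (p := p) (g := g) (Γ := Γ) u
  rw [e, a, cm_V h]
  rfl

theorem prj_act (h : K.Is) (u : Op A) : K.prj ((K.geo g Γ).act u) = u.X := by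
  funext b
  simp [Hp.prj, dv, act_apply, Hp.geo, h.L_co, h.tco]

/-- The components of the covector of l along P and Q. -/
noncomputable def la (K : Hp A) (S : Geo A) (l : Vec A) : Fin 2 → A :=
  ![-(2 * K.Ni * S.dot l (K.prj K.P)), -(2 * K.Ni * S.dot l (K.prj K.Q))]

/-- The outgoing gauge. -/
structure Og (K : Hp A) (p : Pm A) (S : Geo A) (F : Fr A) : Prop where
  is : K.Is
  pis : p.Is K
  geo : ∃ g Γ, S = K.geo g Γ
  hS : S.Is
  wn : F.WN S
  th : (F.ghp S).th = oth (kk K p)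
  ka : (F.ghp S).ka = 0
  lT : 2 * S.dot F.l (K.prj (K.d 0)) = -K.N

namespace Og
variable {S : Geo A} (o : Og K p S F)
include o

theorem ghp_is : (F.ghp S).Is := WNull.is o.hS o.wn

theorem tp_eq : (F.ghp S).tp = (kk K p).V (cm K p (F.ghp S).tp 0) (cm K p (F.ghp S).tp 1)
    (cm K p (F.ghp S).tp 2) (cm K p (F.ghp S).tp 3) (cm K p (F.ghp S).tp 4)
    (cm K p (F.ghp S).tp 5) := by
  obtain ⟨g, Γ, rfl⟩ := o.geo
  exact act_cm o.is _ rfl

theorem et_eq : (F.ghp S).et = (kk K p).V (cm K p (F.ghp S).et 0) (cm K p (F.ghp S).et 1)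
    (cm K p (F.ghp S).et 2) (cm K p (F.ghp S).et 3) (cm K p (F.ghp S).et 4)
    (cm K p (F.ghp S).et 5) := by
  obtain ⟨g, Γ, rfl⟩ := o.geo
  exact act_cm o.is _ rfl

theorem cHB : (F.ghp S).c = K.c ∧ (F.ghp S).H = K.H ∧ (F.ghp S).Hb = K.B := by
  obtain ⟨g, Γ, rfl⟩ := o.geo
  exact ⟨rfl, rfl, rfl⟩

theorem prj4 : K.prj (F.ghp S).th = F.l ∧ K.prj (F.ghp S).tp = F.n ∧ K.prj (F.ghp S).et = F.m ∧
    K.prj (F.ghp S).ep = F.mb := by
  obtain ⟨g, Γ, rfl⟩ := o.geo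
  exact ⟨prj_act o.is _, prj_act o.is _, prj_act o.is _, prj_act o.is _⟩

theorem l_R : S.dot F.l (K.prj (kk K p).R) = 0 := by
  have e : F.l = K.N • K.prj (kk K p).R := by
    rw [← o.prj4.1, o.th]; exact funext fun a => oth_ap _ _
  have := o.wn.toNull.ll
  nth_rw 2 [e] at this
  rw [dot_smul_right] at this
  linear_combination K.Ni * this - S.dot F.l (K.prj (kk K p).R) * o.is.hN

theorem l_V (e0 e1 e2 e3 e4 e5 : A) :
    -(2 * K.Ni * S.dot F.l (K.prj ((kk K p).V e0 e1 e2 e3 e4 e5))) =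
      e0 + la K S F.l 0 * e2 + la K S F.l 1 * e3 := by
  have e : K.prj ((kk K p).V e0 e1 e2 e3 e4 e5) = e0 • K.prj (K.d 0) + e1 • K.prj (kk K p).R +
      e2 • K.prj K.P + e3 • K.prj K.Q := funext fun a => by
    have := o.is.tco a
    simp only [Hp.prj, dv, KC.V_ap, Pi.add_apply, Pi.smul_apply, smul_eq_mul]
    rw [show (kk K p).H (K.co a) = 0 from this.2.2.2.2.1,
      show (kk K p).B (K.co a) = 0 from this.2.2.2.2.2, mul_zero, mul_zero, add_zero, add_zero]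
    rfl
  simp only [e, dot_add_right, dot_smul_right, o.l_R, la, Matrix.cons_val]
  linear_combination -(K.Ni * e0) * o.lT + e0 * o.is.hN

/-- The two linear relations. -/
theorem la_m : cm K p (F.ghp S).et 0 + la K S F.l 0 * cm K p (F.ghp S).et 2 +
    la K S F.l 1 * cm K p (F.ghp S).et 3 = 0 := by
  rw [← o.l_V _ _ _ _ (cm K p (F.ghp S).et 4) (cm K p (F.ghp S).et 5), ← o.et_eq, o.prj4.2.2.1,
    o.wn.toNull.lm, mul_zero, neg_zero]

theorem la_n : K.N * cm K p (F.ghp S).tp 0 + la K S F.l 0 * (K.N * cm K p (F.ghp S).tp 2) +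
    la K S F.l 1 * (K.N * cm K p (F.ghp S).tp 3) = 2 := by
  have := o.l_V (cm K p (F.ghp S).tp 0) (cm K p (F.ghp S).tp 1) (cm K p (F.ghp S).tp 2)
    (cm K p (F.ghp S).tp 3) (cm K p (F.ghp S).tp 4) (cm K p (F.ghp S).tp 5)
  rw [← o.tp_eq, o.prj4.2.1, o.wn.toNull.ln] at this
  linear_combination -K.N * this + 2 * o.is.hN

theorem R_dot {e2 e3 : A} (c : ∀ f, oth (kk K p) (K.kc.V 0 0 e2 e3 0 0 f) =
    K.kc.V 0 0 e2 e3 0 0 (oth (kk K p) f)) :
    (kk K p).R (S.dot F.l (K.prj (K.kc.V 0 0 e2 e3 0 0))) = 0 := by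
  have N := o.wn.toNull
  have hS := o.hS
  have k := o.ka
  have kc := congrArg S.c k
  have t := o.th
  have l := o.prj4.1
  obtain ⟨g, Γ, rfl⟩ := o.geo
  set S := K.geo g Γ
  set u := hat S F.l F.n F.m F.mb F.l
  set w : Op A := ⟨K.prj (K.kc.V 0 0 e2 e3 0 0), 0, 0⟩
  have t' : S.act u = oth (kk K p) := t
  have k' : -S.dot (S.nab u F.l) F.m = 0 := k
  have kb : -S.dot (S.nab u F.l) F.mb = 0 := by
    have := congrArg S.c k'
    rwa [map_neg, hS.c_dot, hS.c_nab (WNull.cj_hat hS o.wn N.c_l), N.c_l, N.c_m, map_zero] at this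
  have n0 : S.nab u F.l = 0 := by
    rw [(N.table hS u (WNull.gauge hS o.wn _) k'.symm kb.symm rfl rfl).1]; simp
  have aw : ∀ f, S.act w f = K.kc.V 0 0 e2 e3 0 0 f := o.is.act_prj g Γ _ _ _ _ _ _
  have b : (S.br u w).X = 0 := funext fun a => by
    have : F.l a = oth (kk K p) (K.co a) := by rw [← l, t]; rfl
    simp only [br, dv, Pi.sub_apply, t', aw, Pi.zero_apply]
    rw [show u.X a = _ from this, ← c]
    exact sub_self _
  rw [hS.br_X, sub_eq_zero] at b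
  have z := hS.dot_flip w (Y := F.l) (Z := F.l) (by rw [N.ll, D_zero])
  have e := hS.act_dot u F.l w.X
  rw [n0, dot_zero_left, b, hS.dot_comm F.l (S.nab w u.X), t', oth_ap,
    show S.dot (S.nab w u.X) F.l = 0 from hS.half (S.dot (S.nab w F.l) F.l)
      (by linear_combination z)] at e
  have n : (kk K p).N * K.Ni = 1 := o.is.hN
  linear_combination K.Ni * e - (kk K p).R (S.dot F.l w.X) * n

theorem R_la (i : Fin 2) : (kk K p).R (la K S F.l i) = 0 := by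
  have k := kk_is o.is o.pis
  have eP : K.kc.V 0 0 1 0 0 0 = K.P := Derivation.ext fun f => by simp [KC.V_ap, Hp.kc]
  have eQ : K.kc.V 0 0 0 1 0 0 = K.Q := Derivation.ext fun f => by simp [KC.V_ap, Hp.kc]
  have a := o.R_dot (e2 := 1) (e3 := 0) fun f => by
    rw [eP, oth_ap, oth_ap]
    exact ((D_mul _ _ _).trans (by rw [show K.P (kk K p).N = 0 from k.P_N, mul_zero, add_zero,
      show K.P ((kk K p).R f) = _ from k.P_R f]; rfl)).symm
  have b := o.R_dot (e2 := 0) (e3 := 1) fun f => by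
    rw [eQ, oth_ap, oth_ap]
    exact ((D_mul _ _ _).trans (by rw [show K.Q (kk K p).N = 0 from k.Q_N, mul_zero, add_zero,
      show K.Q ((kk K p).R f) = _ from k.Q_R f]; rfl)).symm
  have n : (kk K p).R K.Ni = 0 := k.R_Ni
  rw [eP] at a
  rw [eQ] at b
  fin_cases i <;> simp [la, D_num, a, b, n]

theorem HB_la : K.H (la K S F.l 0) = -la K S F.l 0 ∧ K.B (la K S F.l 0) = la K S F.l 0 ∧
    K.H (la K S F.l 1) = la K S F.l 1 ∧ K.B (la K S F.l 1) = -la K S F.l 1 := by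
  have k := o.is.kc
  have hS := o.hS
  have w := o.wn
  obtain ⟨g, Γ, rfl⟩ := o.geo
  have a : ∀ Y Z, K.H ((K.geo g Γ).dot Y Z) = _ := hS.vertH.dot
  have b : ∀ Y Z, K.B ((K.geo g Γ).dot Y Z) = _ := hS.vertHb.dot
  have c := fun a => (o.is.tco a).2.2.2.2
  have e1 : dv (K.geo g Γ).H (K.prj K.P) = -K.prj K.P := funext fun a =>
    (k.H_P _).trans (by rw [show K.kc.H (K.co a) = 0 from (c a).1, D_zero, zero_sub]; rfl)
  have e2 : dv (K.geo g Γ).Hb (K.prj K.P) = K.prj K.P := funext fun a =>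
    (k.B_P _).trans (by rw [show K.kc.B (K.co a) = 0 from (c a).2, D_zero, zero_add]; rfl)
  have e3 : dv (K.geo g Γ).H (K.prj K.Q) = K.prj K.Q := funext fun a =>
    (k.H_Q _).trans (by rw [show K.kc.H (K.co a) = 0 from (c a).1, D_zero, zero_add]; rfl)
  have e4 : dv (K.geo g Γ).Hb (K.prj K.Q) = -K.prj K.Q := funext fun a =>
    (k.B_Q _).trans (by rw [show K.kc.B (K.co a) = 0 from (c a).2, D_zero, zero_sub]; rfl)
  simp only [la, Matrix.cons_val, D_neg, D_mul, D_num, a, b, e1, e2, e3, e4, WNull.H_l w,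
    WNull.Hb_l hS w, dot_neg_right, o.is.tab.2.2.2.2.1, o.is.tab.2.2.2.2.2.1]
  refine ⟨?_, ?_, ?_, ?_⟩ <;> ring

theorem c_la : K.c (la K S F.l 0) = la K S F.l 1 := by
  have hS := o.hS
  have w := o.wn.toNull.c_l
  obtain ⟨g, Γ, rfl⟩ := o.geo
  have a : ∀ Y Z, K.c ((K.geo g Γ).dot Y Z) = _ := hS.c_dot
  simp only [la, Matrix.cons_val, map_neg, map_mul, map_ofNat, a, w, o.is.c_Ni,
    cv_prj o.is g Γ o.is.c_P]

end Og

/-- The part of the component of m along T which is conserved along the rays. -/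
noncomputable def alp (K : Hp A) (p : Pm A) (S : Geo A) (l : Vec A) : A :=
  -((la K S l 1 + ii A * p.a * K.kc.s) * K.ri)

theorem Og.alp_R {S : Geo A} (o : Og K p S F) : (kk K p).R ((kk K p).r * alp K p S F.l) = 0 := by
  have k := kk_is o.is o.pis
  have e : (kk K p).r * alp K p S F.l = -(la K S F.l 1 + ii A * (kk K p).a * (kk K p).s) := by
    show K.z 1 * -((la K S F.l 1 + ii A * p.a * K.kc.s) * K.ri) =
      -(la K S F.l 1 + ii A * p.a * K.kc.s)
    linear_combination -(la K S F.l 1 + ii A * p.a * K.kc.s) * o.is.hr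
  simp only [e, D_neg, D_add, D_mul, D_ii, o.R_la, k.R_a, k.R_s]
  ring

theorem Og.alp_S {S : Geo A} (o : Og K p S F) :
    K.H (alp K p S F.l) + K.B (alp K p S F.l) = 0 := by
  have k := kk_is o.is o.pis
  have a1 : K.H p.a = 0 := k.H_a
  have a2 : K.B p.a = 0 := k.B_a
  have s1 : K.H K.kc.s = K.kc.s := k.H_s
  have s2 : K.B K.kc.s = -K.kc.s := k.B_s
  simp only [alp, D_neg, D_add, D_mul, D_ii, o.HB_la, a1, a2, s1, s2,
    o.is.tab.2.2.2.2.2.2.2.2.2.2.1, o.is.tab.2.2.2.2.2.2.2.2.2.2.2.1]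
  ring

end Vale.Agent.P354YK
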