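import Vale.Agent.P354YK.Box
import Vale.Agent.P354YK.Alg
import Vale.Agent.P354YK.La

/-!
The far chart of a family of states.
-/

open scoped ContDiff
open Set Filter Topology MeasureTheory

noncomputable section

namespace Vale.Agent.P354YK

open Vale.Agent.P354XG Vale.Agent.P354XI Vale.Agent.P354XD Vale.Agent.P354XR Vale.Agent.P354Z
open Vale.Agent.P354XZ (Ch NF Fam)

/-- A family of states with the same mass M0 of the background. -/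
structure Fm where
  J : Type
  M0 : ℝ
  c : J → Cs
  E : J → Est
  R0 : J → ℝ
  U0 : J → ℝ

namespace Fm
variable (Φ : Fm)

/-- The ring. -/
abbrev A : Type := ∀ j, Sm (on (Φ.E j).O2)

structure Ok : Prop where
  M : ∀ j, (Φ.c j).M = Φ.M0
  co : ∀ j, Cone (Φ.E j).O2
  eqs : ∀ j, (Φ.E j).Eqs (Φ.c j)
  one : ∀ j, 1 ≤ Φ.R0 j ∧ Φ.R0 j ≤ Φ.U0 j

/-- The far part. -/
def W (j : Φ.J) : Set E6 := {x | Φ.R0 j ≤ x.2.1 ∧ 0 ≤ uu Φ.M0 x + x.2.1}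

def hK : Hp Φ.A := hpi fun j => hp (on (Φ.E j).O2)
def pm : Pm Φ.A := ppi fun j => (Φ.E j).p2 (Φ.c j)
abbrev kc : KC Φ.A := kk Φ.hK Φ.pm

variable {Φ}

def pre (h : Φ.Ok) : Pre Φ.A where
  K := Φ.hK
  p := Φ.pm
  m := 4 * Φ.M0 ^ 2
  J := Φ.J
  B j := cmB (bW (h.co j).op (Φ.W j)) (Pi.evalAlgHom ℂ _ j) Φ.hK.c
  fn φ j := fnO _ Φ.M0 (φ j)
  R0 := Φ.R0
  U0 := Φ.U0
  Dom j := {p | Φ.R0 j ≤ p.2 ∧ 0 ≤ p.1 + p.2}

namespace Ok
variable (h : Φ.Ok)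
include h

theorem hK_is : Φ.hK.Is := hpi_is fun j => cone_is (h.co j)

/-- The chart. -/
def ch : Ch Φ.A := (pre h).ch h.hK_is

/-- The point of E6. -/
def pt (x : h.ch.Pt) : E6 := Subtype.val x.2

theorem pt_mem (x : h.ch.Pt) : h.pt x ∈ (Φ.E x.1).O2 ∧ An (h.pt x) ∧ h.pt x ∈ Φ.W x.1 :=
  Subtype.property x.2

/-- The point over a point of E6. -/
def pk (j : Φ.J) (x : E6) (hx : x ∈ (Φ.E j).O2 ∧ An x ∧ x ∈ Φ.W j) : h.ch.Pt :=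
  ⟨j, Subtype.mk x hx⟩

theorem ev_eq (x : h.ch.Pt) (f : Φ.A) : (h.ch.B x.1).ev x.2 f = fv (f x.1) (h.pt x) := rfl
theorem md_eq (x : h.ch.Pt) (f : Φ.A) : h.ch.md x f = ‖fv (f x.1) (h.pt x)‖ := rfl
theorem val_eq (x : h.ch.Pt) (f : Φ.A) : h.ch.val x f = rv (f x.1) (h.pt x) := rfl

theorem rr_eq (x : h.ch.Pt) : h.ch.rr x = (h.pt x).2.1 :=
  (congrArg Complex.re (fv_z 1 (h.pt_mem x).1)).trans (Complex.ofReal_re _)

theorem uu_eq (x : h.ch.Pt) : h.ch.uu x = uu Φ.M0 (h.pt x) := by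
  have m := (h.pt_mem x).1
  show (fv ((hp _).z 0 + Ibp.rl _ (4 * Φ.M0 ^ 2) * (hp _).ri) (h.pt x)).re = _
  rw [fv_add, fv_mul, fv_z 0 m, fv_rl _ m, fv_ri (h.co _) m, ← Complex.ofReal_inv,
    ← Complex.ofReal_mul, Complex.add_re, Complex.ofReal_re, uu, div_eq_mul_inv]
  rfl

theorem at_eq (φ : Fam Φ.J) (x : h.ch.Pt) :
    h.ch.at' φ x = φ x.1 (uu Φ.M0 (h.pt x)) (h.pt x).2.1 :=
  congrArg₂ (φ x.1) (h.uu_eq x) (h.rr_eq x)

theorem p2_is (j : Φ.J) : ((Φ.E j).p2 (Φ.c j)).Is (hp _) := pO_is (h.co j) _ _ _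

omit h in
theorem R_ap (f : Φ.A) (j : Φ.J) : Φ.kc.R f j = ((Φ.E j).K2 (Φ.c j)).R (f j) := by
  rw [kk_R, Est.K2, kO, kk_R]
  rfl

theorem pre_ok : (pre h).Ok h.hK_is where
  pis := ppi_is h.p2_is
  j1 := rfl
  h1 := funext fun j => (pO_h1 (h.co j) _ (Φ.E j).M (Φ.E j).a).trans (by rw [h.M]; rfl)
  ibp j := cmB_is (bW_is _) h.hK_is.cc h.hK_is.calg fun _ => rfl
  c_eq _ := rfl
  dvT j := cmB_dv (bW_dv _ (b0_d _ 0) (den_D (h.co j) (P354YL.ch_d (h.co j).op 0)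
    (cone_is (h.co j)).kc.T_N)) fun _ => rfl
  dvR j := cmB_dv (bW_dv _ (b0_d _ 1) (den_D (h.co j) (P354YL.ch_d (h.co j).op 1)
    (cone_is (h.co j)).kc.R_N)) fun _ => rfl
  dvO j i := cmB_dv (bW_dv _ (b0_Om (h.co j) i) (den_D (h.co j) (P354YL.ch_Om (h.co j).op i)
    (Om_z (cone_is (h.co j)) i).2.2.1)) (hhom_Om (hpi_hom _ j) i)
  N_le x := by
    have : h.ch.val x Φ.hK.N = nq (h.pt x) :=
      (congrArg Complex.re (fv_N (h.pt_mem x).1)).trans (Complex.ofReal_re _)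
    exact this ▸ (h.pt_mem x).2.1
  fn_val φ s x := (fv_fnO (h.co _) (s _) (h.pt_mem x).1).trans (congrArg _ (h.at_eq φ x).symm)
  fn_T φ s := funext fun j => fnO_T (h.co j) (s j)
  fn_R φ s := funext fun j => (R_ap _ j).trans (by
    rw [Est.K2, h.M]; exact fnO_R (h.co j) (s j) _ _)
  fn_d φ s i e := funext fun j => fnO_d (h.co j) (s j) i e
  fn_c φ s := funext fun j => fnO_c (h.co j) (s j)
  dom x := by
    have := (h.pt_mem x).2.2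
    exact ⟨this.1.trans_eq (h.rr_eq x).symm,
      this.2.trans_eq (congrArg₂ (· + ·) (h.uu_eq x) (h.rr_eq x)).symm⟩
  one_le := h.one
  rng j p e := ⟨e.1, by linarith [e.1, e.2, (h.one j).1]⟩
  bd := ⟨5 / 4 * Φ.M0, fun x => by
    have m := (h.pt_mem x).1
    have e := (h.eqs x.1).par
    rw [h.M x.1] at e
    have a : h.ch.md x Φ.pm.a = |(Φ.E x.1).a| :=
      (congrArg norm (fv_rs (rs_cst _) m)).trans (Complex.norm_real _)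
    have b : h.ch.md x Φ.pm.M = |(Φ.E x.1).M| :=
      (congrArg norm (fv_rs (rs_cst _) m)).trans (Complex.norm_real _)
    exact ⟨a.trans_le (e.1.le.trans e.2), b.trans_le
      ((abs_of_pos ((abs_nonneg _).trans_lt e.1)).trans_le e.2)⟩⟩

theorem is : h.ch.Is := h.pre_ok.is
theorem cmp : Cmp h.ch Φ.kc := h.pre_ok.cmp

theorem mem_K (j : Φ.J) (f : Φ.A) : f ∈ (h.ch.B j).K ↔ ∃ C, IsCompact C ∧ C ⊆ (Φ.E j).O2 ∧
    C ⊆ Φ.W j ∧ ∀ x ∉ C, fv (den _ * f j) x = 0 := Iff.rfl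

theorem J_eq {j : Φ.J} {f : Φ.A} (e : f ∈ (h.ch.B j).K) :
    (h.ch.B j).J f = ∫ x, P354BO.bu (nq x) ^ 2 * (fv (f j) x).re := bW_J (h.co j).op e

/-- The letters. -/
theorem X_ap (a : Fin 5) (f : Φ.A) (j : Φ.J) : h.ch.X a f j =
    ![(hp _).d 0, (hp (on (Φ.E j).O2)).z 1 • ((Φ.E j).K2 (Φ.c j)).R, Om (hp _) 0, Om (hp _) 1,
      Om (hp _) 2] a (f j) := by
  fin_cases a
  · rfl
  · exact congrArg ((hp _).z 1 * ·) (R_ap f j)
  exacts [hhom_Om (hpi_hom _ j) 0 f, hhom_Om (hpi_hom _ j) 1 f, hhom_Om (hpi_hom _ j) 2 f]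

theorem og (j : Φ.J) : Og (hp _) ((Φ.E j).p2 (Φ.c j)) (ge _ (Φ.E j).g) (Φ.E j).F2 where
  is := cone_is (h.co j)
  pis := h.p2_is j
  geo := ⟨_, _, rfl⟩
  hS := geo_is (cone_pos (h.co j)).off _ (on_of (h.co j).op (h.eqs j).v2)
  wn := (h.eqs j).w2
  th := (h.eqs j).th
  ka := (h.eqs j).ka
  lT := (h.eqs j).lT

end Ok

variable (Φ)

/-- The solution, the reference solution and the components of T. -/
def G : GHP Φ.A := gpi fun j => (Φ.E j).G2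
def al : Φ.A := fun j => alp (hp _) ((Φ.E j).p2 (Φ.c j)) (ge _ (Φ.E j).g) (Φ.E j).F2.l
def nf : NF Φ.A :=
  nfV Φ.kc Φ.G (fun i j => cm (hp _) ((Φ.E j).p2 (Φ.c j)) (Φ.E j).G2.tp i)
    (fun i j => cm (hp _) ((Φ.E j).p2 (Φ.c j)) (Φ.E j).G2.et i) Φ.al
def nf0 : NF Φ.A := nfO Φ.kc
def tc : Fin 4 → Φ.A := otc Φ.kc

variable {Φ}

theorem V_ap (e0 e1 e2 e3 e4 e5 f : Φ.A) (j : Φ.J) : Φ.kc.V e0 e1 e2 e3 e4 e5 f j =
    ((Φ.E j).K2 (Φ.c j)).V (e0 j) (e1 j) (e2 j) (e3 j) (e4 j) (e5 j) (f j) := by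
  rw [KC.V_ap, KC.V_ap, ← Ok.R_ap]
  simp only [Pi.add_apply, Pi.mul_apply]
  exact congrArg₂ (· + ·) (congrArg₂ (· + ·) (congrArg₂ (· + ·) (congrArg₂ (· + ·) rfl
    (congrArg _ ((hpi_hom (fun j => hp (on (Φ.E j).O2)) j).P f)))
    (congrArg _ ((hpi_hom (fun j => hp (on (Φ.E j).O2)) j).Q f)))
    (congrArg _ ((hpi_hom (fun j => hp (on (Φ.E j).O2)) j).H f)))
    (congrArg _ ((hpi_hom (fun j => hp (on (Φ.E j).O2)) j).Bf f))

theorem H_ap (f : Φ.A) (j : Φ.J) : Φ.kc.H f j = (hp (on (Φ.E j).O2)).H (f j) :=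
  (hpi_hom (fun j => hp (on (Φ.E j).O2)) j).H f
theorem B_ap (f : Φ.A) (j : Φ.J) : Φ.kc.B f j = (hp (on (Φ.E j).O2)).B (f j) :=
  (hpi_hom (fun j => hp (on (Φ.E j).O2)) j).Bf f

theorem Ok.nf_is (h : Φ.Ok) : Φ.nf.Is h.ch := by
  have a : ∀ {D D' : Der Φ.A}, (∀ f j, D f j = D' f j) → D = D' := fun e =>
    Derivation.ext fun f => funext (e f)
  refine nfV_is h.cmp (gpi_is fun j => (h.og j).ghp_is)
    (congrArg cpi (funext fun j => (h.og j).cHB.1)) (a fun f j => ?_) (a fun f j => ?_)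
    (a fun f j => ?_) (funext fun j => (h.eqs j).ka) (a fun f j => ?_) (a fun f j => ?_)
    (funext fun j => (Ok.R_ap _ j).trans (h.og j).alp_R) (funext fun j => ?_)
  · rw [H_ap, ← (h.og j).cHB.2.1]; rfl
  · rw [B_ap, ← (h.og j).cHB.2.2]; rfl
  · rw [oth, V_ap]
    exact DFunLike.congr_fun (h.eqs j).th (f j)
  · rw [V_ap]
    exact DFunLike.congr_fun (h.og j).tp_eq (f j)
  · rw [V_ap]
    exact DFunLike.congr_fun (h.og j).et_eq (f j)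
  · rw [Pi.add_apply, H_ap, B_ap]
    exact (h.og j).alp_S

/-- The solution is in the gauge of the reference solution. -/
theorem Ok.ga (h : Φ.Ok) : Φ.nf.Ga Φ.nf0 h.ch Φ.tc :=
  ⟨h.is, h.nf_is, h.cmp.ref, funext fun j => (h.eqs j).ta⟩

end Fm

end Vale.Agent.P354YK
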