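import Vale.Agent.P354XD.Hen
import Vale.Agent.P354XR.Met
import Vale.Agent.P354YK.Out

/-!
The Kerr metric in outgoing coordinates and its outgoing principal null frame.
-/

set_option linter.unusedSimpArgs false

namespace Vale.Agent.P354YK

open Vale.Agent.P354XG Vale.Agent.P354XG.Geo Vale.Agent.P354XD Vale.Agent.P354XR
  Vale.Agent.P354XR.KC

variable {A : Type*} [CommRing A] [Algebra ℂ A]

/-- The Kerr metric on two fields with given components along T, R (outgoing), P, Q. -/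
noncomputable def gBo (K : KC A) (e1 e2 e3 e4 f1 f2 f3 f4 : A) : A :=
  -(e1 * f1) - e1 * f2 - e2 * f1 + K.a * (e2 * K.qf f3 f4 + K.qf e3 e4 * f2) +
    2 * (K.r * K.r + K.a * K.a * K.x * K.x) * (e3 * f4 + e4 * f3) +
    K.a * K.a * K.qf e3 e4 * K.qf f3 f4 +
    2 * K.M * K.r * K.sg * (e1 - K.a * K.qf e3 e4) * (f1 - K.a * K.qf f3 f4)

section
variable {K : KC A} (h : K.Is)

theorem go_th_th : gBo K 0 K.N 0 0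
    0 K.N 0 0 = 0 := by
  simp only [gBo, qf, z, zb, De, KC.W]
  ring
include h in
theorem go_tp_tp : gBo K (2 * K.Ni * K.sg * K.W) (-(K.Ni * K.sg * K.De)) (ii A * K.a * K.s * K.Ni * K.sg)
    (-(ii A * K.a * K.sb * K.Ni * K.sg))
    (2 * K.Ni * K.sg * K.W) (-(K.Ni * K.sg * K.De)) (ii A * K.a * K.s * K.Ni * K.sg)
    (-(ii A * K.a * K.sb * K.Ni * K.sg)) = 0 := by
  simp only [gBo, qf, z, zb, De, KC.W]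
  linear_combination (8*ii A^2*K.r*K.a^4*K.M*K.s^2*K.sb^2*K.Ni^2*K.sg^3 + 4*ii
    A^2*K.a^4*K.s^2*K.sb^2*K.Ni^2*K.sg^2 + 16*K.r^3*K.a^2*K.M*K.s*K.sb*K.Ni^2*K.sg^3 -
    8*K.r*K.a^4*K.M*K.s^2*K.sb^2*K.Ni^2*K.sg^3 + 16*K.r*K.a^4*K.M*K.s*K.sb*K.Ni^2*K.sg^3 -
    8*K.r*K.a^2*K.M*K.s*K.sb*K.Ni^2*K.sg^2 - 4*K.x^2*K.a^4*K.s*K.sb*K.Ni^2*K.sg^2 -
    4*K.a^4*K.s^2*K.sb^2*K.Ni^2*K.sg^2 + 4*K.a^4*K.s*K.sb*K.Ni^2*K.sg^2) * ii_sq (A := A) +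
    (-16*K.r^3*K.a^2*K.M*K.Ni^2*K.sg^3 - 8*K.r*K.x^2*K.a^4*K.M*K.Ni^2*K.sg^3 +
    8*K.r*K.a^4*K.M*K.s*K.sb*K.Ni^2*K.sg^3 - 8*K.r*K.a^4*K.M*K.Ni^2*K.sg^3 +
    8*K.r*K.a^2*K.M*K.Ni^2*K.sg^2 + 4*K.a^4*K.s*K.sb*K.Ni^2*K.sg^2) * h.hs +
    (8*K.r^3*K.M*K.Ni^2*K.sg^2 + 8*K.r*K.x^2*K.a^2*K.M*K.Ni^2*K.sg^2) * h.hg
theorem go_et_et : gBo K (ii A * K.a * K.s * K.zb) 0 0 K.zb
    (ii A * K.a * K.s * K.zb) 0 0 K.zb = 0 := by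
  simp only [gBo, qf, z, zb, De, KC.W]
  ring
include h in
theorem go_th_tp : gBo K 0 K.N 0 0
    (2 * K.Ni * K.sg * K.W) (-(K.Ni * K.sg * K.De)) (ii A * K.a * K.s * K.Ni * K.sg)
    (-(ii A * K.a * K.sb * K.Ni * K.sg)) = -2 := by
  simp only [gBo, qf, z, zb, De, KC.W]
  linear_combination (-2*K.a^2*K.s*K.sb*K.N*K.Ni*K.sg) * ii_sq (A := A) + (2*K.a^2*K.N*K.Ni*K.sg)
    * h.hs + (-2*K.r^2*K.sg - 2*K.x^2*K.a^2*K.sg) * h.hN + (-2) * h.hg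
theorem go_th_et : gBo K 0 K.N 0 0
    (ii A * K.a * K.s * K.zb) 0 0 K.zb = 0 := by
  simp only [gBo, qf, z, zb, De, KC.W]
  ring
include h in
theorem go_tp_et : gBo K (2 * K.Ni * K.sg * K.W) (-(K.Ni * K.sg * K.De)) (ii A * K.a * K.s * K.Ni * K.sg)
    (-(ii A * K.a * K.sb * K.Ni * K.sg))
    (ii A * K.a * K.s * K.zb) 0 0 K.zb = 0 := by
  simp only [gBo, qf, z, zb, De, KC.W]
  linear_combination (2*ii A^2*K.x*K.a^4*K.s^2*K.sb*K.Ni*K.sg^2 - 2*ii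
    A*K.r*K.a^3*K.s^2*K.sb*K.Ni*K.sg^2 - 2*K.x^3*K.a^4*K.s*K.Ni*K.sg^2 -
    2*K.x*K.a^4*K.s^2*K.sb*K.Ni*K.sg^2 + 2*K.x*K.a^4*K.s*K.Ni*K.sg^2) * ii_sq (A := A) + (2*ii
    A*K.r*K.a^3*K.s*K.Ni*K.sg^2 + 2*K.x*K.a^4*K.s*K.Ni*K.sg^2) * h.hs
include h in
theorem go_et_ep : gBo K (ii A * K.a * K.s * K.zb) 0 0 K.zb
    (-(ii A * K.a * K.sb * K.z)) 0 K.z 0 = 2 := by
  simp only [gBo, qf, z, zb, De, KC.W]
  linear_combination (-2*K.r^2*K.x^2*K.a^2*K.sg^2 - 2*K.x^4*K.a^4*K.sg^2) * ii_sq (A := A) +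
    (2*K.r^2*K.sg + 2*K.x^2*K.a^2*K.sg + 2) * h.hg

include h in
/-- The outgoing field is R + 2 (W / De) T + (a / De) F2 in the ingoing chart. -/
theorem gB_gBo {Di : A} (hD : K.De * Di = 1) (e1 e2 e3 e4 f1 f2 f3 f4 : A) :
    K.gB (e1 + 2 * K.W * Di * e2) e2 (e3 + K.a * Di * e2 * (ii A * K.s))
      (e4 - K.a * Di * e2 * (ii A * K.sb)) (f1 + 2 * K.W * Di * f2) f2
      (f3 + K.a * Di * f2 * (ii A * K.s)) (f4 - K.a * Di * f2 * (ii A * K.sb)) =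
      gBo K e1 e2 e3 e4 f1 f2 f3 f4 := by
  simp only [gB, gBo, qf, De, KC.W] at hD ⊢
  linear_combination (8*ii A^2*K.r*K.a^4*K.M*K.s^2*K.sb^2*K.sg*Di^2*e2*f2 + 4*ii
    A^2*K.a^4*K.s^2*K.sb^2*Di^2*e2*f2 - 4*ii A*K.r*K.a^3*K.M*K.s^2*K.sb*K.sg*Di*e2*f4 - 4*ii
    A*K.r*K.a^3*K.M*K.s^2*K.sb*K.sg*Di*e4*f2 + 4*ii A*K.r*K.a^3*K.M*K.s*K.sb^2*K.sg*Di*e2*f3 + 4*ii
    A*K.r*K.a^3*K.M*K.s*K.sb^2*K.sg*Di*e3*f2 - 2*ii A*K.a^3*K.s^2*K.sb*Di*e2*f4 - 2*ii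
    A*K.a^3*K.s^2*K.sb*Di*e4*f2 + 2*ii A*K.a^3*K.s*K.sb^2*Di*e2*f3 + 2*ii
    A*K.a^3*K.s*K.sb^2*Di*e3*f2 + 16*K.r^3*K.a^2*K.M*K.s*K.sb*K.sg*Di^2*e2*f2 -
    4*K.r^2*K.a^2*K.s*K.sb*Di^2*e2*f2 - 8*K.r*K.a^4*K.M*K.s^2*K.sb^2*K.sg*Di^2*e2*f2 +
    16*K.r*K.a^4*K.M*K.s*K.sb*K.sg*Di^2*e2*f2 + 4*K.r*K.a^2*K.M*K.s*K.sb*K.sg*Di*e1*f2 +
    4*K.r*K.a^2*K.M*K.s*K.sb*K.sg*Di*e2*f1 - 4*K.x^2*K.a^4*K.s*K.sb*Di^2*e2*f2 -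
    4*K.a^4*K.s^2*K.sb^2*Di^2*e2*f2 + 4*K.a^2*K.s*K.sb*Di*e2*f2) * ii_sq (A := A) + (4*ii
    A*K.r*K.a^3*K.M*K.s*K.sg*Di*e2*f4 + 4*ii A*K.r*K.a^3*K.M*K.s*K.sg*Di*e4*f2 - 4*ii
    A*K.r*K.a^3*K.M*K.sb*K.sg*Di*e2*f3 - 4*ii A*K.r*K.a^3*K.M*K.sb*K.sg*Di*e3*f2 + 2*ii
    A*K.a^3*K.s*Di*e2*f4 + 2*ii A*K.a^3*K.s*Di*e4*f2 - 2*ii A*K.a^3*K.sb*Di*e2*f3 - 2*ii
    A*K.a^3*K.sb*Di*e3*f2 - 16*K.r^3*K.a^2*K.M*K.sg*Di^2*e2*f2 + 4*K.r^2*K.a^2*Di^2*e2*f2 -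
    8*K.r*K.x^2*K.a^4*K.M*K.sg*Di^2*e2*f2 + 8*K.r*K.a^4*K.M*K.s*K.sb*K.sg*Di^2*e2*f2 -
    8*K.r*K.a^4*K.M*K.sg*Di^2*e2*f2 - 4*K.r*K.a^2*K.M*K.sg*Di*e1*f2 - 4*K.r*K.a^2*K.M*K.sg*Di*e2*f1
    + 4*K.a^4*K.s*K.sb*Di^2*e2*f2 + 4*K.a^4*Di^2*e2*f2 - 4*K.a^2*Di*e2*f2) * h.hs + (2*ii
    A*K.r^2*K.a*K.s*K.sg*e2*f4 + 2*ii A*K.r^2*K.a*K.s*K.sg*e4*f2 - 2*ii A*K.r^2*K.a*K.sb*K.sg*e2*f3
    - 2*ii A*K.r^2*K.a*K.sb*K.sg*e3*f2 + 2*ii A*K.x^2*K.a^3*K.s*K.sg*e2*f4 + 2*ii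
    A*K.x^2*K.a^3*K.s*K.sg*e4*f2 - 2*ii A*K.x^2*K.a^3*K.sb*K.sg*e2*f3 - 2*ii
    A*K.x^2*K.a^3*K.sb*K.sg*e3*f2 - 4*K.r^4*K.sg*Di*e2*f2 - 8*K.r^2*K.x^2*K.a^2*K.sg*Di*e2*f2 -
    2*K.r^2*K.sg*e1*f2 - 2*K.r^2*K.sg*e2*f1 - 4*K.x^4*K.a^4*K.sg*Di*e2*f2 - 2*K.x^2*K.a^2*K.sg*e1*f2
    - 2*K.x^2*K.a^2*K.sg*e2*f1) * hD + (-2*ii A*K.r^2*K.a*K.s*Di*e2*f4 - 2*ii
    A*K.r^2*K.a*K.s*Di*e4*f2 + 2*ii A*K.r^2*K.a*K.sb*Di*e2*f3 + 2*ii A*K.r^2*K.a*K.sb*Di*e3*f2 -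
    2*ii A*K.a^3*K.s*Di*e2*f4 - 2*ii A*K.a^3*K.s*Di*e4*f2 + 2*ii A*K.a^3*K.sb*Di*e2*f3 + 2*ii
    A*K.a^3*K.sb*Di*e3*f2 + 2*ii A*K.a*K.s*e2*f4 + 2*ii A*K.a*K.s*e4*f2 - 2*ii A*K.a*K.sb*e2*f3 -
    2*ii A*K.a*K.sb*e3*f2 + 4*K.r^4*Di^2*e2*f2 + 4*K.r^2*K.x^2*K.a^2*Di^2*e2*f2 +
    4*K.r^2*K.a^2*Di^2*e2*f2 + 2*K.r^2*Di*e1*f2 + 2*K.r^2*Di*e2*f1 - 4*K.r^2*Di*e2*f2 +
    4*K.x^2*K.a^4*Di^2*e2*f2 - 4*K.x^2*K.a^2*Di*e2*f2 + 2*K.a^2*Di*e1*f2 + 2*K.a^2*Di*e2*f1 -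
    2*e1*f2 - 2*e2*f1) * h.hg

end

variable (K : Hp A) (p : Pm A)

/-- One half of the Kerr metric in the coordinates of the base, when (kk K p).R is outgoing. -/
noncomputable def gO (a b : Fin 4) : A :=
  hf A * gBo (kk K p) (c1 K p a) (K.om a) (c3 K p a) (c4 K p a) (c1 K p b) (K.om b) (c3 K p b)
    (c4 K p b)

/-- The outgoing principal null frame. -/
noncomputable def frO : Fr A :=
  ⟨K.prj (oth (kk K p)), K.prj (otp (kk K p)), K.prj (oet (kk K p)), K.prj (oep (kk K p))⟩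

/-- The parameters of the ingoing chart. -/
noncomputable def pin (Di : A) : Pm A :=
  { p with h1 := p.h1 + 2 * (kk K p).W * Di, j1 := p.j1 + p.a * Di }

variable {K p}

theorem gO_eq (h : K.Is) (q : p.Is K) {Di : A} (hD : (kk K p).De * Di = 1) :
    gO K p = gK K (pin K p Di) := by
  funext a b
  rw [gO, ← gB_gBo (kk_is h q) hD, gK]
  simp only [gB, qf, c1, c3, c4, pin, kk]
  ring

theorem dot_gO (Γ : Fin 4 → Fin 4 → Fin 4 → A) (Y Z : Vec A) : (K.geo (gO K p) Γ).dot Y Z =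
    hf A * gBo (kk K p) (∑ a, Y a * c1 K p a) (∑ a, Y a * K.om a) (∑ a, Y a * c3 K p a)
      (∑ a, Y a * c4 K p a) (∑ a, Z a * c1 K p a) (∑ a, Z a * K.om a) (∑ a, Z a * c3 K p a)
      (∑ a, Z a * c4 K p a) := by
  simp only [dot, Hp.geo, gO, gBo, KC.qf, Fin.sum_univ_four]
  ring

theorem dot_O (h : K.Is) (Γ : Fin 4 → Fin 4 → Fin 4 → A) (e1 e2 e3 e4 e5 e6 f1 f2 f3 f4 f5 f6 : A) :
    (K.geo (gO K p) Γ).dot (K.prj ((kk K p).V e1 e2 e3 e4 e5 e6))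
      (K.prj ((kk K p).V f1 f2 f3 f4 f5 f6)) = hf A * gBo (kk K p) e1 e2 e3 e4 f1 f2 f3 f4 := by
  simp only [dot_gO, prj_c h]

/-- Reality and weights of the frame, for any metric. -/
theorem frO_rw (h : K.Is) (q : p.Is K) (g : Fin 4 → Fin 4 → A) (Γ : Fin 4 → Fin 4 → Fin 4 → A) :
    (frO K p).RW (K.geo g Γ) := by
  have k := kk_is h q
  have cH : ∀ a, K.H (K.co a) = 0 := fun a => (h.tco a).2.2.2.2.1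
  have cB : ∀ a, K.B (K.co a) = 0 := fun a => (h.tco a).2.2.2.2.2
  refine ⟨cv_prj h _ _ (c_th k), cv_prj h _ _ (c_tp k), cv_prj h _ _ (c_et k), ?_, ?_, ?_, ?_⟩
  · exact (dv_prj (w := 1) (fun f => by rw [one_mul]; exact H_th k f) cH).trans (one_smul _ _)
  · exact (dv_prj (w := -1) (fun f => by rw [neg_one_mul]; exact H_tp k f) cH).trans
      (neg_one_smul _ _)
  · exact (dv_prj (w := 1) (fun f => by rw [one_mul]; exact H_et k f) cH).trans (one_smul _ _)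
  · exact (dv_prj (w := -1) (fun f => by
      rw [neg_one_mul, ← sub_eq_add_neg]; exact (out_is k).Hb_et f) cB).trans (neg_one_smul _ _)

/-- The frame is a weighted null frame of the Kerr metric. -/
theorem frO_wn (h : K.Is) (q : p.Is K) (Γ : Fin 4 → Fin 4 → Fin 4 → A) :
    (frO K p).WN (K.geo (gO K p) Γ) := by
  have k := kk_is h q
  have t := two_hf (A := A)
  have r := frO_rw h q (gO K p) Γ
  refine ⟨⟨r.c_l, r.c_n, r.c_m, ?_, ?_, ?_, ?_, ?_, ?_, ?_⟩, r.H_l, r.H_n, r.H_m, r.Hb_m⟩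
  · exact (dot_O h Γ ..).trans (by rw [go_th_th, mul_zero])
  · exact (dot_O h Γ ..).trans (by rw [go_tp_tp k, mul_zero])
  · exact (dot_O h Γ ..).trans (by rw [go_et_et, mul_zero])
  · exact (dot_O h Γ ..).trans (by rw [go_th_tp k]; linear_combination -t)
  · exact (dot_O h Γ ..).trans (by rw [go_th_et, mul_zero])
  · exact (dot_O h Γ ..).trans (by rw [go_tp_et k, mul_zero])
  · exact (dot_O h Γ ..).trans (by rw [go_et_ep k]; linear_combination t)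

/-- Vectors of a null frame are independent. -/
theorem null_ind {S : Geo A} {l n m mb : Vec A} (h : S.Is) (N : Null S l n m mb) {d1 d2 d3 d4 : A}
    (e : d1 • l + d2 • n + d3 • m + d4 • mb = 0) : d1 = 0 ∧ d2 = 0 ∧ d3 = 0 ∧ d4 = 0 := by
  have e1 := congrArg (S.dot · n) e
  have e2 := congrArg (S.dot · l) e
  have e3 := congrArg (S.dot · mb) e
  have e4 := congrArg (S.dot · m) e
  simp only [dot_add_left, dot_smul_left, dot_zero_left, N.ll, N.nn, N.mm, N.ln, N.lm, N.nm, N.mmb,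
    N.mbmb h, N.lmb h, N.nmb h, N.nl h, N.ml h, N.mn h, N.mbl h, N.mbn h, N.mbm h] at e1 e2 e3 e4
  exact ⟨by linear_combination -e1, by linear_combination -e2, by linear_combination e3,
    by linear_combination e4⟩

/-- The GHP structure of any weighted null frame which is the outgoing frame of Kerr. -/
theorem ghp_frO (h : K.Is) (q : p.Is K) {g : Fin 4 → Fin 4 → A} {Γ : Fin 4 → Fin 4 → Fin 4 → A}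
    (hS : (K.geo g Γ).Is) (N : (frO K p).WN (K.geo g Γ)) :
    (frO K p).ghp (K.geo g Γ) = out (kk K p) := by
  obtain ⟨u1, v1, e1⟩ := act_V h g Γ _ _ _ _ _ _
    (hat (K.geo g Γ) (frO K p).l (frO K p).n (frO K p).m (frO K p).mb (frO K p).l) rfl
  obtain ⟨u2, v2, e2⟩ := act_V h g Γ _ _ _ _ _ _
    (hat (K.geo g Γ) (frO K p).l (frO K p).n (frO K p).m (frO K p).mb (frO K p).n) rfl
  obtain ⟨u3, v3, e3⟩ := act_V h g Γ _ _ _ _ _ _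
    (hat (K.geo g Γ) (frO K p).l (frO K p).n (frO K p).m (frO K p).mb (frO K p).m) rfl
  obtain ⟨u4, v4, e4⟩ := act_V h g Γ _ _ _ _ _ _
    (hat (K.geo g Γ) (frO K p).l (frO K p).n (frO K p).m (frO K p).mb (frO K p).mb) rfl
  exact ghp_uniq (out_is (kk_is h q)) (WNull.is hS N) rfl rfl rfl e1 e2 e3 e4 K.co
    (fun a => (h.tco a).2.2.2.2.1) (fun a => (h.tco a).2.2.2.2.2)
    fun d1 d2 d3 d4 e => null_ind hS N.toNull (funext e)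

end Vale.Agent.P354YK
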