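import Vale.Agent.P354Z.Skel
import Vale.Agent.P354YO.Fn

/-!
The far table of a state.
-/

noncomputable section

namespace Vale.Agent.P354YK

open Vale.Agent.P354XG Vale.Agent.P354XI Vale.Agent.P354Z
open Vale.Agent.P354YO (Fz)

/-- The far zone of a state, and the powers of 1 + |u|. -/
def fz (E : Est) : Fz := ⟨E.O2, E.g, E.F2, E.M, E.a⟩
def wu (M0 s : ℝ) (x : E6) : ℝ := (1 + |uu M0 x|) ^ (-s)

/-- The components of the covector of R minus their values for Kerr. -/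
def laD (z : Fz) (M0 : ℝ) (i : Fin 3) : z.A :=
  z.gg (z.R M0) (z.Om i) - z.gk M0 z.M z.a (z.R M0) (z.Om i)

/-- The tables at the point x. -/
structure Tf (z : Fz) (M0 : ℝ) (n : ℕ) (x : E6) (e α γ : ℝ) : Prop where
  b : ∀ k ≠ 1, q2 (z.lr M0) x n (z.d M0 (.inl (1, k))) ≤ (e * α) ^ 2
  b1 : q2 (z.lr M0) x n (z.ri * z.d M0 (.inl (1, 1))) ≤ (e * α) ^ 2
  kb : q2 (z.lr M0) x n (z.d M0 (.inr 4)) ≤ (e * α) ^ 2
  g : ∀ k ≥ 2, z.Gq M0 n x (z.d M0 (.inl (2, k))) (e * α) (e * γ)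
  g1 : z.Gq M0 n x (z.ri * z.d M0 (.inl (2, 1))) (e * α) (e * γ)
  gs : ∀ k, k = 1 ∨ k = 2 ∨ k = 3 ∨ k = 5 ∨ k = 6 → z.Gq M0 n x (z.d M0 (.inr k)) (e * α) (e * γ)
  m0 : q2 (z.lr M0) x n (z.r * z.d M0 (.inl (2, 0))) ≤ e ^ 2
  la : ∀ i, q2 (z.lr M0) x n (laD z M0 i) ≤ e ^ 2
  W : ∀ k ≥ 8, q2 (z.lr M0) x n (z.d M0 (.inr k)) ≤ (e * α) ^ 2

/-- The far table. -/
def FT : Table := fun c E n η => n ≤ c.K ∧ 0 ≤ η ∧ ∀ x ∈ E.O2, An x → Est.Fa c x →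
  Tf (fz E) c.M n x η (wu c.M (6 / 5) x) (wu c.M (1 / 4) x) ∧ (-c.R2 ≤ uu c.M x → ∀ i,
    q2 ((fz E).lr c.M) x n ((fz E).T (laD (fz E) c.M i)) ≤ (η * wu c.M (6 / 5) x) ^ 2)

variable {z : Fz} {M0 : ℝ} {n n' : ℕ} {x : E6} {e e' α α' γ γ' : ℝ}

theorem Tf.tab (h : Tf z M0 n x e α γ)
    (t : ∀ i, q2 (z.lr M0) x n (z.T (laD z M0 i)) ≤ (e * α) ^ 2) : z.Tab M0 n x e α γ :=
  ⟨h.b, h.b1, h.kb, h.g, h.g1, fun k a => h.gs k (by tauto), fun i => ⟨h.la i, t i⟩⟩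

section
variable {O : Set E6} {ι : Type} [Fintype ι] (X : ι → Der (Sm (on O))) (x : E6)

theorem q2_nn : ∀ n f, 0 ≤ q2 X x n f
  | 0, _ => sq_nonneg _
  | n + 1, f => add_nonneg (q2_nn n f) (Finset.sum_nonneg fun _ _ => q2_nn n _)

theorem q2_mono {n n' : ℕ} (h : n' ≤ n) (f : Sm (on O)) : q2 X x n' f ≤ q2 X x n f := by
  induction h with
  | refl => exact le_rfl
  | step _ ih => exact ih.trans (le_add_of_nonneg_right (Finset.sum_nonneg fun _ _ => q2_nn X x _ _))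

variable {X x}

theorem q2_le {f : Sm (on O)} {c c' : ℝ} (h : q2 X x n f ≤ c ^ 2) (hn : n' ≤ n) (h0 : 0 ≤ c)
    (hc : c ≤ c') : q2 X x n' f ≤ c' ^ 2 :=
  (q2_mono X x hn f).trans (h.trans (pow_le_pow_left₀ h0 hc 2))

end

theorem Tf.mono (h : Tf z M0 n x e α γ) (hn : n' ≤ n) (h0 : 0 ≤ e) (he : e ≤ e') (a0 : 0 ≤ α)
    (ha : α ≤ α') (g0 : 0 ≤ γ) (hg : γ ≤ γ') : Tf z M0 n' x e' α' γ' := by
  have a := mul_le_mul he ha a0 (h0.trans he)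
  have g := mul_le_mul he hg g0 (h0.trans he)
  have a1 := mul_nonneg h0 a0
  have g1 := mul_nonneg h0 g0
  exact ⟨fun k hk => q2_le (h.b k hk) hn a1 a, q2_le h.b1 hn a1 a, q2_le h.kb hn a1 a,
    fun k hk => ⟨q2_le (h.g k hk).1 hn a1 a, q2_le (h.g k hk).2 hn g1 g⟩,
    ⟨q2_le h.g1.1 hn a1 a, q2_le h.g1.2 hn g1 g⟩,
    fun k hk => ⟨q2_le (h.gs k hk).1 hn a1 a, q2_le (h.gs k hk).2 hn g1 g⟩,
    q2_le h.m0 hn h0 he, fun i => q2_le (h.la i) hn h0 he, fun k hk => q2_le (h.W k hk) hn a1 a⟩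

theorem wu_pos (M0 s : ℝ) (x : E6) : 0 < wu M0 s x :=
  Real.rpow_pos_of_pos (add_pos_of_pos_of_nonneg one_pos (abs_nonneg _)) _

theorem mono : MONO FT := fun _ _ _ _ _ _ hn he ⟨k, h⟩ => ⟨hn.trans k, h.1.trans he, fun x hx a f =>
  ⟨(h.2 x hx a f).1.mono hn h.1 he (wu_pos _ _ _).le le_rfl (wu_pos _ _ _).le le_rfl,
    fun u i => q2_le ((h.2 x hx a f).2 u i) hn (mul_nonneg h.1 (wu_pos _ _ _).le)
      (mul_le_mul_of_nonneg_right he (wu_pos _ _ _).le)⟩⟩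

end Vale.Agent.P354YK
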