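import Vale.Agent.P354YK.Box

/-!
The lines of the field R, and the lid function along them.
-/

open scoped ContDiff
open Set Filter Topology

noncomputable section

namespace Vale.Agent.P354YK

open Vale.Agent.P354XG Vale.Agent.P354XI Vale.Agent.P354XD Vale.Agent.P354XR Vale.Agent.P354Z

/-- The line of R through y, with the parameter r. -/
def ray (M : ℝ) (y : E6) (ρ : ℝ) : E6 := (uu M y - 4 * M ^ 2 / ρ, ρ, y.2.2)

variable {M ρ : ℝ} {y : E6} {O : Set E6}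

theorem ray_self (M : ℝ) (y : E6) : ray M y y.2.1 = y := by simp [ray, uu]
theorem uu_ray (M : ℝ) (y : E6) (ρ : ℝ) : uu M (ray M y ρ) = uu M y := by simp [ray, uu]
theorem ray_ray (M : ℝ) (y : E6) (ρ : ℝ) : ray M (ray M y ρ) = ray M y :=
  funext fun s => by rw [ray, uu_ray]; rfl

theorem ray_hd (M : ℝ) (y : E6) (h : 0 < ρ) :
    HasDerivAt (ray M y) (4 * M ^ 2 / ρ ^ 2, 1, 0) ρ := by
  have := ((((hasDerivAt_inv h.ne').const_mul (4 * M ^ 2)).const_sub (uu M y)).prodMk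
    ((hasDerivAt_id ρ).prodMk (hasDerivAt_const ρ y.2.2))).congr_deriv
    (show _ = (4 * M ^ 2 / ρ ^ 2, (1 : ℝ), (0 : ℂ × ℂ)) by rw [mul_neg, neg_neg, div_eq_mul_inv])
  exact this.congr_of_eventuallyEq (Eventually.of_forall fun s => by rw [ray, div_eq_mul_inv]; rfl)

theorem fv_ray (h : Cone O) (M' a : ℝ) (f : Sm (on O)) (m : ray M y ρ ∈ O) :
    HasDerivAt (fun s => fv f (ray M y s)) (fv ((kO O M M' a).R f) (ray M y ρ)) ρ := by
  rw [fv_R h _ _ _ _ m]
  exact ((fv_sm h.op f m).differentiableAt (by simp)).hasFDerivAt.comp_hasDerivAt ρ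
    (ray_hd M y (h.pos _ m).1)

variable {c : Cs} {E : Est}

/-- The lid function decreases to the inside. -/
theorem ray_dn (s : E.Shape c) (m : y ∈ E.O2) (f : Est.Fa c y) : ∀ᶠ ρ in 𝓝[<] y.2.1,
    ray c.M y ρ ∈ E.O2 ∧ rv E.tau (ray c.M y ρ) < rv E.tau y := by
  have m' : ray c.M y y.2.1 ∈ E.O2 := (ray_self c.M y).symm ▸ m
  have d := (Complex.reCLM.hasFDerivAt.comp_hasDerivAt _ (fv_ray s.co2 E.M E.a E.tau m')).neg
  rw [ray_self] at d
  have k := (d.hasDerivWithinAt (s := Iio y.2.1)).limsup_slope_le' (lt_irrefl y.2.1)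
    (show _ < (0 : ℝ) from neg_lt_zero.2 (one_pos.trans_le (s.taR y m f).1))
  refine (((ray_hd c.M y (s.co2.pos y m).1).continuousAt.eventually
    (s.co2.op.mem_nhds m')).filter_mono nhdsWithin_le_nhds).and ?_
  filter_upwards [k, self_mem_nhdsWithin] with ρ k l
  rw [slope_def_field, div_neg_iff] at k
  have l' : ρ - y.2.1 < 0 := sub_neg.2 l
  have := (k.resolve_right fun z => z.2.not_gt l').1
  simp only [Pi.neg_apply, Function.comp, ray_self, Complex.reCLM_apply] at this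
  rw [rv, rv]
  linarith

/-- The line stays in the region down to the boundary of the far part. -/
theorem ray_in (s : E.Shape c) (m : y ∈ E.O2) (a : An y) {ρ0 : ℝ}
    (h1 : c.R1 + 3 ≤ ρ0) (h0 : 0 < ρ0) (h2 : 0 ≤ uu c.M y + ρ0) (h3 : ρ0 ≤ y.2.1) :
    ∀ ρ ∈ Icc ρ0 y.2.1, ray c.M y ρ ∈ E.O2 ∧ rv E.tau (ray c.M y ρ) ≤ rv E.tau y := by
  have fa : ∀ ρ, ρ0 ≤ ρ → Est.Fa c (ray c.M y ρ) := fun ρ k =>
    ⟨h1.trans k, by rw [uu_ray]; exact h2.trans (add_le_add_right k _)⟩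
  have cl := (s.cp2 _ (s.lv2 y m)).isClosed
  have := IsClosed.Icc_subset_of_forall_exists_lt (a := ρ0) (b := y.2.1) (s := ray c.M y ⁻¹'
    {x | x ∈ E.O2 ∧ An x ∧ rv E.tau x ≤ rv E.tau y ∧ Est.Fa c x}) ?_ ?_ ?_
  · exact fun ρ k => ⟨(this k).1, (this k).2.2.1⟩
  · rw [inter_comm]
    exact ContinuousOn.preimage_isClosed_of_isClosed (fun ρ k =>
      (ray_hd c.M y (h0.trans_le k.1)).continuousAt.continuousWithinAt) isClosed_Icc cl
  · have := fa _ h3
    rw [mem_preimage, ray_self] at *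
    exact ⟨m, a, le_rfl, this⟩
  · rintro ρ ⟨k, l⟩ z hz
    have e := ray_dn s k.1 k.2.2.2
    rw [ray_ray] at e
    obtain ⟨w, w1, w2⟩ := (e.and (Ico_mem_nhdsLT (max_lt hz l.1))).exists
    exact ⟨w, ⟨w1.1, a, w1.2.le.trans k.2.2.1, fa w (le_of_max_le_right w2.1)⟩,
      le_of_max_le_left w2.1, w2.2⟩

/-- Comparison along the line. -/
theorem ray_le (h : Cone O) (M' a : ℝ) (f : Sm (on O)) {φ : ℝ → ℝ → ℝ} (s : Sm2 φ) {ρ0 : ℝ}
    (h3 : ρ0 ≤ y.2.1) (m : ∀ ρ ∈ Icc ρ0 y.2.1, ray M y ρ ∈ O)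
    (e0 : ‖fv f (ray M y ρ0)‖ ≤ φ (uu M y) ρ0)
    (e : ∀ ρ ∈ Icc ρ0 y.2.1, ‖fv ((kO O M M' a).R f) (ray M y ρ)‖ ≤ deriv (φ (uu M y)) ρ) :
    ‖fv f y‖ ≤ φ (uu M y) y.2.1 := by
  have d := fun ρ k => fv_ray h M' a f (m ρ k)
  have b := fun ρ k => (s.hr (uu M y) (h.pos _ (m ρ k)).1).differentiableAt.hasDerivAt
  have := image_norm_le_of_norm_deriv_right_le_deriv_boundary'
    (fun ρ k => (d ρ k).continuousAt.continuousWithinAt)
    (fun ρ k => (d ρ (Ico_subset_Icc_self k)).hasDerivWithinAt) e0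
    (fun ρ k => (b ρ k).continuousAt.continuousWithinAt)
    (fun ρ k => (b ρ (Ico_subset_Icc_self k)).hasDerivWithinAt)
    (fun ρ k => e ρ (Ico_subset_Icc_self k)) (right_mem_Icc.2 h3)
  rwa [ray_self] at this

section
variable {A : Type} [CommRing A] [Algebra ℂ A] {K : KC A} (k : K.Is) {e : A →+* ℂ}
  (ec : ∀ f, e (K.c f) = starRingEnd ℂ (e f)) (ei : e (ii A) = Complex.I)
include k ec

theorem pt_s : ‖e K.s‖ ≤ 1 := by
  have a := congrArg e k.hs
  have x := Complex.conj_eq_iff_re.1 ((ec K.x).symm.trans (congrArg e k.c_x))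
  rw [map_mul, map_sub, map_mul, map_one, ← k.c_s, ec, Complex.mul_conj, ← x,
    Complex.normSq_eq_norm_sq] at a
  have : ‖e K.s‖ ^ 2 = 1 - (e K.x).re * (e K.x).re := by exact_mod_cast a
  nlinarith [mul_self_nonneg (e K.x).re, norm_nonneg (e K.s)]

include ei in
theorem pt_zb : |(e K.r).re| * ‖e K.zb‖ ≤ 1 := by
  have a : K.zb * (K.r + ii A * K.a * K.x) = 1 := by
    rw [KC.zb]; linear_combination k.hg - K.sg * K.a * K.a * K.x * K.x * ii_sq (A := A)
  have b := congrArg (fun u => ‖e u‖) a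
  have x := Complex.conj_eq_iff_im.1 ((ec K.x).symm.trans (congrArg e k.c_x))
  have y := Complex.conj_eq_iff_im.1 ((ec K.a).symm.trans (congrArg e k.c_a))
  simp only [map_mul, map_add, norm_mul, map_one, norm_one, ei] at b
  have := Complex.abs_re_le_norm (e K.r + Complex.I * e K.a * e K.x)
  simp only [Complex.add_re, Complex.mul_re, Complex.mul_im, x, y, Complex.I_re, Complex.I_im,
    zero_mul, mul_zero, sub_zero, add_zero] at this
  rw [← b, mul_comm]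
  exact mul_le_mul_of_nonneg_left this (norm_nonneg _)

end

end Vale.Agent.P354YK
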