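import Vale.Agent.P354YA.Rix
import Vale.Agent.P354XR.Su
import Vale.Agent.P354XI.Inst

/-!
Products of rings with derivations, and the pull back of an integral along a homomorphism.
-/

namespace Vale.Agent.P354YK

open Vale.Agent.P354XG Vale.Agent.P354XI Vale.Agent.P354XD Vale.Agent.P354XR Vale.Agent.P354YA

section pi
variable {J : Type} {A : J → Type} [∀ j, CommRing (A j)] [∀ j, Algebra ℂ (A j)]

/-- The product of derivations and of ring homomorphisms. -/
def dpi (D : ∀ j, Der (A j)) : Der (∀ j, A j) :=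
  Derivation.mk'
    { toFun := fun f j => D j (f j)
      map_add' := fun f g => funext fun j => map_add (D j) (f j) (g j)
      map_smul' := fun z f => funext fun j => (D j).map_smul z (f j) }
    fun f g => funext fun j => (D j).leibniz (f j) (g j)

theorem dpi_ap (D : ∀ j, Der (A j)) (f : ∀ j, A j) (j : J) : dpi D f j = D j (f j) := rfl

def cpi (c : ∀ j, A j →+* A j) : (∀ j, A j) →+* ∀ j, A j :=
  RingHom.pi fun j => (c j).comp (Pi.evalRingHom A j)

omit [∀ j, Algebra ℂ (A j)] in
theorem cpi_ap (c : ∀ j, A j →+* A j) (f : ∀ j, A j) (j : J) : cpi c f j = c j (f j) := rfl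

/-- The product of charts, of parameters and of GHP structures. -/
def hpi (K : ∀ j, Hp (A j)) : Hp (∀ j, A j) where
  c := cpi fun j => (K j).c
  d i := dpi fun j => (K j).d i
  z i j := (K j).z i
  ri j := (K j).ri
  Ni j := (K j).Ni

def ppi (p : ∀ j, Pm (A j)) : Pm (∀ j, A j) where
  a j := (p j).a
  M j := (p j).M
  sg j := (p j).sg
  h1 j := (p j).h1
  j1 j := (p j).j1

def gpi (G : ∀ j, GHP (A j)) : GHP (∀ j, A j) where
  c := cpi fun j => (G j).c
  th := dpi fun j => (G j).th
  tp := dpi fun j => (G j).tp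
  et := dpi fun j => (G j).et
  ep := dpi fun j => (G j).ep
  H := dpi fun j => (G j).H
  Hb := dpi fun j => (G j).Hb
  ka j := (G j).ka
  si j := (G j).si
  rh j := (G j).rh
  ta j := (G j).ta
  ka' j := (G j).ka'
  si' j := (G j).si'
  rh' j := (G j).rh'
  ta' j := (G j).ta'
  P0 j := (G j).P0
  P1 j := (G j).P1
  P2 j := (G j).P2
  P3 j := (G j).P3
  P4 j := (G j).P4

variable {K : ∀ j, Hp (A j)} {p : ∀ j, Pm (A j)} {G : ∀ j, GHP (A j)}

theorem hpi_is (h : ∀ j, (K j).Is) : (hpi K).Is where
  cc f := funext fun j => (h j).cc (f j)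
  calg z := funext fun j => (h j).calg z
  c0 f := funext fun j => (h j).c0 (f j)
  c1 f := funext fun j => (h j).c1 (f j)
  c2 f := funext fun j => (h j).c2 (f j)
  c3 f := funext fun j => (h j).c3 (f j)
  z0 := funext fun j => (h j).z0
  z1 := funext fun j => (h j).z1
  z2 := funext fun j => (h j).z2
  z3 := funext fun j => (h j).z3
  comm i k f := funext fun j => (h j).comm i k (f j)
  dz i k := funext fun j => ((h j).dz i k).trans (by split_ifs <;> rfl)
  hr := funext fun j => (h j).hr
  hN := funext fun j => (h j).hN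

theorem ppi_is (h : ∀ j, (p j).Is (K j)) : (ppi p).Is (hpi K) where
  ca := funext fun j => (h j).ca
  cM := funext fun j => (h j).cM
  ch := funext fun j => (h j).ch
  cj := funext fun j => (h j).cj
  da i := funext fun j => (h j).da i
  dM i := funext fun j => (h j).dM i
  dh i e := funext fun j => (h j).dh i e
  dj i e := funext fun j => (h j).dj i e
  hg := funext fun j => (h j).hg

theorem gpi_half (h : ∀ j, (G j).Half) : (gpi G).Half :=
  ⟨fun f => funext fun j => (h j).cc (f j), fun z => funext fun j => (h j).calg z,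
    fun f => funext fun j => (h j).c_th (f j), fun f => funext fun j => (h j).c_et (f j),
    fun f => funext fun j => (h j).c_H (f j), fun f => funext fun j => (h j).H_Hb (f j),
    fun f => funext fun j => (h j).H_th (f j), fun f => funext fun j => (h j).H_et (f j),
    funext fun j => (h j).H_ka, funext fun j => (h j).Hb_ka, funext fun j => (h j).H_si,
    funext fun j => (h j).Hb_si, funext fun j => (h j).H_rh, funext fun j => (h j).Hb_rh,
    funext fun j => (h j).H_ta, funext fun j => (h j).Hb_ta, funext fun j => (h j).H_P0,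
    funext fun j => (h j).Hb_P0, funext fun j => (h j).H_P1, funext fun j => (h j).Hb_P1,
    funext fun j => (h j).H_P2, funext fun j => (h j).Hb_P2,
    fun f => funext fun j => (h j).th_tp (f j), fun f => funext fun j => (h j).th_et (f j),
    fun f => funext fun j => (h j).et_ep (f j), funext fun j => (h j).r1, funext fun j => (h j).r2,
    funext fun j => (h j).r3, funext fun j => (h j).r4, funext fun j => (h j).r5,
    funext fun j => (h j).r6, funext fun j => (h j).b1, funext fun j => (h j).b2,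
    funext fun j => (h j).b3, funext fun j => (h j).b4⟩

theorem gpi_pr : (gpi G).pr = gpi fun j => (G j).pr := by
  simp only [GHP.pr, gpi, GHP.mk.injEq, true_and, and_true]
  exact ⟨Derivation.ext fun _ => rfl, Derivation.ext fun _ => rfl⟩

theorem gpi_is (h : ∀ j, (G j).Is) : (gpi G).Is :=
  ⟨gpi_half fun j => (h j).h, by rw [gpi_pr]; exact gpi_half fun j => (h j).p⟩

theorem hpi_hom (K : ∀ j, Hp (A j)) (j : J) : HHom (hpi K) (K j) (Pi.evalAlgHom ℂ A j) :=
  ⟨fun _ => rfl, fun _ _ => rfl, fun _ => rfl, rfl, rfl⟩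

theorem gpi_hom (G : ∀ j, GHP (A j)) (j : J) : GHP.Hom (gpi G) (G j) (Pi.evalAlgHom ℂ A j) := by
  constructor <;> intros <;> rfl

end pi

section hom
variable {A B C : Type} [CommRing A] [Algebra ℂ A] [CommRing B] [Algebra ℂ B] [CommRing C]
  [Algebra ℂ C] {K : Hp A} {K' : Hp B} {K'' : Hp C} {φ : A →ₐ[ℂ] B} {ψ : B →ₐ[ℂ] C}

theorem hhom_comp (h : HHom K K' φ) (h' : HHom K' K'' ψ) : HHom K K'' (ψ.comp φ) :=
  ⟨fun f => by rw [AlgHom.comp_apply, h.c, h'.c]; rfl,
    fun i f => by rw [AlgHom.comp_apply, h.d, h'.d]; rfl,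
    fun i => by rw [AlgHom.comp_apply, h.z, h'.z], by rw [AlgHom.comp_apply, h.ri, h'.ri],
    by rw [AlgHom.comp_apply, h.Ni, h'.Ni]⟩

theorem hhom_Om (h : HHom K K' φ) (i : Fin 3) (f : A) : φ (Om K i f) = Om K' i (φ f) := by
  fin_cases i <;> simp [Om, h.z, h.d, map_hf, map_ii]

/-- The pull back of the integral. -/
def cmB (I : Ibp B) (φ : A →ₐ[ℂ] B) (c : A →+* A) : Ibp A where
  c := c
  K := I.K.comap φ
  I := I.I ∘ₗ φ.toLinearMap
  Pt := I.Pt
  ev x := (I.ev x).comp φ

variable {I : Ibp B} {c : A →+* A}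

theorem cmB_is (h : I.Is) (cc : ∀ f, c (c f) = f)
    (ca : ∀ z : ℂ, c (algebraMap ℂ A z) = algebraMap ℂ A (starRingEnd ℂ z))
    (e : ∀ f, φ (c f) = I.c (φ f)) : (cmB I φ c).Is where
  cc := cc
  calg := ca
  K_c f hf := (show φ (c f) ∈ I.K from e f ▸ h.K_c _ hf)
  ev_alg x z := (congrArg (I.ev x) (φ.commutes z)).trans (h.ev_alg x z)
  ev_c x f := (congrArg (I.ev x) (e f)).trans (h.ev_c x _)
  mono f hf p := h.mono (φ f) hf p

theorem cmB_dv {D : Der A} {D' : Der B} (h : I.Dv D' 0) (e : ∀ f, φ (D f) = D' (φ f)) :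
    (cmB I φ c).Dv D 0 where
  K_D f hf := (show φ (D f) ∈ I.K from e f ▸ h.K_D _ hf)
  ibp f hf := by
    have := h.ibp (φ f) hf
    rw [zero_mul, ← e] at this
    rw [zero_mul, map_zero, ← map_zero I.I]
    exact this

end hom

end Vale.Agent.P354YK
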