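import Vale.Agent.P354Z.Est
import Vale.Agent.P354YL.Fc
import Vale.Agent.P354BO.Defs
import Vale.Agent.P354YK.Pi

/-!
The integral on a cone O with the density chi^2, supports in W, and functions of (u, r).
-/

open scoped ContDiff
open Set Filter Topology MeasureTheory

noncomputable section

namespace Vale.Agent.P354YK

open Vale.Agent.P354XG Vale.Agent.P354XI Vale.Agent.P354XD Vale.Agent.P354XR Vale.Agent.P354Z
open Vale.Agent.P354YL (At cmp fv_cmp cj_cmp)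
open Vale.Agent.P354BO (bu)

instance haarE : (volume : Measure E6).IsAddHaarMeasure :=
  have : (volume : Measure (ℂ × ℂ)).IsAddHaarMeasure := Measure.prod.instIsAddHaarMeasure _ _
  have : (volume : Measure (ℝ × ℂ × ℂ)).IsAddHaarMeasure := Measure.prod.instIsAddHaarMeasure _ _
  Measure.prod.instIsAddHaarMeasure _ _

variable {O W : Set E6} {x : E6}

theorem fv_rs {a : Sm (on O)} {g : Unit × E6 → ℂ} (h : Rs a g) (hx : x ∈ O) :
    fv a x = g ((), x) := (fv_in a hx).trans (ev_on h hx)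

theorem cone_pos (h : Cone O) : Pos (on O) := on_of h.op h.pos
theorem cone_is (h : Cone O) : (hp (on O)).Is := hp_is (cone_pos h).off

theorem fv_z (i : Fin 6) (hx : x ∈ O) : fv ((hp (on O)).z i) x = zc i x := fv_rs (rs_z i) hx
theorem fv_N (hx : x ∈ O) : fv (hp (on O)).N x = nq x := fv_rs rs_N hx
theorem fv_ri (h : Cone O) (hx : x ∈ O) : fv (hp (on O)).ri x = (x.2.1 : ℂ)⁻¹ :=
  fv_rs (rs_ri (cone_pos h).off) hx
theorem fv_rl (t : ℝ) (hx : x ∈ O) : fv (Ibp.rl (Sm (on O)) t) x = t := fv_alg _ hx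

theorem fv_gm (hO : IsOpen O) {f : E6 → ℂ} (h : ∀ x ∈ O, ContDiffAt ℝ ∞ f x) (hx : x ∈ O) :
    fv (gm (on O) fun p => f p.2) x = f x :=
  fv_rs (g := fun p => f p.2) (rs_gm (on_of hO h)) hx

theorem fv_d (hO : IsOpen O) (i : Fin 6) (a : Sm (on O)) (hx : x ∈ O) :
    fv ((hp (on O)).d i a) x =
      d1 i * fderiv ℝ (fv a) x (v1 i) + d2 i * fderiv ℝ (fv a) x (v2 i) := by
  rw [hp_d, fv_add, fv_mul, fv_mul, fv_alg _ hx, fv_alg _ hx, fv_pd hO _ _ hx, fv_pd hO _ _ hx]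

/-! ### The integral -/

variable (O W) in
/-- Compact support in O and W. -/
def csW : Ideal (Sm (on O)) where
  carrier := {a | ∃ C, IsCompact C ∧ C ⊆ O ∧ C ⊆ W ∧ ∀ x ∉ C, fv a x = 0}
  add_mem' := by
    rintro a b ⟨C, hC, sC, wC, ha⟩ ⟨D, hD, sD, wD, hb⟩
    exact ⟨C ∪ D, hC.union hD, union_subset sC sD, union_subset wC wD, fun x hx => by
      rw [fv_add, ha x fun h => hx (Or.inl h), hb x fun h => hx (Or.inr h), add_zero]⟩
  zero_mem' := ⟨∅, isCompact_empty, empty_subset _, empty_subset _, fun x _ => fv_zero x⟩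
  smul_mem' := by
    rintro b a ⟨C, hC, sC, wC, ha⟩
    exact ⟨C, hC, sC, wC, fun x hx => by rw [smul_eq_mul, fv_mul, ha x hx, mul_zero]⟩

theorem csW_cs {a : Sm (on O)} (h : a ∈ csW O W) : a ∈ cs O :=
  let ⟨C, a, b, _, d⟩ := h; ⟨C, a, b, d⟩

/-- The integral without density. -/
def b0 (hO : IsOpen O) (W : Set E6) : Ibp (Sm (on O)) := { box volume hO with K := csW O W }

theorem b0_pd (hO : IsOpen O) (v : E6) : (b0 hO W).Dv (pd v) 0 where
  K_D a h := by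
    obtain ⟨C, hC, sC, wC, ha⟩ := id h
    refine ⟨C, hC, sC, wC, fun x hx => ?_⟩
    have : fv a =ᶠ[𝓝 x] fun _ => 0 := (hC.isClosed.isOpen_compl.eventually_mem hx).mono ha
    rw [cs_fd hO v (csW_cs h), this.fderiv_eq]
    simp
  ibp _ h := (box_skew volume hO v).dv.ibp _ (csW_cs h)

theorem b0_d (hO : IsOpen O) (i : Fin 6) : (b0 hO W).Dv ((hp (on O)).d i) 0 :=
  (((b0_pd hO (v1 i)).smul _).add ((b0_pd hO (v2 i)).smul _)).congr (by simp)

theorem dv_sub {A : Type} [CommRing A] [Algebra ℂ A] {B : Ibp A} {D D' : Der A} {d d' : A}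
    (h : B.Dv D d) (h' : B.Dv D' d') : B.Dv (D - D') (d - d') :=
  ⟨fun f hf => B.K.sub_mem (h.K_D f hf) (h'.K_D f hf), fun f hf => by
    rw [Derivation.sub_apply, map_sub, h.ibp f hf, h'.ibp f hf, sub_mul, map_sub]
    ring⟩

theorem b0_Om (h : Cone O) (i : Fin 3) : (b0 h.op W).Dv (Om (hp (on O)) i) 0 := by
  have k := cone_is h
  have z := fun i j => (b0_d (W := W) h.op i).smul ((hp (on O)).z j)
  fin_cases i
  · exact ((dv_sub (dv_sub ((z 4 5).add (z 5 4)) (z 2 3)) (z 3 2)).smul _).congr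
      (by simp [k.dz, Hp.D_hf, D_ii])
  · exact ((dv_sub ((dv_sub (z 3 2) (z 2 3)).add (z 5 4)) (z 4 5)).smul _).congr
      (by simp [k.dz, Hp.D_hf])
  · exact ((dv_sub ((dv_sub (z 3 3) (z 2 2)).add (z 4 4)) (z 5 5)).smul _).congr
      (by simp [k.dz, Hp.D_hf, D_ii])

variable (O) in
/-- The density. -/
def den : Sm (on O) := cmp (fun s => bu s ^ 2) (hp (on O)).N

theorem den_at : At (fun s => bu s ^ 2) (hp (on O)).N := At.of (bu.contDiff.pow 2) _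

theorem fv_den (hO : IsOpen O) (hx : x ∈ O) : fv (den O) x = (bu (nq x) ^ 2 : ℝ) := by
  rw [den, fv_cmp hO den_at hx, fv_N hx, Complex.ofReal_re]

theorem bu_out (h : ¬An x) : bu (nq x) = 0 := by
  refine bu.zero_of_le_dist ?_
  rw [Real.dist_eq, show bu.rOut = 1 / 2 from rfl, le_abs]
  by_contra c
  exact h ⟨by linarith [(not_or.1 c).2], by linarith [(not_or.1 c).1]⟩

theorem den_D (h : Cone O) {D : Der (Sm (on O))} (c : P354YL.Ch D) (e : D (hp (on O)).N = 0) :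
    D (den O) = 0 := by
  rw [den, c _ _ den_at (cone_is h).c_N, e, mul_zero]

/-- The integral with the density; the points are those of the closed shell. -/
def bW (hO : IsOpen O) (W : Set E6) : Ibp (Sm (on O)) :=
  { (b0 hO W).rew (den O) with
    Pt := {x : E6 // x ∈ O ∧ An x ∧ x ∈ W}
    ev := fun x => evO ⟨x.1, x.2.1⟩ }

theorem bW_mem (hO : IsOpen O) {a : Sm (on O)} : a ∈ (bW hO W).K ↔ den O * a ∈ csW O W := Iff.rfl

theorem bW_J (hO : IsOpen O) {a : Sm (on O)} (h : a ∈ (bW hO W).K) :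
    (bW hO W).J a = ∫ x, bu (nq x) ^ 2 * (fv a x).re := by
  refine (box_J volume hO (csW_cs h)).trans (integral_congr_ae (Eventually.of_forall fun x => ?_))
  by_cases hx : x ∈ O
  · simp only [LinearMap.mulLeft_apply, fv_mul, fv_den hO hx, Complex.re_ofReal_mul]
  · simp [fv_out _ hx]

theorem bW_is (hO : IsOpen O) : (bW hO W).Is where
  cc := cj_cj
  calg := cj_alg
  K_c a := by
    rintro ⟨C, hC, sC, wC, ha⟩
    refine ⟨C, hC, sC, wC, fun x hx => ?_⟩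
    have := (fv_cj _ x).trans ((congrArg _ (ha x hx)).trans (map_zero _))
    rwa [LinearMap.mulLeft_apply, map_mul, den, cj_cmp hO den_at] at this
  ev_alg x z := fv_alg z x.2.1
  ev_c x a := fv_cj a x.1
  mono a h e := by
    refine (box_is volume hO).mono _ (csW_cs h) fun x : O => ?_
    obtain ⟨C, -, -, wC, ha⟩ := h
    show 0 ≤ (fv (den O * a) x.1).re
    by_cases c : x.1 ∈ C
    · rw [fv_mul, fv_den hO x.2, Complex.re_ofReal_mul]
      by_cases b : An x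
      · exact mul_nonneg (sq_nonneg _) (e ⟨x, x.2, b, wC c⟩)
      · simp [bu_out b]
    · exact (congrArg Complex.re (ha x c)).ge

theorem bW_dv (hO : IsOpen O) {D : Der (Sm (on O))} (h : (b0 hO W).Dv D 0) (e : D (den O) = 0) :
    (bW hO W).Dv D 0 := ⟨(h.rew e).K_D, (h.rew e).ibp⟩

/-! ### Functions of (u, r) -/

/-- The map to (u, r). -/
def ur (M : ℝ) (x : E6) : ℝ × ℝ := (uu M x, x.2.1)

theorem ur_sm (M : ℝ) (h : 0 < x.2.1) : ContDiffAt ℝ ∞ (ur M) x :=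
  (contDiffAt_fst.add (contDiffAt_const.div contDiffAt_snd.fst h.ne')).prodMk contDiffAt_snd.fst

theorem ur_fd (M : ℝ) (h : 0 < x.2.1) (v : E6) :
    fderiv ℝ (ur M) x v = (v.1 - 4 * M ^ 2 / x.2.1 ^ 2 * v.2.1, v.2.1) := by
  have r := (hasFDerivAt_snd (𝕜 := ℝ) (p := x)).fst
  have i := ((hasDerivAt_inv h.ne').comp_hasFDerivAt x r).const_mul (4 * M ^ 2)
  have e : ur M = fun y : E6 => (y.1 + 4 * M ^ 2 * y.2.1⁻¹, y.2.1) :=
    funext fun y => by rw [ur, uu, div_eq_mul_inv]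
  rw [e]
  refine (congrArg (· v) ((hasFDerivAt_fst.add i).prodMk r).fderiv).trans ?_
  simp
  ring

variable (O) in
/-- The function phi (u, r). -/
def fnO (M : ℝ) (φ : ℝ → ℝ → ℝ) : Sm (on O) := gm (on O) fun p => (φ (uu M p.2) p.2.2.1 : ℂ)

/-- Smooth functions on r > 0. -/
def Sm2 (φ : ℝ → ℝ → ℝ) : Prop := ContDiffOn ℝ ∞ (fun p : ℝ × ℝ => φ p.1 p.2) {p | 0 < p.2}

variable {φ : ℝ → ℝ → ℝ} {M : ℝ}

theorem Sm2.at (s : Sm2 φ) {p : ℝ × ℝ} (h : 0 < p.2) :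
    ContDiffAt ℝ ∞ (fun p : ℝ × ℝ => φ p.1 p.2) p :=
  s.contDiffAt ((isOpen_lt continuous_const continuous_snd).mem_nhds h)

theorem Sm2.hu (s : Sm2 φ) (u : ℝ) {r : ℝ} (h : 0 < r) : deriv (fun u => φ u r) u =
    fderiv ℝ (fun p : ℝ × ℝ => φ p.1 p.2) (u, r) (1, 0) :=
  (HasFDerivAt.comp_hasDerivAt (f := fun u => (u, r)) u
    ((s.at (p := (u, r)) h).differentiableAt (by simp)).hasFDerivAt
    ((hasDerivAt_id u).prodMk (hasDerivAt_const u r))).deriv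

theorem Sm2.hr (s : Sm2 φ) (u : ℝ) {r : ℝ} (h : 0 < r) : HasDerivAt (φ u)
    (fderiv ℝ (fun p : ℝ × ℝ => φ p.1 p.2) (u, r) (0, 1)) r :=
  ((s.at (p := (u, r)) h).differentiableAt (by simp)).hasFDerivAt.comp_hasDerivAt r
    ((hasDerivAt_const r u).prodMk (hasDerivAt_id r))

theorem Sm2.fd (s : Sm2 φ) (v : ℝ × ℝ) :
    Sm2 fun u r => fderiv ℝ (fun p : ℝ × ℝ => φ p.1 p.2) (u, r) v :=
  (ContDiffOn.fderiv_of_isOpen s (isOpen_lt continuous_const continuous_snd) (m := ∞)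
    (by simp)).clm_apply contDiffOn_const

theorem Sm2.du (s : Sm2 φ) : Sm2 fun u r => deriv (fun u => φ u r) u :=
  ContDiffOn.congr (s.fd (1, 0)) fun p hp => s.hu p.1 hp

theorem Sm2.dr (s : Sm2 φ) : Sm2 fun u r => deriv (φ u) r :=
  ContDiffOn.congr (s.fd (0, 1)) fun p hp => (s.hr p.1 hp).deriv

theorem fv_fnO (h : Cone O) (s : Sm2 φ) (hx : x ∈ O) :
    fv (fnO O M φ) x = φ (uu M x) x.2.1 :=
  fv_gm h.op (f := fun x => (φ (uu M x) x.2.1 : ℂ)) (fun y hy =>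
    Complex.ofRealCLM.contDiff.contDiffAt.comp y ((s.at (p := ur M y) (h.pos y hy).1).comp y
      (ur_sm M (h.pos y hy).1))) hx

theorem fd_fnO (h : Cone O) (s : Sm2 φ) (hx : x ∈ O) (v : E6) :
    fderiv ℝ (fv (fnO O M φ)) x v = ((v.1 - 4 * M ^ 2 / x.2.1 ^ 2 * v.2.1) *
      deriv (fun u => φ u x.2.1) (uu M x) + v.2.1 * deriv (φ (uu M x)) x.2.1 : ℝ) := by
  have p := (h.pos x hx).1
  have e : fv (fnO O M φ) =ᶠ[𝓝 x] fun y => (φ (uu M y) y.2.1 : ℂ) :=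
    (h.op.eventually_mem hx).mono fun y hy => fv_fnO h s hy
  have d := Complex.ofRealCLM.hasFDerivAt.comp x
    (((s.at (p := ur M x) p).differentiableAt (by simp)).hasFDerivAt.comp x
      ((ur_sm M p).differentiableAt (by simp)).hasFDerivAt)
  rw [e.fderiv_eq]
  refine (congrArg (· v) d.fderiv).trans ?_
  rw [s.hu _ p, (s.hr _ p).deriv]
  simp only [ContinuousLinearMap.comp_apply, ur_fd M p, Complex.ofRealCLM_apply]
  have l : ∀ (L : ℝ × ℝ →L[ℝ] ℝ) a b, L (a, b) = a * L (1, 0) + b * L (0, 1) := fun L a b => by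
    rw [← smul_eq_mul, ← smul_eq_mul, ← map_smul, ← map_smul, ← map_add]; simp
  rw [l]
  rfl

theorem fnO_c (h : Cone O) (s : Sm2 φ) : cj (fnO O M φ) = fnO O M φ :=
  ext_fv h.op fun x hx => by rw [fv_cj, fv_fnO h s hx, Complex.conj_ofReal]

theorem fnO_T (h : Cone O) (s : Sm2 φ) :
    (hp (on O)).d 0 (fnO O M φ) = fnO O M fun u r => deriv (fun u => φ u r) u :=
  ext_fv h.op fun x hx => by
    rw [fv_d h.op _ _ hx, fd_fnO h s hx, fv_fnO h s.du hx]; simp [d1, d2, v1]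

theorem fnO_d (h : Cone O) (s : Sm2 φ) (i : Fin 6) (hi : 2 ≤ i) :
    (hp (on O)).d i (fnO O M φ) = 0 :=
  ext_fv h.op fun x hx => by
    rw [fv_d h.op _ _ hx, fd_fnO h s hx, fd_fnO h s hx, fv_zero]
    fin_cases i <;> simp [v1, v2] at hi ⊢

theorem pO_h1 (h : Cone O) (M0 M a : ℝ) : (pO O M0 M a).h1 =
    -(Ibp.rl _ (4 * M0 ^ 2) * ((hp (on O)).ri * (hp (on O)).ri)) :=
  ext_fv h.op fun x hx => by
    have := fv_gm h.op (f := fun y : E6 => ((-(4 * M0 ^ 2 / y.2.1 ^ 2) : ℝ) : ℂ)) (fun y hy =>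
      Complex.ofRealCLM.contDiff.contDiffAt.comp y (f := fun y : E6 => -(4 * M0 ^ 2 / y.2.1 ^ 2))
        (ContDiffAt.div (f := fun _ => 4 * M0 ^ 2) (g := fun y : E6 => y.2.1 ^ 2) contDiffAt_const
          (contDiffAt_snd.fst.pow 2) (pow_ne_zero 2 (h.pos y hy).1.ne')).neg) hx
    refine this.trans (Eq.trans ?_ (map_neg (evO ⟨x, hx⟩) _).symm)
    show _ = -fv _ x
    rw [fv_mul, fv_mul, fv_rl _ hx, fv_ri h hx]
    push_cast
    ring

theorem pO_is (h : Cone O) (M0 M a : ℝ) : (pO O M0 M a).Is (hp (on O)) := by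
  have k := cone_is h
  have d : ∀ i, i ≠ 1 → (hp (on O)).d i (hp (on O)).ri = 0 := fun i hi => by
    rw [KC.D_inv _ (show (hp (on O)).ri * (hp (on O)).z 1 = 1 by rw [mul_comm, k.hr]), k.dz,
      if_neg hi, mul_zero, neg_zero]
  refine { pm_is (cone_pos h) (fun _ => M) fun _ => a with
    ch := ?_, cj := map_zero _, dh := fun i hi => ?_, dj := fun _ _ => D_zero _ }
  · rw [pO_h1 h, map_neg, map_mul, map_mul, k.c_ri, Ibp.rl, k.calg, Complex.conj_ofReal]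
  · rw [pO_h1 h, D_neg, D_mul, D_mul, Ibp.D_rl, d i hi]; ring

theorem kO_R (h : Cone O) (M0 M a : ℝ) (f : Sm (on O)) : (kO O M0 M a).R f = (hp (on O)).d 1 f +
    Ibp.rl _ (4 * M0 ^ 2) * ((hp (on O)).ri * (hp (on O)).ri) * (hp (on O)).d 0 f := by
  rw [kO, kk_R, pO_h1 h, show (pO O M0 M a).j1 = 0 from rfl]
  simp [Hp.kc]

theorem fv_R (h : Cone O) (M0 M a : ℝ) (f : Sm (on O)) (hx : x ∈ O) :
    fv ((kO O M0 M a).R f) x = fderiv ℝ (fv f) x (4 * M0 ^ 2 / x.2.1 ^ 2, 1, 0) := by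
  have e : ((4 * M0 ^ 2 / x.2.1 ^ 2, 1, 0) : E6) = v1 1 + (4 * M0 ^ 2 / x.2.1 ^ 2) • v1 0 := by
    simp [v1, Prod.mk_zero_zero]
  rw [kO_R h, fv_add, fv_mul, fv_mul, fv_mul, fv_rl _ hx, fv_ri h hx, fv_d h.op _ _ hx,
    fv_d h.op _ _ hx, e, map_add, map_smul]
  simp [d1, d2]
  left
  ring

theorem fnO_R (h : Cone O) (s : Sm2 φ) (M' a : ℝ) :
    (kO O M M' a).R (fnO O M φ) = fnO O M fun u r => deriv (φ u) r :=
  ext_fv h.op fun x hx => by
    rw [fv_R h _ _ _ _ hx, fd_fnO h s hx, fv_fnO h s.dr hx]; simp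

end Vale.Agent.P354YK
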