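import Vale.Agent.P354XG.Inst

/-!
Spins and null rotations about l. Along an affine null geodesic field l the dyad with thorn equal
to the given field, kappa = 0 and a prescribed tau prime is given by two quadratures.
-/

set_option linter.unusedSimpArgs false

namespace Vale.Agent.P354YK

open Vale.Agent.P354XG Vale.Agent.P354XG.Geo

variable {A : Type*} [CommRing A] [Algebra ℂ A] {S : Geo A} {l n m mb : Vec A}

theorem dv_smul (D : Der A) (s : A) (X : Vec A) : dv D (s • X) = D s • X + s • dv D X := by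
  funext d; simp only [dv, Pi.add_apply, Pi.smul_apply, smul_eq_mul, D_mul]; ring
theorem dv_add (D : Der A) (X Y : Vec A) : dv D (X + Y) = dv D X + dv D Y := by
  funext d; simp only [dv, Pi.add_apply, D_add]
theorem cv_smul (s : A) (X : Vec A) : S.cv (s • X) = S.c s • S.cv X := by
  funext d; simp only [cv, Pi.smul_apply, smul_eq_mul, map_mul]
theorem cv_add (X Y : Vec A) : S.cv (X + Y) = S.cv X + S.cv Y := by
  funext d; simp only [cv, Pi.add_apply, map_add]

/-- A spin. -/
theorem spin (N : WNull S l n m mb) {e : A} (he : e * S.c e = 1) (h1 : S.H e = 0)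
    (h2 : S.Hb e = 0) : WNull S l n (e • m) (S.c e • mb) where
  c_l := N.c_l
  c_n := N.c_n
  c_m := by rw [cv_smul, N.c_m]
  ll := N.ll
  nn := N.nn
  mm := by simp only [dot_smul_left, dot_smul_right, N.mm, mul_zero]
  ln := N.ln
  lm := by simp only [dot_smul_right, N.lm, mul_zero]
  nm := by simp only [dot_smul_right, N.nm, mul_zero]
  mmb := by simp only [dot_smul_left, dot_smul_right, N.mmb]; linear_combination he
  H_l := N.H_l
  H_n := N.H_n
  H_m := by rw [dv_smul, h1, N.H_m, zero_smul, zero_add]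
  Hb_m := by rw [dv_smul, h2, N.Hb_m, zero_smul, zero_add, smul_neg]

/-- The rotated n. -/
def rn (S : Geo A) (l n m mb : Vec A) (b : A) : Vec A :=
  n + b • m + S.c b • mb + (b * S.c b) • l

/-- A null rotation about l; b has the weights (-2, 0). -/
theorem rot (h : S.Is) (N : WNull S l n m mb) {b : A} (h1 : S.H b = -(2 * b)) (h2 : S.Hb b = 0) :
    WNull S l (rn S l n m mb b) (m + S.c b • l) (mb + b • l) := by
  have M := N.toNull
  have k1 : S.H (S.c b) = 0 := by rw [← h.c_Hb, h2, map_zero]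
  have k2 : S.Hb (S.c b) = -(2 * S.c b) := by rw [← h.c_H, h1, map_neg, map_mul, map_ofNat]
  refine ⟨⟨N.c_l, ?_, ?_, N.ll, ?_, ?_, ?_, ?_, ?_, ?_⟩, N.H_l, ?_, ?_, ?_⟩
  · simp only [rn, cv_add, cv_smul, N.c_l, N.c_n, N.c_m, M.c_mb h, map_mul, h.cc]; module
  · simp only [cv_add, cv_smul, N.c_l, N.c_m, h.cc]
  any_goals
    simp only [rn, dot_add_left, dot_add_right, dot_smul_left, dot_smul_right, N.ll, N.nn, N.mm,
      N.ln, N.lm, N.nm, N.mmb, M.mbmb h, M.lmb h, M.nmb h, M.nl h, M.ml h, M.mn h, M.mbl h,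
      M.mbn h, M.mbm h]
    ring1
  · simp only [rn, dv_add, dv_smul, D_mul, h1, k1, N.H_l, N.H_n, N.H_m, N.H_mb h]; module
  · simp only [dv_add, dv_smul, k1, N.H_l, N.H_m]; module
  · simp only [dv_add, dv_smul, k2, N.Hb_l h, N.Hb_m]; module

theorem nab_op (u : Op A) (Z : Vec A) :
    S.nab u Z = S.nab ⟨u.X, 0, 0⟩ Z + u.a • dv S.H Z + u.b • dv S.Hb Z := by
  funext d
  simp only [nab, dv, act_apply, Pi.add_apply, Pi.smul_apply, smul_eq_mul]
  ring

/-- The lift in the GHP gauge is the only one which satisfies the two gauge conditions. -/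
theorem hat_eq (h : S.Is) (N : WNull S l n m mb) (u : Op A) (g1 : S.dot (S.nab u l) n = 0)
    (g2 : S.dot (S.nab u m) mb = 0) : hat S l n m mb u.X = u := by
  have t := two_hf (A := A)
  rw [nab_op] at g1 g2
  simp only [N.H_l, N.Hb_l h, N.H_m, N.Hb_m, dot_add_left, dot_smul_left, dot_neg_left, N.ln,
    N.mmb] at g1 g2
  obtain ⟨X, a, b⟩ := u
  simp only [hat, Op.mk.injEq, true_and] at g1 g2 ⊢
  constructor
  · linear_combination hf A * (g1 - g2) + a * t
  · linear_combination hf A * (g1 + g2) + b * t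

/-- A real lift of l along which l is parallel. -/
structure Ray (S : Geo A) (u : Op A) : Prop where
  cj : Cj S u u
  geo : S.nab u u.X = 0

/-- The rotation of m along u, and the value of tau prime. -/
def om (S : Geo A) (u : Op A) (m mb : Vec A) : A := S.dot (S.nab u m) mb
def t0 (S : Geo A) (u : Op A) (n mb : Vec A) : A := -S.dot (S.nab u n) mb

theorem c_om (h : S.Is) {u : Op A} (r : Ray S u) (N : Null S l n m mb) :
    S.c (om S u m mb) = -om S u m mb := by
  rw [om, h.c_dot, h.c_nab r.cj, N.c_m, N.c_mb h]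
  exact h.dot_flip u (by rw [N.mbm h, D_one])

/-- The dyad after the two quadratures. -/
theorem g2 (h : S.Is) {u : Op A} (r : Ray S u) (N : WNull S u.X n m mb) {e b t : A}
    (he : e * S.c e = 1) (e1 : S.H e = 0) (e2 : S.Hb e = 0)
    (e3 : S.act u e = -(om S u m mb * e)) (b1 : S.H b = -(2 * b)) (b2 : S.Hb b = 0)
    (b3 : S.act u b = S.c e * t0 S u n mb - t) :
    WNull S u.X (rn S u.X n (e • m) (S.c e • mb) b) (e • m + S.c b • u.X) (S.c e • mb + b • u.X) ∧
      ∀ G, G = ghp S u.X (rn S u.X n (e • m) (S.c e • mb) b) (e • m + S.c b • u.X)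
        (S.c e • mb + b • u.X) → G.th = S.act u ∧ G.ka = 0 ∧ G.ta' = t := by
  have N1 := spin N he e1 e2
  have N2 := rot h N1 b1 b2
  have M := N.toNull
  have z1 : S.dot (S.nab u m) u.X = 0 := by
    rw [h.dot_flip u (by rw [M.ml h, D_zero]), r.geo, dot_zero_left, neg_zero]
  have z2 : S.dot (S.nab u mb) u.X = 0 := by
    rw [h.dot_flip u (by rw [M.mbl h, D_zero]), r.geo, dot_zero_left, neg_zero]
  have z3 : S.dot (S.nab u n) u.X = 0 := by
    rw [h.dot_flip u (by rw [M.nl h, D_neg, D_one, neg_zero]), r.geo, dot_zero_left, neg_zero]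
  have z4 : S.dot (S.nab u mb) mb = 0 := by
    apply h.half
    linear_combination h.dot_flip u (Y := mb) (Z := mb) (by rw [M.mbmb h, D_zero])
  have k : hat S u.X (rn S u.X n (e • m) (S.c e • mb) b) (e • m + S.c b • u.X)
      (S.c e • mb + b • u.X) u.X = u := by
    refine hat_eq h N2 u (by rw [r.geo, dot_zero_left]) ?_
    simp only [om] at e3
    simp only [nab_add, nab_smul, r.geo, e3, dot_add_left, dot_add_right, dot_smul_left,
      dot_smul_right, dot_zero_left, z1, N.ll, N.mmb, M.lmb h, M.ml h]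
    ring
  refine ⟨N2, ?_⟩
  rintro _ rfl
  simp only [ghp, mk', k]
  refine ⟨trivial, by rw [r.geo, dot_zero_left, neg_zero], ?_⟩
  simp only [om, t0] at e3 b3
  show -S.dot (S.nab u (rn S u.X n (e • m) (S.c e • mb) b)) (S.c e • mb + b • u.X) = t
  simp only [rn, nab_add, nab_smul, r.geo, e3, b3, dot_add_left, dot_add_right, dot_smul_left,
    dot_smul_right, dot_zero_left, z1, z2, z3, z4, N.ll, N.mmb, M.lmb h, M.ml h, M.mbmb h,
    M.mbl h]
  linear_combination (t + S.c e * S.dot (S.nab u n) mb) * he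

/-- The weights of the two sources. -/
theorem wt_om (h : S.Is) {u : Op A} (w1 : Wt S.H u 1) (w2 : Wt S.Hb u 1) (N : WNull S l n m mb) :
    S.H (om S u m mb) = om S u m mb ∧ S.Hb (om S u m mb) = om S u m mb ∧
      S.H (t0 S u n mb) = -t0 S u n mb ∧ S.Hb (t0 S u n mb) = t0 S u n mb := by
  simp only [om, t0, D_neg, h.vertH.dot, h.vertHb.dot, h.vertH.nab w1, h.vertHb.nab w2, N.H_m,
    N.Hb_m, N.H_mb h, N.Hb_mb h, N.H_n, N.Hb_n h, nab_neg, dot_add_left, dot_neg_left,
    dot_neg_right, one_smul]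
  refine ⟨?_, ?_, ?_, ?_⟩ <;> ring

end Vale.Agent.P354YK
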