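import Vale.Agent.P354XG.Int
import Vale.Agent.P354XD.Fun

/-!
Quadrature along the lines in a fixed direction v, from the zero set of a function sigma whose
derivative along v is one.
-/

open scoped ContDiff
open Set Filter Topology

namespace Vale.Agent.P354YK

open Vale.Agent.P354XG Vale.Agent.P354XD

variable {J E : Type} [NormedAddCommGroup E] [NormedSpace ℝ E] {F : Filter J} {K : J → Set E}
  {v : E} {σ : J × E → ℝ} {μ : ℕ → J → ℝ}

/-- The sets K j are star shaped along v with respect to the zero set of sigma. -/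
structure Ry (F : Filter J) (K : J → Set E) (v : E) (σ : J × E → ℝ) : Prop where
  sm : ∀ᶠ p in nb F K, ContDiffAt ℝ ∞ (fun y => σ (p.1, y)) p.2
  dv : ∀ᶠ p in nb F K, fderiv ℝ (fun y => σ (p.1, y)) p.2 v = 1
  st : ∀ᶠ j in F, ∀ x ∈ K j, ∀ s ∈ Icc (0 : ℝ) 1, x - ((1 - s) * σ (j, x)) • v ∈ K j

/-- The point with parameter s on the segment from the anchor to x. -/
def qray (v : E) (σ : J × E → ℝ) (p : J × (ℝ × E)) : E :=
  p.2.2 - ((1 - p.2.1) * σ (p.1, p.2.2)) • v

namespace Ry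
variable (h : Ry F K v σ)
include h

theorem sm' : ∀ᶠ p in nb F (cyl K), ContDiffAt ℝ ∞ (fun y => σ (p.1, y)) p.2.2 :=
  (mp_up.ev h.sm).mono fun p hp => by simpa [aff] using hp

theorem mp : Mp F (cyl K) K (qray v σ) where
  sm := h.sm'.mono fun p hp => by
    have : ContDiffAt ℝ ∞ (fun y : ℝ × E => σ (p.1, y.2)) p.2 := hp.comp p.2 contDiffAt_snd
    exact contDiffAt_snd.sub (((contDiffAt_const.sub contDiffAt_fst).mul this).smul
      contDiffAt_const)
  maps := h.st.mono fun _ hj x hx => hj x.2 hx.2 x.1 hx.1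

theorem smF : SmF (nb F K) fun p => (σ p : ℂ) :=
  h.sm.mono fun _ hp => Complex.ofRealCLM.contDiff.contDiffAt.comp _ hp

/-- The function sigma as a family. -/
noncomputable def sg : Sm (nb F K) := P354XG.mk _ h.smF

theorem rs_sg : Rs h.sg fun p => (σ p : ℂ) := rs_mk h.smF

theorem cj_sg : cj h.sg = h.sg :=
  h.rs_sg.cj.ext h.rs_sg (Eventually.of_forall fun _ => Complex.conj_ofReal _)

theorem rs_pd_sg (w : E) :
    Rs (pd w h.sg) fun p => (fderiv ℝ (fun y => σ (p.1, y)) p.2 w : ℝ) :=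
  (h.rs_sg.pd w).congr (h.sm.mono fun p hp => by
    have : fderiv ℝ (sl (fun p => (σ p : ℂ)) p.1) p.2 = _ :=
      (Complex.ofRealCLM.hasFDerivAt.comp p.2 (hp.differentiableAt (by simp)).hasFDerivAt).fderiv
    simp only [pdF, this]
    rfl)

theorem pd_sg : pd v h.sg = 1 :=
  (h.rs_pd_sg v).ext rs_one (h.dv.mono fun p hp => by simp [hp])

omit h in
theorem rs_pb {E' : Type} [NormedAddCommGroup E'] [NormedSpace ℝ E'] {K' : J → Set E'}
    {X : J × E' → E} (m : Mp F K' K X) {a : Sm (nb F K)} {f : J × E → ℂ} (e : Rs a f) :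
    Rs (m.pb a) fun p => f (p.1, X p) := (m.rep_pb a).trans (m.ev e)

omit h in
theorem rs_up {a : Sm (nb F K)} {f : J × E → ℂ} (e : Rs a f) :
    Rs (up a) fun p => f (p.1, p.2.2) :=
  (rs_pb mp_up e).congr (Eventually.of_forall fun p => by simp [aff])

/-- The chain rule for the segments. -/
theorem pd_ray (s : ℝ) (w : E) (a : Sm (nb F K)) : pd (s, w) (h.mp.pb a) = h.mp.pb (pd w a) +
    (algebraMap ℂ _ (s : ℂ) * up h.sg - (1 - par) * up (pd w h.sg)) * h.mp.pb (pd v a) := by
  have r := rs_rep a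
  have rp : Rs (par : Sm (nb F (cyl K))) fun p => (p.2.1 : ℂ) := rep_par
  refine ((rs_pb h.mp r).pd (s, w)).ext ((rs_pb h.mp (r.pd w)).add ((((rs_alg _).mul
    (rs_up h.rs_sg)).sub ((rs_one.sub rp).mul (rs_up (h.rs_pd_sg w)))).mul
      (rs_pb h.mp (r.pd v)))) ?_
  filter_upwards [h.sm', h.mp.ev (rep_sm a).diff] with p h1 h2
  have d1 : HasFDerivAt (fun y : ℝ × E => σ (p.1, y.2))
      ((fderiv ℝ (fun y => σ (p.1, y)) p.2.2).comp (ContinuousLinearMap.snd ℝ ℝ E)) p.2 :=
    (h1.differentiableAt (by simp)).hasFDerivAt.comp p.2 hasFDerivAt_snd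
  have d2 : HasFDerivAt (fun y => qray v σ (p.1, y)) _ p.2 :=
    hasFDerivAt_snd.sub ((((hasFDerivAt_const 1 p.2).sub hasFDerivAt_fst).mul d1).smul_const v)
  have : fderiv ℝ (sl (fun p : J × (ℝ × E) => rep a (p.1, qray v σ p)) p.1) p.2 = _ :=
    (HasFDerivAt.comp (g := sl (rep a) p.1) p.2 h2.hasFDerivAt d2).fderiv
  simp only [pdF, this]
  simp
  ring

variable [FiniteDimensional ℝ E]

/-- The value at the anchor of the line. -/
noncomputable def an : Sm (nb F K) →ₐ[ℂ] Sm (nb F K) := lev0.comp h.mp.pb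

/-- The integral along the line from the anchor. -/
noncomputable def qd (a : Sm (nb F K)) : Sm (nb F K) := h.sg * int (h.mp.pb a)

omit [FiniteDimensional ℝ E] in
theorem rs_an {a : Sm (nb F K)} {f : J × E → ℂ} (e : Rs a f) :
    Rs (h.an a) fun p => f (p.1, p.2 - σ p • v) :=
  (rs_pb (mp_lev (left_mem_Icc.2 zero_le_one)) (rs_pb h.mp e)).congr
    (Eventually.of_forall fun p => by simp [aff, qray])

omit [FiniteDimensional ℝ E] in
theorem lev1_pb (a : Sm (nb F K)) : lev1 (h.mp.pb a) = a :=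
  (rs_pb (mp_lev (right_mem_Icc.2 zero_le_one)) (rs_pb h.mp (rs_rep a))).ext (rs_rep a)
    (Eventually.of_forall fun p => by simp [aff, qray])

omit h [FiniteDimensional ℝ E] in
theorem lev0_up (a : Sm (nb F K)) : lev0 (up a) = a :=
  (rs_pb (mp_lev (left_mem_Icc.2 zero_le_one)) (rs_up (rs_rep a))).ext (rs_rep a)
    (Eventually.of_forall fun p => by simp [aff])

omit [FiniteDimensional ℝ E] in
theorem pd_s (a : Sm (nb F K)) : pd (1, 0) (h.mp.pb a) = up h.sg * h.mp.pb (pd v a) := by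
  have z : ∀ b : Sm (nb F K), pd (0 : E) b = 0 := fun b => by
    simpa using pd_smul_dir 0 v b
  simp [h.pd_ray, z]

theorem qd_add (a b : Sm (nb F K)) : h.qd (a + b) = h.qd a + h.qd b := by
  simp only [qd, map_add, int_add, mul_add]

theorem qd_cj (a : Sm (nb F K)) : h.qd (cj a) = cj (h.qd a) := by
  simp only [qd, map_mul, h.cj_sg, Mp.pb_cj, int_cj]

omit [FiniteDimensional ℝ E] in
theorem an_cj (a : Sm (nb F K)) : h.an (cj a) = cj (h.an a) := by
  simp only [an, AlgHom.comp_apply, lev0, Mp.pb_cj]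

/-- The fundamental theorem of calculus along the lines. -/
theorem qd_pd (a : Sm (nb F K)) : h.qd (pd v a) = a - h.an a := by
  rw [qd, ← int_up_mul, ← h.pd_s, int_pd, h.lev1_pb]; rfl

/-- The derivatives of the integral. -/
theorem pd_qd (w : E) (a : Sm (nb F K)) :
    pd w (h.qd a) = h.qd (pd w a) + pd w h.sg * h.an a := by
  have e := int_pd ((1 - par) * h.mp.pb a)
  rw [D_mul, D_sub, D_one, pd_par, h.pd_s, int_add, map_mul, map_mul, map_sub, map_sub, lev1_par,
    lev0_par, map_one, map_one] at e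
  have e1 : (1 - par) * (up h.sg * h.mp.pb (pd v a)) =
    up h.sg * ((1 - par) * h.mp.pb (pd v a)) := by ring
  have e2 : h.mp.pb a * (0 - algebraMap ℂ _ ((1 : ℝ) : ℂ)) = -h.mp.pb a := by simp
  rw [e1, e2, int_up_mul, int_neg] at e
  have e3 : (algebraMap ℂ _ ((0 : ℝ) : ℂ) * up h.sg - (1 - par) * up (pd w h.sg)) *
      h.mp.pb (pd v a) = up (-pd w h.sg) * ((1 - par) * h.mp.pb (pd v a)) := by
    simp only [Complex.ofReal_zero, map_zero, map_neg]; ring
  rw [qd, D_mul, pd_int, h.pd_ray, int_add, e3, int_up_mul, qd]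
  show _ = _ + _ * lev0 (h.mp.pb a)
  linear_combination -pd w h.sg * e

theorem pd_qd_v (a : Sm (nb F K)) : pd v (h.qd a) = a := by
  rw [h.pd_qd, h.qd_pd, h.pd_sg]; ring

omit [FiniteDimensional ℝ E] in
theorem pd_an (w : E) (a : Sm (nb F K)) :
    pd w (h.an a) = h.an (pd w a) - pd w h.sg * h.an (pd v a) := by
  have e : pd w (h.an a) = lev0 (pd (0, w) (h.mp.pb a)) :=
    pd_pb_aff (mp_lev (left_mem_Icc.2 zero_le_one)) w (h.mp.pb a)
  rw [e, h.pd_ray]
  simp only [map_add, map_mul, map_sub, lev0_par, lev0_up, map_one, Complex.ofReal_zero, map_zero]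
  show h.an _ + _ * h.an _ = _
  ring

omit [FiniteDimensional ℝ E] in
theorem pd_an_v (a : Sm (nb F K)) : pd v (h.an a) = 0 := by
  rw [h.pd_an, h.pd_sg]; ring

theorem an_eq {c : Sm (nb F K)} (e : pd v c = 0) : h.an c = c := by
  have := h.qd_pd c
  rw [e, qd, map_zero, int_zero, mul_zero] at this
  linear_combination this

theorem an_sg : h.an h.sg = 0 := by
  have := h.qd_pd h.sg
  rw [h.pd_sg, qd, map_one, int_one, mul_one] at this
  linear_combination this

theorem an_qd (a : Sm (nb F K)) : h.an (h.qd a) = 0 := by rw [qd, map_mul, h.an_sg, zero_mul]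

theorem uniq {a b : Sm (nb F K)} (e : pd v a = pd v b) (e' : h.an a = h.an b) : a = b := by
  have e1 := h.qd_pd a
  rw [e, h.qd_pd, e'] at e1
  linear_combination -e1

theorem qd_mul {c : Sm (nb F K)} (e : pd v c = 0) (a : Sm (nb F K)) :
    h.qd (c * a) = c * h.qd a :=
  h.uniq (by rw [D_mul, h.pd_qd_v, h.pd_qd_v, e, mul_zero, add_zero])
    (by rw [map_mul, h.an_qd, h.an_qd, mul_zero])

omit [FiniteDimensional ℝ E] in
/-- A derivation which commutes with the derivative along the lines and is tangent to the anchor. -/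
structure Tan (D : Der (Sm (nb F K))) : Prop where
  comm : ∀ a, D (pd v a) = pd v (D a)
  an : ∀ a, D (h.an a) = h.an (D a)

variable {h}

theorem Tan.qd {D : Der (Sm (nb F K))} (t : h.Tan D) (a : Sm (nb F K)) :
    D (h.qd a) = h.qd (D a) :=
  h.uniq (by rw [← t.comm, h.pd_qd_v, h.pd_qd_v]) (by rw [← t.an, h.an_qd, h.an_qd, D_zero])

omit [FiniteDimensional ℝ E] in
theorem tan_pd {w : E} (e : pd w h.sg = 0) : h.Tan (pd w) :=
  ⟨pd_comm w v, fun a => by rw [h.pd_an, e, zero_mul, sub_zero]⟩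

omit [FiniteDimensional ℝ E] in
theorem Tan.add {D D' : Der (Sm (nb F K))} (t : h.Tan D) (t' : h.Tan D') : h.Tan (D + D') :=
  ⟨fun a => by simp only [Derivation.add_apply, D_add, t.comm, t'.comm],
    fun a => by simp only [Derivation.add_apply, map_add, t.an, t'.an]⟩

theorem Tan.smul {D : Der (Sm (nb F K))} (t : h.Tan D) {c : Sm (nb F K)} (e : pd v c = 0) :
    h.Tan (c • D) :=
  ⟨fun a => by simp only [Derivation.smul_apply, smul_eq_mul, D_mul, t.comm, e, mul_zero, add_zero],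
    fun a => by simp only [Derivation.smul_apply, smul_eq_mul, map_mul, t.an, h.an_eq e]⟩

theorem Tan.sub {D D' : Der (Sm (nb F K))} (t : h.Tan D) (t' : h.Tan D') : h.Tan (D - D') := by
  have := t.add (t'.smul (c := -1) (by rw [D_neg, D_one, neg_zero]))
  rwa [neg_one_smul, ← sub_eq_add_neg] at this

variable (h)

/-- Bounds, for segments of bounded length. -/
theorem dom (hμ : Wgt μ) (hs : Bd h.sg) {a : Sm (nb F K)} (ha : Dom μ a) :
    Dom μ (h.qd a) ∧ Dom μ (h.an a) := by
  let S : Set (Sm (nb F K)) := {y | ∃ c a, Bd c ∧ Dom μ a ∧ (y = c * h.qd a ∨ y = c * h.an a)}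
  have key : ∀ y ∈ AddSubmonoid.closure S, Dom0 μ y ∧ ∀ w, pd w y ∈ AddSubmonoid.closure S := by
    intro y hy
    induction hy using AddSubmonoid.closure_induction with
    | mem x hx =>
      obtain ⟨c, a, hc, ha, rfl | rfl⟩ := hx
      · refine ⟨Dom0.bmul hμ hc.dom0 (Dom0.bmul hμ hs.dom0 ((h.mp.dom0 ha.dom0).int hμ)),
          fun w => ?_⟩
        rw [D_mul, h.pd_qd, mul_add, ← mul_assoc, mul_comm (h.qd a)]
        exact add_mem (add_mem (AddSubmonoid.subset_closure ⟨_, _, hc, ha.pd w, Or.inl rfl⟩)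
          (AddSubmonoid.subset_closure ⟨_, _, Dom.bmul wgt_one hc (hs.pd w), ha, Or.inr rfl⟩))
          (AddSubmonoid.subset_closure ⟨_, _, hc.pd w, ha, Or.inl rfl⟩)
      · refine ⟨Dom0.bmul hμ hc.dom0 ((mp_lev (left_mem_Icc.2 zero_le_one)).dom0
          (h.mp.dom0 ha.dom0)), fun w => ?_⟩
        have e : pd w (c * h.an a) = c * h.an (pd w a) + -(c * pd w h.sg) * h.an (pd v a) +
          pd w c * h.an a := by rw [D_mul, h.pd_an]; ring
        rw [e]
        exact add_mem (add_mem (AddSubmonoid.subset_closure ⟨_, _, hc, ha.pd w, Or.inr rfl⟩)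
          (AddSubmonoid.subset_closure ⟨_, _, (Dom.bmul wgt_one hc (hs.pd w)).neg wgt_one,
            ha.pd v, Or.inr rfl⟩)) (AddSubmonoid.subset_closure ⟨_, _, hc.pd w, ha, Or.inr rfl⟩)
    | zero => exact ⟨dom0_zero hμ, fun v => by rw [D_zero]; exact zero_mem _⟩
    | add x y hx hy h1 h2 =>
      exact ⟨h1.1.add hμ h2.1, fun v => by rw [D_add]; exact add_mem (h1.2 v) (h2.2 v)⟩
  have one : Bd (1 : Sm (nb F K)) := by simpa only [map_one] using bd_alg (F := F) (K := K) 1
  have k := dom_of_stable (AddSubmonoid.closure S : Set _) (fun y hy => (key y hy).1)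
    (fun y hy => (key y hy).2)
  exact ⟨k _ (AddSubmonoid.subset_closure ⟨1, a, one, ha, Or.inl (one_mul _).symm⟩),
    k _ (AddSubmonoid.subset_closure ⟨1, a, one, ha, Or.inr (one_mul _).symm⟩)⟩

/-- A family is dominated as soon as its derivative along the lines and its anchor value are. -/
theorem dom_of (hμ : Wgt μ) (hs : Bd h.sg) {a : Sm (nb F K)} (h1 : Dom μ (pd v a))
    (h2 : Dom μ (h.an a)) : Dom μ a := by
  have e : a = h.qd (pd v a) + h.an a := by rw [h.qd_pd]; ring
  rw [e]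
  exact (h.dom hμ hs h1).1.add hμ h2

end Ry
end Vale.Agent.P354YK
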