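import Vale.Agent.P354YK.Tm
import Vale.Agent.P354YK.Ray
import Vale.Agent.P354YL.Sb

/-!
The time function of the far chart satisfies the axioms.
-/

open scoped ContDiff
open Set Filter Topology

noncomputable section

namespace Vale.Agent.P354YK

open Vale.Agent.P354XG Vale.Agent.P354XI Vale.Agent.P354XD Vale.Agent.P354XR Vale.Agent.P354Z
open Vale.Agent.P354XZ (Ch NF Fam Cut)
open Vale.Agent.P354YL (At fv_cmp cj_cmp LinY)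

theorem sb_le {u U R w d pm : ℝ} (hR : 1 ≤ R) (hU : R ≤ U) (hd : d ≤ 1 / 5)
    (e : 4 ≤ pm * w) : √(u ^ 2 + U ^ 2) ^ (-6 / 5 : ℝ) ≤ pm * (w * (|u| + R) ^ (-1 - d)) := by
  have a : 1 ≤ |u| + R := hR.trans (le_add_of_nonneg_left (abs_nonneg _))
  have b : (|u| + R) / 2 ≤ √(u ^ 2 + U ^ 2) := by
    linarith [Real.abs_le_sqrt (le_add_of_nonneg_right (sq_nonneg U) : u ^ 2 ≤ _),
      Real.le_sqrt_of_sq_le (le_add_of_nonneg_left (sq_nonneg u) : U ^ 2 ≤ _)]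
  have c : (2 : ℝ) ^ (6 / 5 : ℝ) ≤ 4 :=
    (Real.rpow_le_rpow_of_exponent_le one_le_two (by norm_num : (6 / 5 : ℝ) ≤ 2)).trans_eq
      (by norm_num)
  refine (Real.rpow_le_rpow_of_nonpos (by linarith) b (by norm_num)).trans ?_
  rw [Real.div_rpow (by linarith) zero_le_two, neg_div, Real.rpow_neg zero_le_two, div_inv_eq_mul,
    ← mul_assoc, mul_comm]
  exact mul_le_mul (c.trans e) (Real.rpow_le_rpow_of_exponent_le a (by linarith))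
    (Real.rpow_nonneg (by linarith) _) (by linarith)

namespace Fm.Ok
variable {Φ : Fm} (h : Φ.Ok) {θ : ℝ} {p : Φ.J → ℝ → ℝ} {pm ep : Φ.J → ℝ}
  {Bx : h.ch.Pt → Set h.ch.Pt}

include h in
theorem ch_X (j : Φ.J) (a : Fin 5) : P354YL.Ch (![(hp _).d 0,
    (hp (on (Φ.E j).O2)).z 1 • ((Φ.E j).K2 (Φ.c j)).R, Om (hp _) 0, Om (hp _) 1, Om (hp _) 2] a) := by
  have o := (h.co j).op
  fin_cases a
  exacts [P354YL.ch_d o 0, (P354YL.ch_kkR o _).smul _, P354YL.ch_Om o 0, P354YL.ch_Om o 1,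
    P354YL.ch_Om o 2]

theorem val_R (x : h.ch.Pt) (f : Φ.A) : (h.ch.B x.1).ev x.2 (h.ch.R f) =
    fv (((Φ.E x.1).K2 (Φ.c x.1)).R (f x.1)) (h.pt x) := congrArg (fv · (h.pt x)) (R_ap f x.1)

theorem mem_fc {j : Φ.J} (sh : (Φ.E j).Shape (Φ.c j)) (r1 : (Φ.c j).R1 + 3 ≤ Φ.R0 j) {φ : ℝ → ℝ}
    (sφ : ContDiff ℝ ∞ φ) {s : ℝ} (hs : s ∈ (Φ.E j).Lv) (z : ∀ y, s ≤ y → φ y = 0) {ψ : Fam Φ.J}
    (sψ : Sm2 (ψ j)) (e : ∀ u r, 0 < r → ψ j u r ≠ 0 → Φ.R0 j ≤ r ∧ 0 ≤ u + r) :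
    (h.tm θ Bx).fc φ * h.ch.fn ψ ∈ (h.ch.B j).K := by
  refine (h.mem_K j _).2 ⟨_, (sh.cp2 s hs).inter_right (t := {x : E6 | Φ.R0 j ≤ x.2.1})
    (isClosed_le continuous_const continuous_snd.fst), fun _ k => k.1.1,
    fun _ k => ⟨k.2, h.M j ▸ k.1.2.2.2.2⟩, fun x k => ?_⟩
  by_cases m : x ∈ (Φ.E j).O2
  swap
  · exact fv_out _ m
  show fv (den _ * (P354YL.cmp φ (Φ.E j).tau * fnO _ Φ.M0 (ψ j))) x = 0
  rw [fv_mul, fv_mul, fv_den (h.co j).op m, fv_cmp (h.co j).op (At.of sφ _) m,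
    fv_fnO (h.co j) sψ m]
  by_cases a : An x
  swap
  · simp [bu_out a]
  rcases le_total s (rv (Φ.E j).tau x) with t | t
  · simp [z (fv (Φ.E j).tau x).re t]
  by_cases q : ψ j (uu Φ.M0 x) x.2.1 = 0
  · simp [q]
  have := e _ _ ((h.co j).pos x m).1 q
  exact (k ⟨⟨m, a, t, r1.trans this.1, (h.M j).symm ▸ this.2⟩, this.1⟩).elim

/-- The line through x down to the known set. -/
theorem ray_W (x : h.ch.Pt) {ρ : ℝ} (k : max (8 * Φ.R0 x.1) (-uu Φ.M0 (h.pt x)) ≤ ρ) :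
    ray Φ.M0 (h.pt x) ρ ∈ Φ.W x.1 :=
  ⟨by linarith [le_of_max_le_left k, (h.one x.1).1, show (ray Φ.M0 (h.pt x) ρ).2.1 = ρ from rfl],
    by rw [uu_ray]; exact neg_le_iff_add_nonneg'.1 (le_of_max_le_right k)⟩

theorem uu_pk (j : Φ.J) (y : E6) (ρ : ℝ) (m) : h.ch.uu (h.pk j (ray Φ.M0 y ρ) m) = uu Φ.M0 y :=
  (h.uu_eq _).trans (uu_ray Φ.M0 y ρ)
theorem rr_pk (j : Φ.J) (y : E6) (ρ : ℝ) (m) : h.ch.rr (h.pk j (ray Φ.M0 y ρ) m) = ρ := h.rr_eq _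

theorem lin (g : Φ.Gd θ pm) (j : Φ.J) (s : ℝ) : LinY h.ch (h.tm θ Bx).Z ((h.tm θ Bx).Y j s) := by
  intro f φ sφ e0 e x hx
  by_cases z : x ∈ (h.tm θ Bx).Z
  · exact e0 x hx z
  have R := (h.one x.1).1
  have k : max (8 * Φ.R0 x.1) (-uu Φ.M0 (h.pt x)) ≤ (h.pt x).2.1 :=
    max_le ((not_le.1 fun a => z (Or.inl a)).le.trans_eq (h.rr_eq x))
      (neg_le_iff_add_nonneg'.2 (h.pt_mem x).2.2.2)
  have i := ray_in (g.sh x.1) (h.pt_mem x).1 (h.pt_mem x).2.1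
    (le_max_of_le_left (by linarith [g.R1 x.1])) (lt_max_of_lt_left (by linarith))
    ((h.M x.1).symm ▸ neg_le_iff_add_nonneg'.1 (le_max_right _ _)) k
  rw [h.M x.1] at i
  have y : ∀ ρ (l : ρ ∈ Icc _ (h.pt x).2.1), h.pk x.1 _ ⟨(i ρ l).1, (h.pt_mem x).2.1, h.ray_W x l.1⟩ ∈
      (h.tm θ Bx).Y j s := fun ρ l => ⟨hx.1, (i ρ l).2.trans_lt hx.2⟩
  refine (ray_le (h.co x.1) (Φ.E x.1).M (Φ.E x.1).a (f x.1) (sφ x.1) k (fun ρ l => (i ρ l).1) ?_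
    fun ρ l => ?_).trans_eq (h.at_eq φ x).symm
  · have := e0 _ (y _ (left_mem_Icc.2 k)) ?_
    · exact this.trans_eq (congrArg₂ (φ x.1) (h.uu_pk ..) (h.rr_pk ..))
    · rcases le_total (8 * Φ.R0 x.1) (-uu Φ.M0 (h.pt x)) with c | c
      · refine Or.inr ((congrArg₂ (· + ·) (h.uu_pk ..) (h.rr_pk ..)).trans_le
          (le_of_eq_of_le ?_ (mul_nonneg g.th.1.le (h.rr_pos _).le)))
        rw [max_eq_right c, add_neg_cancel]
      · exact Or.inl ((h.rr_pk ..).trans_le (max_eq_left c).le)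
  · have := (e _ (y ρ l)).trans_eq (congrArg₂ (fun u => deriv (φ x.1 u)) (h.uu_pk ..) (h.rr_pk ..))
    exact le_of_eq_of_le (congrArg (fun M => ‖fv ((kO _ M _ _).R (f x.1)) (ray Φ.M0 (h.pt x) ρ)‖)
      (h.M x.1).symm) ((congrArg norm (h.val_R _ f)).symm.trans_le this)

theorem pt_ind (j : Φ.J) : @IsInducing _ _ ((h.tm θ Bx).top j) _ fun y => h.pt ⟨j, y⟩ :=
  @IsInducing.mk _ _ (_) _ _ rfl

theorem cont (j : Φ.J) (f : Φ.A) :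
    @Continuous _ _ ((h.tm θ Bx).top j) _ fun x => (h.ch.B j).ev x f :=
  letI := (h.tm θ Bx).top j
  ContinuousOn.comp_continuous (s := (Φ.E j).O2) (g := fv (f j))
    (fun _ k => (fv_sm (h.co j).op _ k).continuousAt.continuousWithinAt)
    (h.pt_ind (θ := θ) (Bx := Bx) j).continuous fun y => (h.pt_mem ⟨j, y⟩).1

theorem cp (g : Φ.Gd θ pm) (j : Φ.J) {s : ℝ} (hs : s ∈ (Φ.E j).Lv) :
    @IsCompact _ ((h.tm θ Bx).top j) {x | (h.tm θ Bx).tv ⟨j, x⟩ ≤ s} := by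
  let _ := (h.tm θ Bx).top j
  rw [(h.pt_ind (θ := θ) (Bx := Bx) j).isCompact_iff]
  refine (congrArg IsCompact (Set.ext fun x => ⟨?_, fun k => ?_⟩)).mp (((g.sh j).cp2 s hs).inter_right
    (t := {x : E6 | Φ.R0 j ≤ x.2.1}) (isClosed_le continuous_const continuous_snd.fst))
  · exact fun k => ⟨(h.pk j x ⟨k.1.1, k.1.2.1, k.2, h.M j ▸ k.1.2.2.2.2⟩).2, k.1.2.2.1, rfl⟩
  · obtain ⟨y, a, rfl⟩ := k
    have m := h.pt_mem ⟨j, y⟩
    exact ⟨⟨m.1, m.2.1, a, h.fa ⟨j, y⟩ (g.R1 j)⟩, m.2.2.1⟩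

theorem edge (g : Φ.Gd θ pm) (x : h.ch.Pt) (z : x ∉ (h.tm θ Bx).Z) : x.2 ∈
    @closure _ ((h.tm θ Bx).top x.1) {y | (h.tm θ Bx).tv ⟨x.1, y⟩ < (h.tm θ Bx).tv x} := by
  let _ := (h.tm θ Bx).top x.1
  rw [(h.pt_ind (θ := θ) (Bx := Bx) x.1).closure_eq_preimage_closure_image]
  have m := h.pt_mem x
  have r : 0 < (h.pt x).2.1 := (h.rr_pos x).trans_eq (h.rr_eq x)
  have k : max (8 * Φ.R0 x.1) (-uu Φ.M0 (h.pt x)) < (h.pt x).2.1 := by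
    refine max_lt ((not_le.1 fun a => z (Or.inl a)).trans_eq (h.rr_eq x)) ?_
    have := not_le.1 fun a => z (Or.inr a)
    rw [h.uu_eq, h.rr_eq] at this
    linarith [mul_pos g.th.1 r]
  have e := ray_dn (g.sh x.1) m.1 (h.fa x (g.R1 x.1))
  rw [h.M x.1] at e
  have t := (ray_hd Φ.M0 (h.pt x) r).continuousAt.tendsto.mono_left
    (nhdsWithin_le_nhds (s := Iio (h.pt x).2.1))
  rw [ray_self] at t
  refine mem_closure_of_tendsto t ?_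
  filter_upwards [e, Ico_mem_nhdsLT k] with ρ a b
  exact ⟨(h.pk x.1 _ ⟨a.1, m.2.1, h.ray_W x b.1⟩).2, a.2, rfl⟩

/-- The axioms, from the properties of the boxes. -/
theorem tm_of (g : Φ.Gd θ pm)
    (bx : ∀ x : h.ch.Pt, 8 * Φ.R0 x.1 < h.ch.rr x → θ * h.ch.rr x < h.ch.uu x + h.ch.rr x →
      ∀ y ∈ Bx x, y.1 = x.1 ∧ rv (Φ.E y.1).tau (h.pt y) ≤ rv (Φ.E x.1).tau (h.pt x) ∧
        3 * Φ.R0 y.1 ≤ h.ch.rr y ∧ θ * h.ch.rr y / 4 ≤ h.ch.uu y + h.ch.rr y ∧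
        h.ch.rr x ≤ 2 * h.ch.rr y ∧ h.ch.rr y ≤ h.ch.rr x ∧ |h.ch.uu y - h.ch.uu x| ≤ 1)
    (sob : ∀ n, ∃ B, ∀ x : h.ch.Pt, 8 * Φ.R0 x.1 < h.ch.rr x →
      θ * h.ch.rr x < h.ch.uu x + h.ch.rr x → ∀ w μ, (h.ch.B x.1).Wt w → 0 ≤ μ →
      (∀ y ∈ Bx x, μ ≤ h.ch.val y w) → ∀ f, h.ch.S f = 0 →
      μ * h.ch.rr x * h.ch.jet n f x ^ 2 ≤ B * (h.ch.B x.1).J (w * h.ch.sl (n + 7) f)) :
    (h.tm θ Bx).Is (h.cut θ p pm ep) where
  re := funext fun j => (g.sh j).b2.re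
  fc_ev φ s x := fv_cmp (h.co x.1).op (At.of s _) (h.pt_mem x).1
  fc_c φ s := funext fun j => cj_cmp (h.co j).op (At.of s _)
  fc_X φ s a := funext fun j => (h.X_ap a _ j).trans ((h.ch_X j a φ _ (At.of s _)
    (g.sh j).b2.re).trans (congrArg (_ * ·) (h.X_ap a (h.tm θ Bx).ta j).symm))
  taR x := by
    have := (g.sh x.1).taR _ (h.pt_mem x).1 (h.fa x (g.R1 x.1))
    rw [Ch.val, Ibp.val, h.val_R]
    exact this
  taT x := by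
    have := (g.sh x.1).taT _ (h.pt_mem x).1 (h.fa x (g.R1 x.1))
    have o := g.ok x.1
    have M := (abs_nonneg _).trans_lt o.aM
    rw [h.M x.1, ← h.uu_eq, ← h.rr_eq, mul_assoc, mul_left_comm] at this
    refine ⟨_, ?_, this⟩
    simp only [Ch.at', Ch.Sb, Ch.mon, Real.rpow_zero, one_mul]
    exact sb_le (by linarith [o.R1]) (((le_add_of_nonneg_right (by norm_num)).trans (g.R1 x.1)).trans
      (h.one x.1).2) (by linarith [o.d0.2])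
      (g.pm x.1)
  taO x i := by
    rw [h.rr_eq]
    exact (congrArg (‖fv · (h.pt x)‖) (hhom_Om (hpi_hom _ x.1) i _)).trans_le
      ((g.sh x.1).taO _ (h.pt_mem x).1 (h.fa x (g.R1 x.1)) i)
  low j := (g.sh j).lvL
  cpt φ sφ j s hs z := by
    have R := one_pos.trans_le (h.one j).1
    have sc : P354XZ.SmF (h.cut θ p pm ep).chi := fun j => (sm_up _ _ _ _ _).pow 2
    have c : ∀ u r, 0 < r → cps θ (Φ.R0 j) u r ≠ 0 → Φ.R0 j ≤ r ∧ 0 ≤ u + r := fun u r r0 k => by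
      have := cps_ne g.th.1 R r0 k
      exact ⟨by linarith [this.1], by linarith [this.2, mul_pos g.th.1 r0]⟩
    rw [h.is.fn_T _ sc, h.is.fn_R _ sc]
    refine ⟨h.mem_fc (g.sh j) (g.R1 j) sφ hs z (sc j) fun u r r0 k => c u r r0 fun e => k ?_,
      h.mem_fc (g.sh j) (g.R1 j) sφ hs z ((sm_up _ _ _ _ _).mul (contDiffOn_const.sub
        (sm_up _ _ _ _ _))) fun u r r0 k => ?_,
      h.mem_fc (g.sh j) (g.R1 j) sφ hs z (Sm2.du (sc j)) fun u r r0 k => c u r r0 fun e => ?_,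
      h.mem_fc (g.sh j) (g.R1 j) sφ hs z (Sm2.dr (sc j)) fun u r r0 k => c u r r0 fun e => ?_⟩
    · exact (congrArg (· ^ 2) e).trans (by simp)
    · have := lay_ne g.th.1 R r0 k
      exact ⟨by linarith [this.1], by linarith [this.2.1, mul_pos g.th.1 r0]⟩
    · exact mul_ne_zero r0.ne' k ((chi_u (R := Φ.R0 j) r0).trans (by rw [e]; simp))
    · exact mul_ne_zero r0.ne' k ((chi_r (R := Φ.R0 j) r0).trans (by rw [e]; simp))
  lin j s _ := h.lin g j s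
  cont := h.cont
  cp j _ := h.cp g j
  edge j x := (em _).imp_right (h.edge g ⟨j, x⟩)
  bx x z y k := by
    obtain ⟨a, b, c, d, e⟩ := bx x (not_le.1 fun a => z (Or.inl a))
      (not_le.1 fun a => z (Or.inr a)) y k
    exact ⟨a, b, chi_one g.th.1 (one_pos.trans_le (h.one _).1) c d, e⟩
  sob n := (sob n).imp fun _ k x z =>
    k x (not_le.1 fun a => z (Or.inl a)) (not_le.1 fun a => z (Or.inr a))

/-- The time function with its boxes. -/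
abbrev TT (θ : ℝ) : P354YL.Tm h.ch := h.tm θ (P354YL.Bx h θ)

theorem tm_is (g : Φ.Gd θ pm) : (h.tm θ (P354YL.Bx h θ)).Is (h.cut θ p pm ep) :=
  have H : P354YL.Hy Φ θ := ⟨g.sh, fun j => ⟨(g.ok j).cw.1.le, by
    linarith [(g.ok j).R1, (abs_nonneg _).trans_lt (g.ok j).aM]⟩, g.R1, g.M, g.th, g.thR⟩
  h.tm_of g (P354YL.bx_geo h H le_rfl) (P354YL.sob_ok h H)

/-- The component mc 0 of the reference solution. -/
theorem mc0 (x : h.ch.Pt) : 2 * (h.ch.rr x * h.ch.md x (Φ.nf0.mc 0)) ^ 2 ≤ 4 * Φ.M0 ^ 2 := by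
  have b := h.is.ibp x.1
  have i : (h.ch.B x.1).ev x.2 (ii Φ.A) = Complex.I := b.ev_alg _ _
  have s := pt_s h.cmp.kc (b.ev_c x.2)
  have z := pt_zb h.cmp.kc (b.ev_c x.2) i
  have e := (h.eqs x.1).par
  rw [h.M x.1] at e
  have a : ‖(h.ch.B x.1).ev x.2 Φ.kc.a‖ = |(Φ.E x.1).a| :=
    (congrArg norm (fv_rs (rs_cst _) (h.pt_mem x).1)).trans (Complex.norm_real _)
  have r := h.rr_pos x
  rw [show ((h.ch.B x.1).ev x.2 Φ.kc.r).re = h.ch.rr x from rfl, abs_of_pos r] at z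
  have m : h.ch.md x (Φ.nf0.mc 0) = |(Φ.E x.1).a| * ‖(h.ch.B x.1).ev x.2 Φ.kc.s‖ *
      ‖(h.ch.B x.1).ev x.2 Φ.kc.zb‖ := by
    show ‖(h.ch.B x.1).ev x.2 (ii Φ.A * Φ.kc.a * Φ.kc.s * Φ.kc.zb)‖ = _
    rw [map_mul, map_mul, map_mul, norm_mul, norm_mul, norm_mul, i, a, Complex.norm_I, one_mul]
  have : h.ch.rr x * h.ch.md x (Φ.nf0.mc 0) ≤ 5 / 4 * Φ.M0 := by
    rw [m, mul_left_comm]
    exact (mul_le_of_le_one_right (by positivity) z).trans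
      ((mul_le_of_le_one_right (abs_nonneg _) s).trans (e.1.le.trans e.2))
  have q : (h.ch.rr x * h.ch.md x (Φ.nf0.mc 0)) ^ 2 ≤ _ :=
    pow_le_pow_left₀ (mul_nonneg r.le (norm_nonneg _)) this 2
  nlinarith [sq_nonneg Φ.M0]

end Fm.Ok

end Vale.Agent.P354YK
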