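import Vale.Agent.P354XZ.Props
import Vale.Agent.P354XT.Calc

/-!
The cut-offs of the far chart.
-/

open scoped ContDiff
open Set Filter Topology

noncomputable section

namespace Vale.Agent.P354YK

open Vale.Agent.P354XZ
open Vale.Agent.P354XT (up up_sm up_nonneg up_le up_zero up_one)

/-- chi = cps ^ 2 is 1 on 3 R ≤ r, θ r / 4 ≤ u + r and 0 on r ≤ 2 R and on u + r ≤ θ r / 8. -/
def cps (θ R u r : ℝ) : ℝ := up 2 3 (r / R) * up (θ / 8) (θ / 4) ((u + r) / r)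
def chi (θ R u r : ℝ) : ℝ := cps θ R u r ^ 2
def lay (θ R u r : ℝ) : ℝ := up (3 / 2) 2 (r / R) * up (θ / 16) (θ / 8) ((u + r) / r) *
  (1 - up 3 4 (r / R) * up (θ / 4) (θ / 2) ((u + r) / r))

/-- The bending factor with the radius P. -/
def bend (P r : ℝ) : ℝ := P ^ 2 * r ^ 2 / (P ^ 2 + r ^ 2)

theorem up_d0 {a b x : ℝ} (h : a < b) (hx : x ∉ Icc a b) : deriv (up a b) x = 0 := by
  rcases not_and_or.1 hx with c | c
  · have : up a b =ᶠ[𝓝 x] fun _ => 0 :=
      (eventually_lt_nhds (not_le.1 c)).mono fun _ k => up_zero h k.le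
    rw [this.deriv_eq, deriv_const]
  · have : up a b =ᶠ[𝓝 x] fun _ => 1 :=
      (eventually_gt_nhds (not_le.1 c)).mono fun _ k => up_one h k.le
    rw [this.deriv_eq, deriv_const]

theorem up_bd {a b : ℝ} (h : a < b) {g : ℝ → ℝ} (hg : Continuous g) :
    ∃ K, 0 ≤ K ∧ ∀ x, |g x * deriv (up a b) x| ≤ K := by
  obtain ⟨K, e⟩ := isCompact_Icc.exists_bound_of_continuousOn (s := Icc a b)
    (hg.mul ((up_sm a b).continuous_deriv (by simp))).continuousOn
  refine ⟨max K 0, le_max_right _ _, fun x => ?_⟩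
  by_cases c : x ∈ Icc a b
  · exact (e x c).trans (le_max_left _ _)
  · simp [up_d0 h c]

theorem up_pos {a b x : ℝ} (h : a < b) (e : up a b x ≠ 0) : a < x :=
  lt_of_not_ge fun c => e (up_zero h c)

theorem up_hd (a b x : ℝ) : HasDerivAt (up a b) (deriv (up a b) x) x :=
  ((up_sm a b).differentiable (by simp) x).hasDerivAt

variable {θ R u r : ℝ}

theorem sm_up (a b c d R : ℝ) : ContDiffOn ℝ ∞
    (fun p : ℝ × ℝ => up a b (p.2 / R) * up c d ((p.1 + p.2) / p.2)) {p | 0 < p.2} :=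
  ((up_sm a b).comp (contDiff_snd.div_const R)).contDiffOn.mul ((up_sm c d).comp_contDiffOn
    ((contDiff_fst.add contDiff_snd).contDiffOn.div contDiffOn_snd fun _ h => ne_of_gt h))

theorem up2 (a b c d x y : ℝ) : up a b x * up c d y ∈ Icc (0 : ℝ) 1 :=
  ⟨mul_nonneg (up_nonneg _ _ _) (up_nonneg _ _ _),
    mul_le_one₀ (up_le _ _ _) (up_nonneg _ _ _) (up_le _ _ _)⟩

theorem chi_mem (θ R u r : ℝ) : chi θ R u r ∈ Icc (0 : ℝ) 1 :=
  ⟨sq_nonneg _, pow_le_one₀ (up2 ..).1 (up2 ..).2⟩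

theorem lay_mem (θ R u r : ℝ) : lay θ R u r ∈ Icc (0 : ℝ) 1 :=
  ⟨mul_nonneg (up2 ..).1 (sub_nonneg.2 (up2 ..).2),
    mul_le_one₀ (up2 ..).2 (sub_nonneg.2 (up2 ..).2) (sub_le_self _ (up2 ..).1)⟩

theorem chi_one (hθ : 0 < θ) (hR : 0 < R) (h : 3 * R ≤ r) (e : θ * r / 4 ≤ u + r) :
    chi θ R u r = 1 := by
  have : 0 < r := by linarith
  rw [chi, cps, up_one (by norm_num) ((le_div_iff₀ hR).2 h),
    up_one (by linarith) ((le_div_iff₀ this).2 (by linarith)), one_mul, one_pow]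

theorem cps_ne (hθ : 0 < θ) (hR : 0 < R) (hr : 0 < r) (h : cps θ R u r ≠ 0) :
    2 * R < r ∧ θ * r / 8 < u + r :=
  ⟨(lt_div_iff₀ hR).1 (up_pos (by norm_num) (left_ne_zero_of_mul h)), by
    linarith [(lt_div_iff₀ hr).1 (up_pos (by linarith) (right_ne_zero_of_mul h))]⟩

theorem chi_ne (hθ : 0 < θ) (hR : 0 < R) (hr : 0 < r) (h : chi θ R u r ≠ 0) :
    2 * R < r ∧ θ * r / 8 < u + r := cps_ne hθ hR hr fun e => h (by rw [chi, e]; simp)

/-- The support of the layer. -/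
theorem lay_ne (hθ : 0 < θ) (hR : 0 < R) (hr : 0 < r) (h : lay θ R u r ≠ 0) :
    3 / 2 * R < r ∧ θ * r / 16 < u + r ∧ (r < 4 * R ∨ u + r < θ * r / 2) := by
  have a := left_ne_zero_of_mul h
  refine ⟨(lt_div_iff₀ hR).1 (up_pos (by norm_num) (left_ne_zero_of_mul a)), by
    linarith [(lt_div_iff₀ hr).1 (up_pos (by linarith) (right_ne_zero_of_mul a))], ?_⟩
  by_contra c
  rw [not_or, not_lt, not_lt] at c
  refine right_ne_zero_of_mul h ?_
  rw [up_one (by norm_num) ((le_div_iff₀ hR).2 c.1),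
    up_one (by linarith) ((le_div_iff₀ hr).2 (by linarith [c.2])), one_mul, sub_self]

theorem chi_u (hr : 0 < r) : r * deriv (fun u => chi θ R u r) u =
    2 * cps θ R u r * (up 2 3 (r / R) * deriv (up (θ / 8) (θ / 4)) ((u + r) / r)) := by
  have a := ((((up_hd (θ / 8) (θ / 4) _).comp u (((hasDerivAt_id u).add_const r).div_const r)
    ).const_mul (up 2 3 (r / R))).pow 2).deriv
  refine (congrArg (r * ·) a).trans ?_
  simp only [cps, Function.comp, id]
  field_simp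
  simp
  ring

theorem chi_r (hr : 0 < r) : r * deriv (chi θ R u) r =
    2 * cps θ R u r * (r / R * deriv (up 2 3) (r / R) * up (θ / 8) (θ / 4) ((u + r) / r) +
      up 2 3 (r / R) * ((1 - (u + r) / r) * deriv (up (θ / 8) (θ / 4)) ((u + r) / r))) := by
  have a := ((((up_hd 2 3 _).comp r ((hasDerivAt_id r).div_const R)).mul
    ((up_hd (θ / 8) (θ / 4) _).comp r (((hasDerivAt_id r).const_add u).div (hasDerivAt_id r)
      hr.ne'))).pow 2).deriv
  refine (congrArg (r * ·) a).trans ?_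
  simp only [cps, Function.comp, id, Pi.mul_apply, Pi.div_apply]
  field_simp
  simp
  ring

theorem dchi (hθ : 0 < θ) : ∃ L, ∀ R u r, 0 < R → 0 < r →
    r ^ 2 * (deriv (fun u => chi θ R u r) u ^ 2 + deriv (chi θ R u) r ^ 2) ≤
      L * (chi θ R u r * lay θ R u r) ∧
    r * (|deriv (fun u => chi θ R u r) u| + |deriv (chi θ R u) r|) ≤ L * lay θ R u r := by
  obtain ⟨K1, k1, e1⟩ := up_bd (show θ / 8 < θ / 4 by linarith) (g := fun _ => 1) continuous_const
  obtain ⟨K2, k2, e2⟩ := up_bd (show (2 : ℝ) < 3 by norm_num) continuous_id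
  obtain ⟨K3, k3, e3⟩ := up_bd (show θ / 8 < θ / 4 by linarith) (g := fun w => 1 - w) (by fun_prop)
  refine ⟨4 * (K1 ^ 2 + (K2 + K3) ^ 2) + 2 * (K1 + (K2 + K3)), fun R u r hR hr => ?_⟩
  rw [mul_add, mul_add r, ← mul_pow, ← mul_pow, ← abs_of_pos hr, ← abs_mul, ← abs_mul,
    abs_of_pos hr, chi_u hr, chi_r hr]
  have c0 := mul_nonneg (chi_mem θ R u r).1 (lay_mem θ R u r).1
  have l0 := (lay_mem θ R u r).1
  by_cases z : cps θ R u r = 0
  · simp only [z, mul_zero, zero_mul, abs_zero, add_zero, ne_eq, two_ne_zero, not_false_eq_true,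
      zero_pow]
    exact ⟨by positivity, by positivity⟩
  by_cases o : 3 < r / R ∧ θ / 4 < (u + r) / r
  · rw [up_d0 (by norm_num) fun k => o.1.not_ge k.2, up_d0 (by linarith) fun k => o.2.not_ge k.2]
    simp only [mul_zero, zero_mul, abs_zero, add_zero, ne_eq, two_ne_zero, not_false_eq_true,
      zero_pow]
    exact ⟨by positivity, by positivity⟩
  have l : lay θ R u r = 1 := by
    have a := cps_ne hθ hR hr z
    rw [lay, up_one (by norm_num) ((le_div_iff₀ hR).2 a.1.le),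
      up_one (by linarith) ((le_div_iff₀ hr).2 (by linarith [a.2]))]
    rcases not_and_or.1 o with k | k
    · rw [up_zero (by norm_num) (not_lt.1 k)]; simp
    · rw [up_zero (a := θ / 4) (by linarith) (not_lt.1 k)]; simp
  have m : ∀ a b x y K, |y| ≤ K → |up a b x * y| ≤ K := fun a b x y K e => by
    rw [abs_mul, abs_of_nonneg (up_nonneg _ _ _)]
    exact (mul_le_of_le_one_left (abs_nonneg _) (up_le _ _ _)).trans e
  have a1 := m 2 3 (r / R) _ _ (by simpa using e1 ((u + r) / r))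
  have a2 := (abs_add_le _ _).trans (add_le_add ((congrArg abs (mul_comm _ _)).trans_le
    (m (θ / 8) (θ / 4) ((u + r) / r) _ _ (e2 (r / R)))) (m 2 3 (r / R) _ _ (e3 ((u + r) / r))))
  have p : cps θ R u r ∈ Icc (0 : ℝ) 1 := up2 ..
  rw [l, mul_one, mul_one, chi, abs_mul, abs_mul (2 * _), abs_of_nonneg (by linarith [p.1])]
  simp only [id] at a2
  generalize cps θ R u r = c at p
  have b1 := sq_le_sq' (abs_le.1 a1).1 (abs_le.1 a1).2
  have b2 := sq_le_sq' (abs_le.1 a2).1 (abs_le.1 a2).2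
  refine ⟨?_, ?_⟩
  · rw [mul_pow, mul_pow (2 * c), ← mul_add]
    have := mul_le_mul_of_nonneg_left (add_le_add b1 b2) (sq_nonneg (2 * c))
    nlinarith [mul_nonneg (add_nonneg k1 (add_nonneg k2 k3)) (sq_nonneg c)]
  · rw [← mul_add]
    have := mul_le_mul (show 2 * c ≤ 2 by linarith [p.2]) (add_le_add a1 a2) (by positivity)
      (by norm_num)
    nlinarith [sq_nonneg K1, sq_nonneg (K2 + K3)]

variable {A : Type} [CommRing A] [Algebra ℂ A]

/-- The cut-offs of the chart C; p is a function of r. -/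
def cutC (C : Ch A) (θ : ℝ) (p : C.J → ℝ → ℝ) (pm ep : C.J → ℝ) : Cut C :=
  ⟨fun j => chi θ (C.R0 j), fun j => lay θ (C.R0 j), fun j _ => p j, pm, ep⟩

/-- The conditions on the bending factor. -/
structure Bend (R U pm : ℝ) (p : ℝ → ℝ) : Prop where
  sm : ContDiffOn ℝ ∞ p (Ioi 0)
  pos : ∀ r, 0 < r → 0 < p r
  le : ∀ r, R ≤ r → 1 ≤ p r ∧ p r ≤ pm ∧ p r ≤ r ^ 2 ∧ p r ≤ U ^ 2
  dp : ∀ r, R ≤ r → 0 ≤ deriv p r ∧ r * deriv p r ≤ 2 * p r ∧ (U ≤ 4 * r → r * deriv p r ≤ p r)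

theorem bend_one {U pm : ℝ} (h : 1 ≤ R) (hU : 1 ≤ U) (hp : 1 ≤ pm) : Bend R U pm fun _ => 1 :=
  ⟨contDiffOn_const, fun _ _ => one_pos,
    fun _ e => ⟨le_rfl, hp, one_le_pow₀ (h.trans e), one_le_pow₀ hU⟩, fun _ _ => by simp⟩

theorem bend_ge {P : ℝ} (h0 : 0 < r) (h : r ≤ P) : r ^ 2 / 2 ≤ bend P r := by
  rw [bend, le_div_iff₀ (by positivity)]
  nlinarith [mul_le_mul_of_nonneg_left (pow_le_pow_left₀ h0.le h 2) (sq_nonneg r)]

theorem bend_ok {U pm P : ℝ} (h : 2 ≤ R) (hP : 2 ≤ P) (hU : 4 * P ≤ U) (hp : P ^ 2 ≤ pm) :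
    Bend R U pm (bend P) := by
  have p0 : 0 < P ^ 2 := by positivity
  have d : ∀ r, 0 < P ^ 2 + r ^ 2 := fun r => by positivity
  refine ⟨((contDiff_const.mul (contDiff_id.pow 2)).div (contDiff_const.add (contDiff_id.pow 2))
    fun r => (d r).ne').contDiffOn, fun r e => div_pos (by positivity) (d r), fun r e => ?_,
    fun r e => ?_⟩
  · have a : bend P r ≤ P ^ 2 := by rw [bend, div_le_iff₀ (d r)]; nlinarith
    have r4 : 4 ≤ r ^ 2 := by nlinarith
    have p4 : 4 ≤ P ^ 2 := by nlinarith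
    exact ⟨by rw [bend, le_div_iff₀ (d r)]; nlinarith, a.trans hp,
      by rw [bend, div_le_iff₀ (d r)]; nlinarith [sq_nonneg (r ^ 2)], a.trans (by nlinarith)⟩
  · have r0 : 0 < r := by linarith
    have a : deriv (bend P) r = 2 * P ^ 4 * r / (P ^ 2 + r ^ 2) ^ 2 := by
      refine ((((hasDerivAt_id r).pow 2).const_mul (P ^ 2)).div
        (((hasDerivAt_id r).pow 2).const_add (P ^ 2)) (d r).ne').deriv.trans ?_
      simp only [id, Pi.pow_apply]
      congr 1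
      norm_num
      ring
    have b : r * deriv (bend P) r = 2 * P ^ 2 / (P ^ 2 + r ^ 2) * bend P r := by
      rw [a, bend]; field_simp
    have c : 0 ≤ bend P r := div_nonneg (by positivity) (d r).le
    rw [b]
    refine ⟨by rw [a]; positivity, mul_le_mul_of_nonneg_right ?_ c, fun k =>
      mul_le_of_le_one_left c ?_⟩
    · rw [div_le_iff₀ (d r)]; nlinarith [sq_nonneg r]
    · rw [div_le_one (d r)]; nlinarith

theorem ut_ge (C : Ch A) (j : C.J) (u : ℝ) : |u| ≤ C.ut j u ∧ C.U0 j ≤ C.ut j u :=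
  ⟨Real.abs_le_sqrt (le_add_of_nonneg_right (sq_nonneg _)),
    Real.le_sqrt_of_sq_le (le_add_of_nonneg_left (sq_nonneg _))⟩

theorem cutC_is {C : Ch A} {p : C.J → ℝ → ℝ} {pm ep : C.J → ℝ} (hθ : 0 < θ) (h1 : θ ≤ 1)
    (one : ∀ j, 1 ≤ C.R0 j ∧ C.R0 j ≤ C.U0 j)
    (dom : ∀ j, ∀ q ∈ C.Dom j, C.R0 j ≤ q.2 ∧ 0 ≤ q.1 + q.2) (e : ∀ j, 0 ≤ ep j)
    (b : ∀ j, Bend (C.R0 j) (C.U0 j) (pm j) (p j)) : (cutC C θ p pm ep).Is := by
  have R0 : ∀ j, 0 < C.R0 j := fun j => one_pos.trans_le (one j).1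
  have r0 : ∀ j, ∀ q ∈ C.Dom j, 0 < q.2 := fun j q k => (R0 j).trans_le (dom j q k).1
  refine ⟨⟨fun j => (sm_up _ _ _ _ _).pow 2, fun j => (sm_up _ _ _ _ _).mul
    (contDiffOn_const.sub (sm_up _ _ _ _ _)),
    fun j => (b j).sm.comp contDiffOn_snd fun _ k => k⟩, e, fun j _ => (b j).pos,
    fun j q _ => ⟨chi_mem .., lay_mem ..⟩, ⟨4, fun j q k l => ?_⟩, ?_, fun _ _ _ _ => rfl,
    fun j q k => ?_, fun j q k => ?_⟩
  · have g := ut_ge C j q.1
    rcases (lay_ne hθ (R0 j) (r0 j q k) l).2.2 with a | a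
    · linarith [g.2, (one j).2]
    · linarith [neg_le_abs q.1, g.1, mul_le_of_le_one_left (r0 j q k).le h1, abs_nonneg q.1]
  · obtain ⟨L, k⟩ := dchi hθ
    exact ⟨L, fun j q m => k _ _ _ (R0 j) (r0 j q m)⟩
  · obtain ⟨a1, a2, a3, a4⟩ := (b j).le q.2 (dom j q k).1
    refine ⟨a1, a2, a3.trans_eq (by simp [Ch.mon]), a4.trans ?_⟩
    simpa [Ch.mon] using pow_le_pow_left₀ ((R0 j).le.trans (one j).2) (ut_ge C j q.1).2 2
  · obtain ⟨a1, a2, a3⟩ := (b j).dp q.2 (dom j q k).1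
    have g := ut_ge C j q.1
    have r := r0 j q k
    have p0 := ((b j).pos q.2 r).le
    have v : 2 * q.2 ≤ C.vv j q.1 q.2 := by rw [Ch.vv]; linarith [neg_le_abs q.1, g.1]
    refine ⟨a1, ?_⟩
    rcases le_total (C.U0 j) (4 * q.2) with c | c
    · refine (a3 c).trans (le_mul_of_one_le_left p0 ?_)
      have : 28 / 5 * q.2 / C.vv j q.1 q.2 ≤ 14 / 5 := by
        rw [div_le_iff₀ (by linarith)]; linarith
      linarith
    · refine a2.trans (mul_le_mul_of_nonneg_right ?_ p0)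
      have : 28 / 5 * q.2 / C.vv j q.1 q.2 ≤ 8 / 5 := by
        rw [div_le_iff₀ (by linarith), Ch.vv]; linarith [g.2, (dom j q k).2]
      linarith

end Vale.Agent.P354YK
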