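import Vale.Agent.P354YK.Ins
import Vale.Agent.P354YK.Cut
import Vale.Agent.P354YL.Defs

/-!
The cut-offs and the time function of the far chart.
-/

open scoped ContDiff
open Set Filter Topology

noncomputable section

namespace Vale.Agent.P354YK

open Vale.Agent.P354XG Vale.Agent.P354XI Vale.Agent.P354XD Vale.Agent.P354XR Vale.Agent.P354Z
open Vale.Agent.P354XZ (Ch NF Fam Cut)

namespace Fm
variable {Φ : Fm}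

/-- The assumptions on the family. -/
structure Gd (Φ : Fm) (θ : ℝ) (pm : Φ.J → ℝ) : Prop where
  ok : ∀ j, (Φ.c j).Ok
  sh : ∀ j, (Φ.E j).Shape (Φ.c j)
  R1 : ∀ j, (Φ.c j).R1 + 3 ≤ Φ.R0 j
  M : ∀ j, 24 * Φ.M0 ^ 2 ≤ Φ.R0 j
  th : 0 < θ ∧ θ ≤ 1
  thR : ∀ j, 1 ≤ θ * Φ.R0 j
  pm : ∀ j, 4 ≤ pm j * (Φ.c j).cw

namespace Ok
variable (h : Φ.Ok)

/-- The cut-offs. -/
def cut (θ : ℝ) (p : Φ.J → ℝ → ℝ) (pm ep : Φ.J → ℝ) : Cut h.ch := cutC h.ch θ p pm ep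

/-- The time function. -/
def tm (θ : ℝ) (Bx : h.ch.Pt → Set h.ch.Pt) : P354YL.Tm h.ch where
  ta j := (Φ.E j).tau
  fc φ j := P354YL.cmp φ (Φ.E j).tau
  Lv j := (Φ.E j).Lv
  Z := {x | h.ch.rr x ≤ 8 * Φ.R0 x.1 ∨ h.ch.uu x + h.ch.rr x ≤ θ * h.ch.rr x}
  Bx := Bx
  top j := TopologicalSpace.induced (fun y => h.pt ⟨j, y⟩) inferInstance

variable {θ : ℝ} {p : Φ.J → ℝ → ℝ} {pm ep : Φ.J → ℝ} {Bx : h.ch.Pt → Set h.ch.Pt}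

theorem cut_is (hθ : 0 < θ) (h1 : θ ≤ 1) (e : ∀ j, 0 ≤ ep j)
    (b : ∀ j, Bend (Φ.R0 j) (Φ.U0 j) (pm j) (p j)) : (h.cut θ p pm ep).Is :=
  cutC_is hθ h1 h.one (fun _ _ k => k) e b

theorem tv_eq (x : h.ch.Pt) : (h.tm θ Bx).tv x = rv (Φ.E x.1).tau (h.pt x) := rfl
theorem at_chi (x : h.ch.Pt) : h.ch.at' (h.cut θ p pm ep).chi x =
    chi θ (Φ.R0 x.1) (h.ch.uu x) (h.ch.rr x) := rfl
theorem at_lay (x : h.ch.Pt) : h.ch.at' (h.cut θ p pm ep).lay x =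
    lay θ (Φ.R0 x.1) (h.ch.uu x) (h.ch.rr x) := rfl
theorem at_p (x : h.ch.Pt) : h.ch.at' (h.cut θ p pm ep).p x = p x.1 (h.ch.rr x) := rfl

theorem rr_pos (x : h.ch.Pt) : 0 < h.ch.rr x :=
  one_pos.trans_le ((h.one x.1).1.trans (h.is.dom x).1)

/-- The points of the chart lie in the far part. -/
theorem fa (x : h.ch.Pt) (e : (Φ.c x.1).R1 + 3 ≤ Φ.R0 x.1) : Est.Fa (Φ.c x.1) (h.pt x) :=
  ⟨e.trans (h.pt_mem x).2.2.1, (h.M x.1).symm ▸ (h.pt_mem x).2.2.2⟩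

end Ok

end Fm

end Vale.Agent.P354YK
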