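import Vale.Agent.P354CO.Defs
import Vale.Agent.P354YL.Ft

/-!
The far tables are monotone in the size.
-/

namespace Vale.Agent.P354YK

open Vale.Agent.P354CO

theorem tb_nn {A : Type} [CommRing A] [Algebra ℂ A] {C : P354XZ.Ch A} (h : C.Is)
    {F F0 : P354XZ.NF A} {Vw o e} {x : C.Pt} (a : P354YL.Tb C F F0 Vw o e x) : 0 ≤ e :=
  nonneg_of_mul_nonneg_left ((P354YF.jet0 ..).trans a.a) (P354YF.at_pos h ..)

theorem tmon : TMON TabE := fun _ _ _ _ _ _ _ k t Φ h x a b c d =>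
  (t Φ h x a b c d).mono h.is (tb_nn h.is (t Φ h x a b c d)) (mul_le_mul_of_nonneg_right k
    (pow_nonneg (zero_le_one.trans ((h.one _).1.trans (h.one _).2)) 3))

end Vale.Agent.P354YK
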