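import Vale.Agent.P354YK.Tof1
import Vale.Agent.P354YK.Ray
import Vale.Agent.P354YK.Tm
import Vale.Agent.P354YK.Ft
import Vale.Agent.P354YF.Fte4
import Vale.Agent.P354CO.Defs

/-!
The far table of the skeleton from the tables in the far chart.
-/

open Set Filter Topology

noncomputable section

namespace Vale.Agent.P354YK

open Vale.Agent.P354XG Vale.Agent.P354XG.Geo Vale.Agent.P354XD Vale.Agent.P354XI Vale.Agent.P354XR
open Vale.Agent.P354Z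
open Vale.Agent.P354YF hiding hf two_hf
open Vale.Agent.P354YS (Cj cj_sy)
open Vale.Agent.P354FA (Vw)
open Vale.Agent.P354YL (Tb Od)
open Vale.Agent.P354CO (TabE FTof)

theorem Og.laD {A : Type} [CommRing A] [Algebra ℂ A] {K : Hp A} {p : Pm A} {S : Geo A} {F : Fr A}
    (o : Og K p S F) (Γ) (i : Fin 3) : 2 * S.dot (K.prj (kk K p).R) (K.prj (Om K i)) -
      2 * (K.geo (gO K p) Γ).dot (K.prj (kk K p).R) (K.prj (Om K i)) =
    hf A * -(ii A * wm K i) * K.c (K.z 1 * alp K p S F.l) +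
      hf A * (ii A * wb K i) * (K.z 1 * alp K p S F.l) := by
  have k := kk_is o.is o.pis
  have e1 : Om K i = (kk K p).V 0 0 (-(hf A * ii A * wm K i)) (hf A * ii A * wb K i)
      (-(hf A * ii A * ww K i)) (hf A * ii A * ww K i) := by rw [kk_V, Om_V o.is]; simp
  have e2 : (kk K p).R = (kk K p).V 0 1 0 0 0 0 := Derivation.ext fun f => by simp [KC.V_ap]
  have e3 : F.l = K.N • K.prj (kk K p).R := by
    rw [← o.prj4.1, o.th]; exact funext fun a => oth_ap _ _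
  have e4 : K.z 1 * alp K p S F.l = -(la K S F.l 1 + ii A * (kk K p).a * (kk K p).s) := by
    show K.z 1 * -((la K S F.l 1 + ii A * p.a * K.kc.s) * K.ri) =
      -(la K S F.l 1 + ii A * p.a * K.kc.s)
    linear_combination -(la K S F.l 1 + ii A * p.a * K.kc.s) * o.is.hr
  have e5 : K.c (la K S F.l 1) = la K S F.l 0 := by rw [← o.c_la, o.is.cc]
  have e6 : K.c (ii A * (kk K p).a * (kk K p).s) = -ii A * (kk K p).a * (kk K p).sb := by
    rw [map_mul, map_mul, ← k.c_ii, ← k.c_s]; exact congrArg (_ * · * _) k.c_a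
  have a := o.l_V 0 0 (-(hf A * ii A * wm K i)) (hf A * ii A * wb K i)
      (-(hf A * ii A * ww K i)) (hf A * ii A * ww K i)
  have b := dot_O (p := p) o.is Γ 0 1 0 0 0 0 0 0 (-(hf A * ii A * wm K i)) (hf A * ii A * wb K i)
      (-(hf A * ii A * ww K i)) (hf A * ii A * ww K i)
  rw [← e1] at a b
  rw [← e2] at b
  nth_rw 1 [e3] at a
  rw [dot_smul_left] at a
  rw [b, e4, map_neg, map_add, e5, e6]
  simp only [gBo, KC.qf]
  linear_combination -a - 2 * S.dot (K.prj (kk K p).R) (K.prj (Om K i)) * o.is.hN -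
    (kk K p).a * ii A * ((kk K p).s * (hf A * ii A * wb K i) + (kk K p).sb *
      (hf A * ii A * wm K i)) * two_hf (A := A)

theorem ut_wu (M : ℝ) (y : E6) {U s : ℝ} (hU : 1 ≤ U) (s0 : 0 ≤ s) (s2 : s ≤ 2) :
    √(uu M y ^ 2 + U ^ 2) ^ (-s) ≤ 4 * wu M s y := by
  have a := abs_nonneg (uu M y)
  have b : (1 + |uu M y|) / 2 ≤ √(uu M y ^ 2 + U ^ 2) := by
    linarith [Real.abs_le_sqrt (le_add_of_nonneg_right (sq_nonneg U) : uu M y ^ 2 ≤ _),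
      Real.le_sqrt_of_sq_le (le_add_of_nonneg_left (sq_nonneg (uu M y)) : U ^ 2 ≤ _)]
  refine (Real.rpow_le_rpow_of_nonpos (by linarith) b (by linarith)).trans ?_
  rw [Real.div_rpow (by linarith) zero_le_two, Real.rpow_neg zero_le_two, div_inv_eq_mul, mul_comm]
  exact mul_le_mul_of_nonneg_right ((Real.rpow_le_rpow_of_exponent_le one_le_two s2).trans_eq
    (by norm_num)) (wu_pos M s y).le

namespace Fm.Ok
variable {Φ : Fm} (h : Φ.Ok)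

theorem q2_jet (n : ℕ) (f : Φ.A) (x : h.ch.Pt) :
    q2 (lx (Φ.c x.1) (Φ.E x.1)) (h.pt x) n (f x.1) ≤ 2 ^ n * h.ch.jet n f x ^ 2 := by
  induction n generalizing f with
  | zero => rw [jet_zero, pow_zero, one_mul]; exact le_rfl
  | succ n ih =>
    have a := pow_le_pow_left₀ (jet0 ..) (jet_mono (x := x) n.le_succ f) 2
    have b := (Finset.sum_sq_le_sq_sum_of_nonneg fun a _ => jet0 ..).trans (pow_le_pow_left₀
      (Finset.sum_nonneg fun a _ => jet0 ..) (sum_jet_le (x := x) n f) 2)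
    have c := Finset.sum_le_sum fun a (_ : a ∈ Finset.univ) =>
      (congrArg (q2 _ (h.pt x) n) (h.X_ap a f x.1)).ge.trans (ih (h.ch.X a f))
    rw [← Finset.mul_sum] at c
    refine (add_le_add (ih f) c).trans ?_
    rw [← mul_add, pow_succ 2, mul_assoc]
    exact mul_le_mul_of_nonneg_left (by linarith) (by positivity)

theorem ev_q2 {S : Type} {p : S → h.ch.Pt} {e : S → ℝ} {n : ℕ} {f : Φ.A} {c : ℝ} (s : ℝ)
    (e0 : ∀ σ, 0 ≤ e σ) (t : Mw p e 0 0 c n f) (k : c = -s ∧ 0 ≤ s ∧ s ≤ 2) :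
    ∀ᶠ B in atTop, ∀ σ, q2 (lx (Φ.c (p σ).1) (Φ.E (p σ).1)) (h.pt (p σ)) n (f (p σ).1) ≤
      (B * e σ * wu Φ.M0 s (h.pt (p σ))) ^ 2 := by
  obtain ⟨B, B0, t⟩ := t
  filter_upwards [eventually_ge_atTop (2 ^ n * (4 * B))] with D hD σ
  have w := mul_nonneg (e0 σ) (wu_pos Φ.M0 s (h.pt (p σ))).le
  have a : h.ch.at' (h.ch.mon 0 0 c) (p σ) ≤ 4 * wu Φ.M0 s (h.pt (p σ)) := by
    simp only [P354XZ.Ch.at', P354XZ.Ch.mon, Real.rpow_zero, one_mul, h.uu_eq, k.1]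
    exact ut_wu _ _ ((h.one _).1.trans (h.one _).2) k.2.1 k.2.2
  have b := (t σ).trans (mul_le_mul_of_nonneg_left (mul_le_mul_of_nonneg_left a (e0 σ)) B0)
  have p1 : (1 : ℝ) ≤ 2 ^ n := one_le_pow₀ one_le_two
  refine (h.q2_jet n f _).trans (le_trans ?_ (pow_le_pow_left₀ (mul_nonneg (zero_le_one.trans p1)
    (jet0 n f)) (show 2 ^ n * h.ch.jet n f (p σ) ≤ _ from ?_) 2))
  · rw [mul_pow]
    exact mul_le_mul_of_nonneg_right (le_self_pow₀ p1 two_ne_zero) (sq_nonneg _)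
  · have := mul_le_mul_of_nonneg_left b (zero_le_one.trans p1)
    have := mul_le_mul_of_nonneg_right hD w
    linarith

/-- The jets of a function which is constant along the lines of R. -/
theorem jet_ray (x : h.ch.Pt) {ρ0 : ℝ} (k : ρ0 ≤ (h.pt x).2.1)
    (i : ∀ ρ ∈ Icc ρ0 (h.pt x).2.1, ray Φ.M0 (h.pt x) ρ ∈ (Φ.E x.1).O2) (m) (n : ℕ) (f : Φ.A)
    (z : h.ch.R f = 0) : h.ch.jet n f x ≤ h.ch.jet n f (h.pk x.1 (ray Φ.M0 (h.pt x) ρ0) m) := by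
  have a : ∀ f : Φ.A, h.ch.R f = 0 →
      h.ch.md x f ≤ h.ch.md (h.pk x.1 (ray Φ.M0 (h.pt x) ρ0) m) f := fun f z =>
    ray_le (h.co x.1) (Φ.E x.1).M (Φ.E x.1).a (f x.1) (φ := fun _ _ => _) contDiffOn_const k i
      le_rfl fun ρ _ => by
        have := (R_ap f x.1).symm.trans (congrFun z x.1)
        rw [Est.K2, h.M x.1] at this
        rw [this]
        exact (congrArg norm (fv_zero _)).trans_le (by simp)
  induction n generalizing f with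
  | zero => rw [jet_zero, jet_zero]; exact a f z
  | succ n ih =>
    rw [jet_succ, jet_succ]
    exact add_le_add (a f z) (Finset.sum_le_sum fun b _ => ih _ (by rw [R_X h.is, z]; simp))

/-- The differences of the components of the covector of R. -/
theorem la_eq (i : Fin 3) (j : Φ.J) : laD (fz (Φ.E j)) (Φ.c j).M i =
    (hf _ * h.ch.mu 1 i * h.ch.c (h.ch.r * Φ.al) + hf _ * h.ch.mu 0 i * (h.ch.r * Φ.al)) j :=
  ((h.og j).laD (fun _ _ _ => 0) i).trans (by fin_cases i <;> rfl)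

/-- The table for a family. -/
theorem tf (sh : ∀ j, (Φ.E j).Shape (Φ.c j)) (r1 : ∀ j, (Φ.c j).R1 + 3 ≤ Φ.R0 j) {ρ : ℝ}
    (r2 : ∀ j, Φ.R0 j ≤ ρ) (n : ℕ) : ∀ᶠ B in atTop, ∀ (x : h.ch.Pt) (e : ℝ), 0 ≤ e →
      (∀ y : h.ch.Pt, y.1 = x.1 → ∃ o : Od, (n + 1 ≤ o.m ∧ n + 1 ≤ o.m' ∧ n + 1 ≤ o.ia ∧
        n + 1 ≤ o.N) ∧ Tb h.ch Φ.nf Φ.nf0 (Vw Φ.nf Φ.nf0 h.ch) o e y) →
      Tf (fz (Φ.E x.1)) (Φ.c x.1).M n (h.pt x) (B * e) (wu Φ.M0 (6 / 5) (h.pt x))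
        (wu Φ.M0 (1 / 4) (h.pt x)) ∧ (-ρ ≤ uu Φ.M0 (h.pt x) → ∀ i,
        q2 ((fz (Φ.E x.1)).lr (Φ.c x.1).M) (h.pt x) n ((fz (Φ.E x.1)).T
          (laD (fz (Φ.E x.1)) (Φ.c x.1).M i)) ≤ (B * e * wu Φ.M0 (6 / 5) (h.pt x)) ^ 2) := by
  have c := h.is
  let S := {σ : h.ch.Pt × ℝ // 0 ≤ σ.2 ∧ ∀ y : h.ch.Pt, y.1 = σ.1.1 → ∃ o : Od, (n + 1 ≤ o.m ∧
    n + 1 ≤ o.m' ∧ n + 1 ≤ o.ia ∧ n + 1 ≤ o.N) ∧ Tb h.ch Φ.nf Φ.nf0 (Vw Φ.nf Φ.nf0 h.ch) o σ.2 y}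
  let p : S → h.ch.Pt := fun σ => σ.1.1
  let e : S → ℝ := fun σ => σ.1.2
  have e0 : ∀ σ, 0 ≤ e σ := fun σ => σ.2.1
  have t : Ta p e (n + 1) (dd Φ) Φ.al :=
    ta_of h.cmp (dd_n h) (dd_m h) dd_s e0 fun σ => σ.2.2 _ rfl
  have qa := fun {f} (t : Mw p e 0 0 (-6 / 5) (n + 1) f) =>
    h.ev_q2 (6 / 5) e0 (t.low n.le_succ) (by norm_num)
  have qg := fun {f} (t : Mg p e (n + 1) f) => (qa t.1).and
    (h.ev_q2 (1 / 4) e0 (t.2.low n.le_succ) (by norm_num))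
  have q0 := fun {f} (t : Mw p e 0 0 0 (n + 1) f) =>
    h.ev_q2 0 e0 (t.low n.le_succ) (by norm_num)
  simp only [wu, neg_zero, Real.rpow_zero, mul_one] at q0
  have sm := fun a i => sy_mul' c h.cmp.z_hf.sy (sy_mu c a i) (zero_add 0).ge
  let S' := {σ : S // -ρ ≤ uu Φ.M0 (h.pt (p σ))}
  have tl : Mw (fun σ : S' => p σ.1) (fun σ => e σ.1) 0 0 (-6 / 5) n (h.ch.T (h.ch.r * Φ.al)) := by
    obtain ⟨B, B0, k⟩ := t.al.2
    refine ⟨B * ρ ^ 2, by positivity, fun ⟨σ, u⟩ => ?_⟩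
    have m := h.pt_mem (p σ)
    have R := (h.one (p σ).1).1
    have l : max (Φ.R0 (p σ).1) (-uu Φ.M0 (h.pt (p σ))) ≤ (h.pt (p σ)).2.1 :=
      max_le m.2.2.1 (neg_le_iff_add_nonneg'.2 m.2.2.2)
    have i := ray_in (sh _) m.1 m.2.1 (le_max_of_le_left (r1 _)) (lt_max_of_lt_left (by linarith))
      ((h.M (p σ).1).symm ▸ neg_le_iff_add_nonneg'.1 (le_max_right _ _)) l
    rw [h.M (p σ).1] at i
    let y := h.pk (p σ).1 _ ⟨(i _ (left_mem_Icc.2 l)).1, m.2.1, le_max_left _ _, by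
      rw [uu_ray]; exact neg_le_iff_add_nonneg'.1 (le_max_right _ _)⟩
    have a := ((h.jet_ray (p σ) l (fun ρ k => (i ρ k).1) _ n _ (by
      rw [R_X c, show h.ch.R (h.ch.r * Φ.al) = 0 from h.nf_is.al.1]; simp)).trans
      (jet_der n 0 _)).trans (k ⟨(y, e σ), σ.2.1, σ.2.2⟩)
    have uy : h.ch.uu y = h.ch.uu (p σ) := ((h.uu_eq y).trans (uu_ray ..)).trans (h.uu_eq _).symm
    have ry : h.ch.rr y ≤ ρ := (h.rr_eq y).trans_le (max_le (r2 _) (neg_le.1 u))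
    have w : h.ch.at' (h.ch.mon 2 0 (-6 / 5)) y ≤ ρ ^ 2 * h.ch.at' (h.ch.mon 0 0 (-6 / 5)) (p σ) := by
      simp only [P354XZ.Ch.at', P354XZ.Ch.mon, Real.rpow_zero, one_mul, mul_one, uy, Real.rpow_two]
      exact mul_le_mul_of_nonneg_right (pow_le_pow_left₀ (h.rr_pos y).le ry 2)
        (Real.rpow_nonneg (Real.sqrt_nonneg _) _)
    exact a.trans ((mul_le_mul_of_nonneg_left (mul_le_mul_of_nonneg_left w (e0 σ)) B0).trans_eq
      (by ring))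
  have qt := fun i => h.ev_q2 (6 / 5) (fun σ : S' => e0 σ.1) (((cj_sy c (sm 1 i) le_rfl).mul
    (tl.c c)).add ((cj_sy c (sm 0 i) le_rfl).mul tl)) (by norm_num)
  filter_upwards [eventually_all.2 fun k => eventually_all.2 fun a => qa (t.b k a), qa t.b1, qa t.kb,
    eventually_all.2 fun k => eventually_all.2 fun a => qg (t.g k a), qg t.g1,
    eventually_all.2 fun k => eventually_all.2 fun a => qg (t.gs k a), q0 t.m0,
    eventually_all.2 fun i => q0 (((cj_sy c (sm 1 i) le_rfl).mul (t.al.1.c c)).add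
      ((cj_sy c (sm 0 i) le_rfl).mul t.al.1)),
    eventually_all.2 fun k => eventually_all.2 fun a => qa (t.W k a), eventually_all.2 qt]
    with B b1 b2 b3 b4 b5 b6 b7 b8 b9 b10 x ε u v
  let σ : S := ⟨(x, ε), u, v⟩
  refine ⟨⟨fun k a => b1 k a σ, b2 σ, b3 σ, fun k a => ⟨(b4 k a).1 σ, (b4 k a).2 σ⟩,
    ⟨b5.1 σ, b5.2 σ⟩, fun k a => ⟨(b6 k a).1 σ, (b6 k a).2 σ⟩, b7 σ,
    fun i => (congrArg (q2 _ _ n) (h.la_eq i x.1)).trans_le (b8 i σ), fun k a => b9 k a σ⟩,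
    fun w i => le_of_eq_of_le (congrArg (q2 _ _ n) ?_) (b10 i ⟨σ, w⟩)⟩
  refine (congrArg ((hp _).d 0) (h.la_eq i x.1)).trans (congrFun (show h.ch.T _ = _ from ?_) x.1)
  rw [D_add, D_mul, D_mul _ (hf _ * _), (sm 1 i).1, (sm 0 i).1, T_c c x.1, mul_zero, mul_zero,
    add_zero, add_zero]

end Fm.Ok

/-- All states over c. -/
def famc (c : Cs) : Fm := ⟨{E : Est // E.Shape c ∧ E.Eqs c}, c.M, fun _ => c, fun j => j.1,
  fun _ => c.R1 + 3, fun _ => c.R1 + 3⟩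

theorem ft_of {c : Cs} (o : c.Ok) (n : ℕ) : ∃ B ≥ 1, ∀ E η, E.Shape c → E.Eqs c → 0 ≤ η →
    FTof TabE c E (n + 1) η → FT c E n (B * η) := by
  have M := (abs_nonneg _).trans_lt o.aM
  have R : 1 ≤ c.R1 + 3 := by linarith [o.R1]
  have h : (famc c).Ok := ⟨fun _ => rfl, fun j => j.2.1.co2, fun j => j.2.2, fun _ => ⟨R, le_rfl⟩⟩
  obtain ⟨B, b1, b⟩ := ((eventually_ge_atTop 1).and (h.tf (fun j => j.2.1) (fun _ => le_rfl)
    (ρ := c.R2) (fun _ => show c.R1 + 3 ≤ c.R2 by linarith [o.R1, o.R2]) n)).exists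
  have p : 1 ≤ (c.R1 + 3) ^ 3 := one_le_pow₀ R
  refine ⟨B * (c.R1 + 3) ^ 3, one_le_mul_of_one_le_of_one_le b1 p,
    fun E η s q e0 ⟨m, L, k1, _, k2, _, k3, t⟩ => ⟨by omega, by positivity, fun x hx a f => ?_⟩⟩
  rw [mul_assoc, mul_comm _ η]
  refine b (h.pk ⟨E, s, q⟩ x ⟨hx, a, f⟩) _ (by positivity) fun y hy => ⟨P354CO.od m L,
    ⟨k1.trans (Nat.le_add_right ..), k1, k1.trans (Nat.le_add_right ..),
      show n + 1 ≤ L by omega⟩, ?_⟩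
  obtain ⟨j, y⟩ := y
  obtain rfl : j = ⟨E, s, q⟩ := hy
  obtain ⟨z, z1, z2⟩ := (s.lvO.eventually_mem (s.lv2 _ (h.pt_mem ⟨_, y⟩).1)).exists_gt
  exact t z z2 _ h ⟨_, y⟩ rfl rfl le_rfl z1

/-- TOF. -/
theorem tof (H : CORE (FTof TabE)) : CORE FT := by
  intro z a n
  obtain ⟨N1, H⟩ := H z a (n + 1)
  refine ⟨N1, fun b hb => ?_⟩
  obtain ⟨Lm, H⟩ := H b hb
  refine ⟨Lm, fun L hL => ?_⟩
  obtain ⟨K, Rm, H⟩ := H L hL
  refine ⟨K, Rm, fun R2 h2 Rs d o => ?_⟩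
  obtain ⟨ε0, p, Cc, c0, H⟩ := H R2 h2 Rs d o
  obtain ⟨B, b1, k⟩ := ft_of o n
  refine ⟨ε0, p, B * Cc, by positivity, fun E ε i e e0 D => ?_⟩
  obtain ⟨d1, t⟩ := H E ε i e e0 D
  have η : 0 ≤ Cc * (E.e0 + ε ^ 2) := mul_nonneg c0 (add_nonneg i.near.e0 (sq_nonneg _))
  rw [mul_assoc]
  refine ⟨fun x hx n1 => (d1 x hx n1).trans (pow_le_pow_left₀ (by positivity)
    (mul_le_mul_of_nonneg_right (le_mul_of_one_le_left η b1) (by positivity)) 2),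
    k E _ i.shape i.eqs η t⟩

end Vale.Agent.P354YK
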