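import Vale.Agent.P354MG.Asm
import Vale.Agent.P354YR.Nfo
import Vale.Agent.P354YT.Main

/-!
HYB: the near chart of the state.
-/

open scoped ContDiff
open Set Filter Topology

noncomputable section

namespace Vale.Agent.P354YK

open Vale.Agent.P354n (R4)
open Vale.Agent.P354XG (E6)
open Vale.Agent.P354XD (pj nq nq_pos)
open Vale.Agent.P354XE (Tw gin rd eT Bd pb)
open Vale.Agent.P354XV (Fst Flt Sw Yx)
open Vale.Agent.P354XO (Om rr sN sS sc pj_sN pj_sS pj_sc nq_sc)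
open Vale.Agent.P354XR (rd_pj)
open Vale.Agent.P354YA (eta eta_mono ne_of_nq)
open Vale.Agent.P354YN (Ad zN)
open Vale.Agent.P354RN (shr)
open Vale.Agent.P354PA (Pa Ta)
open Vale.Agent.P354NU Vale.Agent.P354MG Vale.Agent.P354Z

namespace Hb

theorem bd_le {m m' : ℕ} {h : Tw} {x : R4} {c c' : ℝ} (a : Bd m h x c) (hm : m' ≤ m)
    (hc : c ≤ c') : Bd m' h x c' :=
  fun k hk v w => (a k (hk.trans hm) v w).trans (mul_le_mul_of_nonneg_right hc (by positivity))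

/-- Unit spinors over a point. -/
theorem ex_up {q : R4} (h : 0 < rd q) : ∃ y : E6, nq y = 1 ∧ pj y = q ∧ y.2.1 = rd q := by
  have e : rr q = rd q := by
    rw [P354XA.rd_eq, rr]
    exact congrArg _ (by simp only [P354XA.ip]; ring)
  obtain ⟨x, n, a, b⟩ : ∃ x : E6, x.2.2 ≠ 0 ∧ pj x = q ∧ x.2.1 = rr q := by
    rcases le_total 0 q.2.2.2 with k | k
    · have z : rr q + q.2.2.2 ≠ 0 := by rw [e]; positivity
      exact ⟨sN q, fun w => z (Complex.ofReal_eq_zero.1 (congrArg Prod.fst w)), pj_sN z, rfl⟩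
    · have z : rr q - q.2.2.2 ≠ 0 := by rw [e]; linarith
      exact ⟨sS q, fun w => z (Complex.ofReal_eq_zero.1 (congrArg Prod.snd w)), pj_sS z, rfl⟩
  have p := nq_pos n
  have z : (((√(nq x))⁻¹ : ℝ) : ℂ) ≠ 0 := Complex.ofReal_ne_zero.2 (by positivity)
  refine ⟨sc _ x, ?_, (pj_sc z x).trans a, b.trans e⟩
  rw [nq_sc, Complex.normSq_ofReal, ← mul_inv, Real.mul_self_sqrt p.le, inv_mul_cancel₀ p.ne']

section mono
variable {M a R1 ti c0 ρ μ ν μ' ν' : ℝ} {H C : ℝ → ℝ} {k k' n : ℕ} {D : Set (ℝ × ℝ)} {g : Tw}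
  {I : Set ℝ} {y : R4 → R4} {pq : ℝ → ℝ × ℝ} {p : ℝ × ℝ}

theorem sz_le (h : Sz M a H k' D g ρ I μ ν) (l : k ≤ k') : Sz M a H k D g ρ I μ ν :=
  ⟨h.1, h.2.1, fun x hx i => ⟨(eta_mono l g _).trans (h.2.2 x hx i).1,
    bd_le (h.2.2 x hx i).2 l le_rfl⟩⟩

theorem ny_le (h : Ny M a H k D g R1 ti n C y pq) (l : k ≤ k') (b : ∀ p ∈ D, ti < p.1) :
    Ny M a H k' D g R1 ti n (fun ρ => max (C ρ) 0) y pq := by
  refine ⟨fun ρ r x hx hr μ ν s => ?_, fun ρ r x hx hr ν s => ?_⟩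
  · obtain ⟨h1, h2, h3⟩ := h.pt ρ r x hx hr μ ν (sz_le s l)
    have e := mul_le_mul_of_nonneg_right (le_max_left (C ρ) 0) (s.1.trans s.2.1)
    exact ⟨h1.mono le_rfl e, h2.trans e,
      bd_le h3 le_rfl (mul_le_mul_of_nonneg_right (le_max_left _ _) s.1)⟩
  · have t : ti < x.1 := b _ hx.1
    exact (h.tm ρ r x hx hr ν (sz_le s l)).trans (mul_le_mul_of_nonneg_right
      (mul_le_mul_of_nonneg_right (le_max_left _ _) s.1) (by linarith))

theorem np_le {C e0 E e0' E' : ℝ} (h : Np M a H k D g R1 ti c0 C e0 E y pq p) (l : k ≤ k')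
    (h0 : 0 ≤ e0) (h1 : e0 ≤ e0') (h2 : 0 ≤ E) (h3 : E ≤ E') :
    Np M a H k' D g R1 ti c0 (max C 0) e0' E' y pq p := by
  have ta : ∀ {S : Set E6} {tm : E6 → ℝ} {t Q : ℝ},
      Ta S tm (fun x => eta M a k' g (shr H x)) c0 t Q →
        Ta S tm (fun x => eta M a k g (shr H x)) c0 t Q := fun ⟨s, a1, a2, a3⟩ =>
    ⟨s, a1, a2, fun x hx j b1 b2 => (eta_mono l g _).trans (a3 x hx j b1 b2)⟩
  refine ⟨h.crude.trans (mul_le_mul (le_max_left _ _) h3 h2 (le_max_right _ _)),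
    fun Q q => (h.ini Q (ta q)).trans (mul_le_mul (le_max_left _ _) (by linarith)
      (add_nonneg h0 q.nn) (le_max_right _ _)), fun x hx r A Q u q => ?_⟩
  have A0 : 0 ≤ A := nonneg_of_mul_nonneg_left (h0.trans (h1.trans u.1)) (by positivity)
  exact (h.fin x hx r A Q ⟨h1.trans u.1, fun z hz t => (eta_mono l g _).trans (u.2 z hz t)⟩
    (ta q)).trans (mul_le_mul_of_nonneg_right (le_max_left _ _) (add_nonneg A0 q.nn))

end mono

variable {f : Fx} {Rs Rb : ℝ} {Lv : Set ℝ} {x : E6}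

theorem dh_rd (o : f.Ok) (hx : x ∈ Om (f.Dh Rs Lv)) :
    0 < x.2.1 ∧ rd (pj (shr f.H x)) = x.2.1 := by
  have r : f.z.r1 < x.2.1 := hx.1.2.1
  have r0 : 0 < x.2.1 :=
    ((o.ok.ok _ le_rfl _ le_rfl).1.1.r10 : 0 < f.z.r1).trans r
  exact ⟨r0, rd_pj (x := shr f.H x) r0 hx.2⟩

/-- The points of the slices are in the end below the lid. -/
theorem dh_pt (o : f.Ok) (hs : f.z.R1 + 1 ≤ Rs) (hb : f.z.R1 + 2 ≤ Rb)
    (hx : x ∈ Om (f.Dh Rs Lv)) : f.z.Pt Rs Rb Lv (pj (shr f.H x)) := by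
  obtain ⟨r0, r⟩ := dh_rd o hx
  obtain ⟨⟨h1, h2, h3, h4⟩, h5⟩ := hx
  have u := o.nu
  have r1 : f.a.r1 ≤ x.2.1 := (u.r1.2.1.trans h2).le
  have e := u.en (x.1 + f.H x.2.1) x.2.1 (by
    have : f.t0 < x.1 := h1
    linarith [u.hti', u.bb _ r1, (abs_le.1 (u.hcH _ r1)).1])
  refine ⟨((o.ok.ok Rs hs Rb hb).1.1.En_iff f.z.θ _).2 ⟨?_, ?_, fun k => ?_⟩, ?_⟩
  · show f.z.r1 < _
    rwa [r]
  · exact le_trans (by linarith [o.ok.θ.1, o.ok.θ.2]) e.1.le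
  · rw [r] at k ⊢
    exact (le_add_of_nonneg_right (by norm_num)).trans (e.2 k)
  · rwa [tau_shr f.z f.H Rb r0 h5 h3.le]

theorem tube {c : P354YT.Pm} {κ : ℝ} {g : Tw} {p : R4} (h : Fst c κ g p) (r : rd p = c.R1) :
    Ad c.M g eT p ∧ zN c.M g eT p = eT := by
  have d : |P354YA.dd c p| = 0 := by rw [P354YA.dd, r, sub_self, abs_zero]
  have z : c.xi (rd p) = 0 := by rw [P354YT.Pm.xi, r, sub_self, mul_zero]
  obtain ⟨a1, a2, a3⟩ := P354YT.al_mid (x := c.xi (rd p)) (by rw [z]; norm_num)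
  have b1 : P354YA.ca c p = 1 := a1
  have b2 : P354YA.cl c p = 0 := a2.trans (by rw [z, zero_div])
  have b3 : P354YA.cn c p = 0 := a3.trans (by rw [z, zero_div, neg_zero])
  have e : c.X p = eT := by simp [P354YA.X_eq, b1, b2, b3]
  have s := h.sh (by rw [d]; norm_num)
  refine ⟨e ▸ h.ad (by rw [d]; norm_num), ?_⟩
  simpa [Yx, P354YA.Yv, b1, b2, b3, e, zN] using s.symm

end Hb

open Hb

/-- **HYB.** -/
theorem hyb (hT : THE) (hN : NC) : HYB := by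
  intro f o n
  have u := o.nu
  have q0 := (o.ok.ok _ le_rfl _ le_rfl).1.1
  obtain ⟨k, c0, hc0, C, mC, hN⟩ := hN f.z.M f.z.a f.z.r1 f.z.R1 f.t0 f.H n o.ok.a0 q0.sub
    (u.r1.1.trans u.r1.2.1) u.r1.2.2.2.1 u.r1.2.2.2.2 u.sH u.H0 u.H2
  refine ⟨max k 2, le_max_right _ _, c0, hc0, fun ρ => max (C ρ) 0, mC.max monotone_const,
    fun L hL Rs hs => ?_⟩
  have hs1 : f.z.R1 + 1 ≤ Rs := by linarith
  obtain ⟨E1, hE1, hN⟩ := hN Rs
  obtain ⟨T, T1, T2⟩ : ∃ T, f.ti + f.cH + 4 ≤ T ∧ f.t0 + 2 * c0 ≤ T :=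
    ⟨_, le_max_left _ _, le_max_right _ _⟩
  obtain ⟨E2, hE2, hS⟩ := scf o.ok hs1 L (max k 2) (T + f.H Rs)
  refine ⟨min E1 E2, lt_min hE1 hE2, ?_⟩
  filter_upwards [hS, rb_big o.ok u.sH.continuous hs1 T,
    rb_big o.ok u.sA.continuous hs1 (f.ti + 2)] with Rb ⟨C2, hC2, m2, hS⟩ ⟨hb, _, b1⟩ ⟨_, _, b2⟩
  have q := (o.ok.ok Rs hs1 Rb hb).1
  obtain ⟨eF, eF0, hF⟩ := P354XV.first P354YR.nf_ok P354YT.tau_ok P354YR.nw_ok _ q
  obtain ⟨K, hK⟩ : ∃ K, K = 1 + 2 * max (C f.z.R1) 0 + E1 / eF := ⟨_, rfl⟩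
  have K0 : 0 ≤ max (C f.z.R1) 0 := le_max_right _ _
  have K1 : 0 < E1 / eF := div_pos hE1 eF0
  have K2 : 1 ≤ K := by linarith
  have K3 : C2 ≤ C2 * K := le_mul_of_one_le_right (by linarith) K2
  refine ⟨C2 * K, hC2.trans K3, max (max m2 3) (max (max k 2) n),
    fun m hm e1 e dd gc Lv g a1 a2 a3 lw S => ?_⟩
  simp only [ge_iff_le, max_le_iff, le_min_iff] at hm hL a3
  have d0 := S.nn
  have s0 : 0 ≤ e1 + e := by linarith
  have s1 : e1 + e ≤ C2 * (e1 + e) := le_mul_of_one_le_left s0 hC2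
  have s2 : C2 * (e1 + e) ≤ C2 * K * (e1 + e) := mul_le_mul_of_nonneg_right K3 s0
  have s3 : dd ≤ C2 * dd := le_mul_of_one_le_left d0 hC2
  have s4 : C2 * dd ≤ C2 * K * dd := mul_le_mul_of_nonneg_right K3 d0
  have s5 : C2 * dd ≤ C2 * (e1 + e) := mul_le_mul_of_nonneg_left (by linarith) (by linarith)
  have s6 : dd ≤ eF := by
    have : E1 / eF * dd ≤ E1 := by
      nlinarith [mul_le_mul_of_nonneg_right (show E1 / eF ≤ K by linarith) d0,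
        mul_le_mul_of_nonneg_left s3 (show 0 ≤ K by linarith),
        mul_le_mul_of_nonneg_left s5 (show 0 ≤ K by linarith)]
    rw [div_mul_eq_mul_div, div_le_iff₀ eF0] at this
    exact le_of_mul_le_mul_left this hE1
  have hS := hS (max k 2) (le_max_right _ _) m hm.1.1 e1 (by linarith [a3.2]) e
    (by linarith [a3.2]) dd a2 gc Lv g S
  have fst : ∀ p ∈ Sw (f.z.pm Rs Rb), ∀ V ∈ Lv, (f.z.pm Rs Rb).tau p < V →
      Fst (f.z.pm Rs Rb) f.z.κ g p ∧ Flt (f.z.pm Rs Rb) g p := fun p hp V hV t =>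
    hF f.z.κ _ _ m dd gc V g hm.1.2 s6 (u.θ Rs Rb).1 (u.θ Rs Rb).2 S.cg (S.st V hV).1 p
      ⟨hp, .inl t⟩
  have km : max k 2 ≤ m := max_le hm.2.1.1 hm.2.1.2
  have bd : ∀ x : E6, nq x = 1 → 0 < x.2.1 → x.2.1 ≤ Rs → f.z.Pt Rs Rb Lv (pj x) →
      Bd (max k 2) (g - gin f.z.M f.z.a) (pj x) (e1 + e) := fun x x1 x2 x3 hp =>
    bd_le (S.bd x1 x2 x3 hp km) le_rfl (max_le (by linarith) (by linarith))
  have dec : ∀ x ∈ Un (f.Dh Rs Lv) Rs, eta f.z.M f.z.a (max k 2) g (shr f.H x) ≤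
      (C2 * e * (1 + |(shr f.H x).1|) ^ (-(7 / 5) : ℝ)) ^ 2 := fun x hx =>
    (eta_mono (max_le hL.1 hL.2) g _).trans (hS (shr f.H x) hx.2.1 (dh_rd o hx.1).1 hx.2.2
      (dh_pt o hs1 hb hx.1)).2.1
  have z1 : ∀ E ≥ C2 * (e1 + e),
      Sz f.z.M f.z.a f.H (max k 2) (f.Dh Rs Lv) g Rs univ E E := fun E hE =>
    ⟨by linarith, le_rfl, fun x hx _ => ⟨(dec x hx).trans (by
      have w : (1 + |(shr f.H x).1|) ^ (-(7 / 5) : ℝ) ≤ 1 :=
        Real.rpow_le_one_of_one_le_of_nonpos (by linarith [abs_nonneg (shr f.H x).1]) (by norm_num)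
      have e0 : 0 ≤ C2 * e := mul_nonneg (by linarith) (by linarith)
      refine pow_le_pow_left₀ (by positivity) ((mul_le_of_le_one_right e0 w).trans ?_) 2
      exact (mul_le_mul_of_nonneg_left (by linarith) (by linarith)).trans hE),
      bd_le (bd (shr f.H x) hx.2.1 (dh_rd o hx.1).1 hx.2.2 (dh_pt o hs1 hb hx.1)) le_rfl
        (s1.trans hE)⟩⟩
  have z2 : ∀ ρ ≤ Rs, ∀ t ≤ T, ∀ E ≥ C2 * dd,
      Sz f.z.M f.z.a f.H (max k 2) (f.Dh Rs Lv) g ρ (Iic t) E E := fun ρ hρ t ht E hE =>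
    ⟨by linarith, le_rfl, fun x hx i => by
      have r := dh_rd o hx.1
      have p := dh_pt o hs1 hb hx.1
      have x3 := hx.2.2.trans hρ
      have i' : x.1 ≤ t := i
      refine ⟨((hS (shr f.H x) hx.2.1 r.1 x3 p).2.2 ?_).trans
        (pow_le_pow_left₀ (by linarith) hE 2), bd_le (S.bd0 p (lt_trans (b1 _ p.1.1 ?_ ?_)
          (by norm_num))) km (s3.trans hE)⟩
      · show x.1 + f.H x.2.1 ≤ _
        linarith [u.Hm x3]
      · linarith [r.2]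
      · rw [r.2]
        show x.1 + f.H x.2.1 - _ ≤ _
        linarith⟩
  have rg := u.rg Rs Lv f.t0 hs1 S.op lw
  obtain ⟨y, pq, p, ny, np⟩ := hN (f.Dh Rs Lv) g (C2 * (e1 + e)) ⟨by linarith, by linarith [a3.1]⟩
    (C2 * dd) ⟨by linarith, s5⟩ rg (fun x hx => S.lv (dh_pt o hs1 hb hx)) (fun x hx r => by
      have p := dh_pt o hs1 hb hx
      have r' := (dh_rd o hx).2.trans r
      obtain ⟨V, hV, t⟩ := S.up p
      refine tube (fst _ ⟨p.1.1, fun k => ((q.1.En_iff _ _).1 p.1).2.2 (q.1.rpR.trans_le k),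
        fun k => ?_⟩ V hV t).1 r'
      have : rd (pj (shr f.H x)) ≤ f.z.R1 - 1 / 2 := k
      linarith) (sz_le (z1 _ le_rfl) (le_max_left _ _))
    (sz_le (z2 _ hs1 _ T2 _ le_rfl) (le_max_left _ _))
  obtain ⟨A', B', th⟩ := hT f.z.M f.z.R1 p.1 p.2 f.A f.B q0.M0
  refine ⟨⟨Lv, g, y, pq, p.1, p.2, A', B'⟩, rfl, rfl, ⟨⟨S.op, lw, fun _ => S.lv, fun p hp t => ?_⟩,
    th, ?_, ny_le ny (le_max_left _ _) fun p hp => (rg.box p hp).1, z1 _ s2, z2 _ le_rfl _ T1 _ s4,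
    fun p hp r t => bd_le (S.bd0 hp (lt_trans (b2 p hp.1.1 (by linarith) t) (by norm_num))) hm.2.2
      (s3.trans s4)⟩, np_le np (le_max_left _ _) (by linarith) s4 (by linarith) s2,
    fun p hp r => ?_, fun x hx => (dec x hx).trans ?_⟩
  · obtain ⟨V, hV, k⟩ := (((S.op.eventually_mem t).filter_mono nhdsWithin_le_nhds).and
      (self_mem_nhdsWithin (s := Ioi ((f.z.pm Rs Rb).tau p)))).exists
    filter_upwards [mem_interior_iff_mem_nhds.1 hp,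
      (q.1.tau_cd (interior_subset hp).1).continuousAt.eventually_lt_const k] with x h1 h2
    exact fst x h1 V hV h2
  · have c := np.crude.trans (mul_le_mul_of_nonneg_right (le_max_left _ 0) (by linarith))
    have c1 : |p.1 - f.z.M| ≤ _ := (norm_fst_le (p - (f.z.M, f.z.a))).trans c
    have c2 : |p.2 - f.z.a| ≤ _ := (norm_snd_le (p - (f.z.M, f.z.a))).trans c
    show |p.1 - f.z.M| + |p.2 - f.z.a| ≤ _
    nlinarith [mul_le_mul_of_nonneg_right (show 2 * max (C f.z.R1) 0 ≤ K by linarith)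
      (show 0 ≤ C2 * (e1 + e) by linarith)]
  · obtain ⟨x, x1, rfl, x2⟩ := ex_up (q.1.pos hp.1.1)
    exact bd_le (bd x x1 (x2 ▸ q.1.pos hp.1.1) (x2 ▸ r) hp) (le_max_right _ _) le_rfl
  · have e0 : 0 ≤ e := by linarith
    have c0 : 0 ≤ C2 := by linarith
    gcongr

end Vale.Agent.P354YK
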