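import Vale.Agent.P354XR.Kerr

/-!
The outgoing principal null frame of Kerr on a chart whose field R is the outgoing radial field:
thorn is N R exactly. No inverse of Delta is used. Commutators.
-/

namespace Vale.Agent.P354YK

set_option linter.unusedSimpArgs false

open Vale.Agent.P354XG Vale.Agent.P354XR Vale.Agent.P354XR.KC

variable {A : Type*} [CommRing A] [Algebra ℂ A] (K : KC A)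

noncomputable def ga : A := K.ee - ii A * K.a * K.x * K.sg * K.sg * K.De
noncomputable def gab : A := K.ee + ii A * K.a * K.x * K.sg * K.sg * K.De

noncomputable def oth : Der A := K.V 0 K.N 0 0 0 0
noncomputable def otp : Der A :=
  K.V (2 * K.Ni * K.sg * K.W) (-(K.Ni * K.sg * K.De)) (ii A * K.a * K.s * K.Ni * K.sg)
    (-(ii A * K.a * K.sb * K.Ni * K.sg)) (-(K.Ni * (ga K + ii A * K.a * K.x * K.sg)))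
    (-(K.Ni * (gab K - ii A * K.a * K.x * K.sg)))
noncomputable def oet : Der A :=
  K.V (ii A * K.a * K.s * K.zb) 0 0 K.zb 0 (ii A * K.a * K.s * K.zb * K.zb)
noncomputable def oep : Der A :=
  K.V (-(ii A * K.a * K.sb * K.z)) 0 K.z 0 (-(ii A * K.a * K.sb * K.z * K.z)) 0

noncomputable def orh : A := -(K.N * K.z)
noncomputable def orh2 : A := K.Ni * K.sg * K.De * K.z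

/-- The GHP data of Kerr in the outgoing normalisation. -/
noncomputable def out : GHP A where
  c := K.c
  th := oth K
  tp := otp K
  et := oet K
  ep := oep K
  H := K.H
  Hb := K.B
  ka := 0
  si := 0
  rh := orh K
  ta := K.ta
  ka' := 0
  si' := 0
  rh' := orh2 K
  ta' := K.ta2
  P0 := 0
  P1 := 0
  P2 := K.P2
  P3 := 0
  P4 := 0

theorem oth_ap (f : A) : oth K f = K.N * K.R f := by simp [oth, V_ap]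

variable {K} (h : K.Is)
include h

theorem th_tp (f : A) : oth K (otp K f) = otp K (oth K f) + (K.c K.ta - K.ta2) * oet K f +
    (K.ta - K.c K.ta2) * oep K f - (K.P2 - K.ta * K.ta2) * K.H f -
    (K.c K.P2 - K.c K.ta * K.c K.ta2) * K.B f := by
  rw [h.V_comm (E := oth K) (F := otp K) rfl rfl]
  generalize otp K (oth K f) = u
  simp only [oth, otp, oet, oep, orh, orh2, ga, gab, ta, ta2, P2, z, zb, ee, De, W, V_ap, D_add,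
    D_sub, D_mul, D_neg, D_num, D_zero, D_ii, map_mul, map_add, map_sub, map_neg, map_zero,
    map_ofNat, h.tab]
  linear_combination (-ii A^4*K.x^4*K.a^6*K.s*K.sb*K.sg^4*K.H f - ii
    A^4*K.x^4*K.a^6*K.s*K.sb*K.sg^4*K.B f + 2*ii A^2*K.r^2*K.x^2*K.a^4*K.s*K.sb*K.sg^4*K.H f + 2*ii
    A^2*K.r^2*K.x^2*K.a^4*K.s*K.sb*K.sg^4*K.B f + 2*ii A^2*K.r*K.x^2*K.a^4*K.s*K.sb*K.sg^3*K.T f +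
    ii A^2*K.x^4*K.a^6*K.s*K.sb*K.sg^4*K.H f + ii A^2*K.x^4*K.a^6*K.s*K.sb*K.sg^4*K.B f + ii
    A^2*K.x^3*K.a^4*K.s*K.sg^3*K.P f + ii A^2*K.x^3*K.a^4*K.sb*K.sg^3*K.Q f - 2*ii
    A^2*K.x^2*K.a^4*K.s*K.sb*K.sg^3*K.H f - 2*ii A^2*K.x^2*K.a^4*K.s*K.sb*K.sg^3*K.B f - ii
    A*K.r*K.x^2*K.a^3*K.s*K.sg^3*K.P f + ii A*K.r*K.x^2*K.a^3*K.sb*K.sg^3*K.Q f - 4*ii
    A*K.r*K.x*K.a^3*K.s*K.sb*K.sg^3*K.H f + 4*ii A*K.r*K.x*K.a^3*K.s*K.sb*K.sg^3*K.B f - 2*ii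
    A*K.x^3*K.a^3*K.M*K.sg^3*K.H f + 2*ii A*K.x^3*K.a^3*K.M*K.sg^3*K.B f -
    K.r^4*K.a^2*K.s*K.sb*K.sg^4*K.H f - K.r^4*K.a^2*K.s*K.sb*K.sg^4*K.B f -
    2*K.r^3*K.a^2*K.s*K.sb*K.sg^3*K.T f - 2*K.r^2*K.x^2*K.a^4*K.s*K.sb*K.sg^4*K.H f -
    2*K.r^2*K.x^2*K.a^4*K.s*K.sb*K.sg^4*K.B f - K.r^2*K.x*K.a^2*K.s*K.sg^3*K.P f -
    K.r^2*K.x*K.a^2*K.sb*K.sg^3*K.Q f - 2*K.r^2*K.a^2*K.s*K.sb*K.sg^3*K.H f -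
    2*K.r^2*K.a^2*K.s*K.sb*K.sg^3*K.B f - 2*K.r*K.x^2*K.a^4*K.s*K.sb*K.sg^3*K.T f -
    6*K.r*K.x^2*K.a^2*K.M*K.sg^3*K.H f - 6*K.r*K.x^2*K.a^2*K.M*K.sg^3*K.B f -
    2*K.r*K.a^2*K.s*K.sb*K.sg^2*K.T f - K.x^4*K.a^6*K.s*K.sb*K.sg^4*K.H f -
    K.x^4*K.a^6*K.s*K.sb*K.sg^4*K.B f - K.x^3*K.a^4*K.s*K.sg^3*K.P f - K.x^3*K.a^4*K.sb*K.sg^3*K.Q f
    + 2*K.x^2*K.a^4*K.s*K.sb*K.sg^3*K.H f + 2*K.x^2*K.a^4*K.s*K.sb*K.sg^3*K.B f +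
    K.x*K.a^2*K.s*K.sg^2*K.P f + K.x*K.a^2*K.sb*K.sg^2*K.Q f) * ii_sq (A := A) + (4*ii
    A*K.r*K.x*K.a^3*K.sg^3*K.H f - 4*ii A*K.r*K.x*K.a^3*K.sg^3*K.B f + K.r^4*K.a^2*K.sg^4*K.H f +
    K.r^4*K.a^2*K.sg^4*K.B f + 2*K.r^3*K.a^2*K.sg^3*K.T f + 2*K.r^2*K.x^2*K.a^4*K.sg^4*K.H f +
    2*K.r^2*K.x^2*K.a^4*K.sg^4*K.B f + 2*K.r^2*K.a^2*K.sg^3*K.H f + 2*K.r^2*K.a^2*K.sg^3*K.B f +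
    2*K.r*K.x^2*K.a^4*K.sg^3*K.T f + 2*K.r*K.a^2*K.sg^2*K.T f + K.x^4*K.a^6*K.sg^4*K.H f +
    K.x^4*K.a^6*K.sg^4*K.B f - 2*K.x^2*K.a^4*K.sg^3*K.H f - 2*K.x^2*K.a^4*K.sg^3*K.B f) * h.hs +
    (-4*ii A*K.r^3*K.x*K.a*K.sg^3*K.H f + 4*ii A*K.r^3*K.x*K.a*K.sg^3*K.B f + 8*ii
    A*K.r^2*K.x*K.a*K.M*K.sg^3*K.H f - 8*ii A*K.r^2*K.x*K.a*K.M*K.sg^3*K.B f - 4*ii
    A*K.r*K.x*K.a^3*K.sg^3*K.H f + 4*ii A*K.r*K.x*K.a^3*K.sg^3*K.B f + 4*ii A*K.r*K.x*K.a*K.sg^2*K.H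
    f - 4*ii A*K.r*K.x*K.a*K.sg^2*K.B f - 2*ii A*K.r*K.a*K.s*K.sg^2*K.P f + 2*ii
    A*K.r*K.a*K.sb*K.sg^2*K.Q f - 2*ii A*K.x*K.a*K.M*K.sg^2*K.H f + 2*ii A*K.x*K.a*K.M*K.sg^2*K.B f
    - 4*K.r^4*K.sg^3*K.H f - 4*K.r^4*K.sg^3*K.B f + 8*K.r^3*K.M*K.sg^3*K.H f +
    8*K.r^3*K.M*K.sg^3*K.B f - 4*K.r^3*K.sg^2*K.T f - 4*K.r^2*K.a^2*K.sg^3*K.H f -
    4*K.r^2*K.a^2*K.sg^3*K.B f + 5*K.r^2*K.sg^2*K.H f + 5*K.r^2*K.sg^2*K.B f -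
    4*K.r*K.a^2*K.sg^2*K.T f - 6*K.r*K.M*K.sg^2*K.H f - 6*K.r*K.M*K.sg^2*K.B f + 4*K.r*K.sg*K.T f +
    K.a^2*K.sg^2*K.H f + K.a^2*K.sg^2*K.B f - K.sg*K.H f - K.sg*K.B f) * h.hN + (-4*ii
    A*K.r*K.x*K.a*K.sg^2*K.H f + 4*ii A*K.r*K.x*K.a*K.sg^2*K.B f + ii A*K.r*K.a*K.s*K.sg^2*K.P f -
    ii A*K.r*K.a*K.sb*K.sg^2*K.Q f + 2*ii A*K.x*K.a*K.M*K.sg^2*K.H f - 2*ii A*K.x*K.a*K.M*K.sg^2*K.B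
    f - K.r^2*K.x^2*K.a^2*K.sg^3*K.H f - K.r^2*K.x^2*K.a^2*K.sg^3*K.B f + K.r^2*K.a^2*K.sg^3*K.H f +
    K.r^2*K.a^2*K.sg^3*K.B f - 4*K.r^2*K.sg^2*K.H f - 4*K.r^2*K.sg^2*K.B f -
    2*K.r*K.x^2*K.a^2*K.sg^2*K.T f + 2*K.r*K.a^2*K.sg^2*K.T f + 6*K.r*K.M*K.sg^2*K.H f +
    6*K.r*K.M*K.sg^2*K.B f - 4*K.r*K.sg*K.T f - K.x^4*K.a^4*K.sg^3*K.H f - K.x^4*K.a^4*K.sg^3*K.B f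
    + K.x^2*K.a^4*K.sg^3*K.H f + K.x^2*K.a^4*K.sg^3*K.B f + K.x^2*K.a^2*K.sg^2*K.H f +
    K.x^2*K.a^2*K.sg^2*K.B f + K.x*K.a^2*K.s*K.sg^2*K.P f + K.x*K.a^2*K.sb*K.sg^2*K.Q f -
    K.a^2*K.sg^2*K.H f - K.a^2*K.sg^2*K.B f + K.sg*K.H f + K.sg*K.B f) * h.hg

theorem th_et (f : A) : oth K (oet K f) = oet K (oth K f) + K.c (orh K) * oet K f -
    K.c K.ta2 * oth K f + K.c (orh K) * K.c K.ta2 * K.B f := by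
  rw [h.V_comm (E := oth K) (F := oet K) rfl rfl]
  generalize oet K (oth K f) = u
  simp only [oth, otp, oet, oep, orh, orh2, ga, gab, ta, ta2, P2, z, zb, ee, De, W, V_ap, D_add,
    D_sub, D_mul, D_neg, D_num, D_zero, D_ii, map_mul, map_add, map_sub, map_neg, map_zero,
    map_ofNat, h.tab]
  linear_combination (-2*ii A^2*K.x^3*K.a^4*K.s*K.N*K.sg^3*K.B f + 2*ii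
    A*K.r*K.x^2*K.a^3*K.s*K.N*K.sg^3*K.B f + ii A*K.x^2*K.a^3*K.s*K.N*K.sg^2*K.T f +
    2*K.r^2*K.x*K.a^2*K.s*K.N*K.sg^3*K.B f + 2*K.x^3*K.a^4*K.s*K.N*K.sg^3*K.B f +
    K.x^2*K.a^2*K.N*K.sg^2*K.Q f - 2*K.x*K.a^2*K.s*K.N*K.sg^2*K.B f) * ii_sq (A := A) + (-2*ii
    A*K.r*K.a*K.s*K.N*K.sg^2*K.B f - ii A*K.a*K.s*K.N*K.sg*K.T f - 2*K.x*K.a^2*K.s*K.N*K.sg^2*K.B f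
    - K.N*K.sg*K.Q f) * h.hg

theorem tp_ep (f : A) : otp K (oep K f) = oep K (otp K f) + K.c (orh2 K) * oep K f -
    K.c K.ta * otp K f - K.c (orh2 K) * K.c K.ta * K.B f := by
  rw [h.V_comm (E := otp K) (F := oep K) rfl rfl]
  generalize oep K (otp K f) = u
  simp only [oth, otp, oet, oep, orh, orh2, ga, gab, ta, ta2, P2, z, zb, ee, De, W, V_ap, D_add,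
    D_sub, D_mul, D_neg, D_num, D_zero, D_ii, map_mul, map_add, map_sub, map_neg, map_zero,
    map_ofNat, h.tab]
  linear_combination (ii A^2*K.r^2*K.x^3*K.a^4*K.sb*K.Ni*K.sg^4*K.B f - 2*ii
    A^2*K.r*K.x^3*K.a^4*K.M*K.sb*K.Ni*K.sg^4*K.B f + ii A^2*K.x^3*K.a^6*K.sb*K.Ni*K.sg^4*K.B f + ii
    A^2*K.x^3*K.a^4*K.sb*K.Ni*K.sg^3*K.H f - ii A^2*K.x^3*K.a^4*K.sb*K.Ni*K.sg^3*K.B f - ii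
    A^2*K.x^2*K.a^4*K.s*K.sb*K.Ni*K.sg^3*K.P f + ii A^2*K.x^2*K.a^4*K.sb^2*K.Ni*K.sg^3*K.Q f - 4*ii
    A*K.r^3*K.x^2*K.a^3*K.sb*K.Ni*K.sg^4*K.H f + ii A*K.r^3*K.x^2*K.a^3*K.sb*K.Ni*K.sg^4*K.B f +
    8*ii A*K.r^2*K.x^2*K.a^3*K.M*K.sb*K.Ni*K.sg^4*K.H f - 2*ii
    A*K.r^2*K.x^2*K.a^3*K.M*K.sb*K.Ni*K.sg^4*K.B f - ii A*K.r^2*K.x^2*K.a^3*K.sb*K.Ni*K.sg^3*K.T f +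
    ii A*K.r^2*K.x^2*K.a^3*K.sb*K.Ni*K.sg^3*K.R f - 4*ii A*K.r*K.x^2*K.a^5*K.sb*K.Ni*K.sg^4*K.H f +
    ii A*K.r*K.x^2*K.a^5*K.sb*K.Ni*K.sg^4*K.B f - 2*ii A*K.r*K.x^2*K.a^3*K.M*K.sb*K.Ni*K.sg^3*K.T f
    - 2*ii A*K.r*K.x^2*K.a^3*K.M*K.sb*K.Ni*K.sg^3*K.R f + 3*ii
    A*K.r*K.x^2*K.a^3*K.sb*K.Ni*K.sg^3*K.H f - ii A*K.r*K.x^2*K.a^3*K.sb*K.Ni*K.sg^3*K.B f - 2*ii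
    A*K.r*K.x*K.a^3*K.s*K.sb*K.Ni*K.sg^3*K.P f + 2*ii A*K.r*K.x*K.a^3*K.sb^2*K.Ni*K.sg^3*K.Q f - ii
    A*K.x^2*K.a^5*K.sb*K.Ni*K.sg^3*K.T f + ii A*K.x^2*K.a^5*K.sb*K.Ni*K.sg^3*K.R f - ii
    A*K.x^2*K.a^3*K.M*K.sb*K.Ni*K.sg^3*K.H f - ii A*K.x^2*K.a^3*K.M*K.sb*K.Ni*K.sg^3*K.B f -
    8*K.r^4*K.x*K.a^2*K.sb*K.Ni*K.sg^4*K.H f - K.r^4*K.x*K.a^2*K.sb*K.Ni*K.sg^4*K.B f +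
    16*K.r^3*K.x*K.a^2*K.M*K.sb*K.Ni*K.sg^4*K.H f + 2*K.r^3*K.x*K.a^2*K.M*K.sb*K.Ni*K.sg^4*K.B f -
    4*K.r^3*K.x*K.a^2*K.sb*K.Ni*K.sg^3*K.T f + 2*K.r^3*K.x*K.a^2*K.sb*K.Ni*K.sg^3*K.R f -
    4*K.r^2*K.x^3*K.a^4*K.sb*K.Ni*K.sg^4*K.H f + 3*K.r^2*K.x^3*K.a^4*K.sb*K.Ni*K.sg^4*K.B f -
    K.r^2*K.x^2*K.a^2*K.Ni*K.sg^3*K.P f - 8*K.r^2*K.x*K.a^4*K.sb*K.Ni*K.sg^4*K.H f -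
    K.r^2*K.x*K.a^4*K.sb*K.Ni*K.sg^4*K.B f - 4*K.r^2*K.x*K.a^2*K.M*K.sb*K.Ni*K.sg^3*K.R f +
    7*K.r^2*K.x*K.a^2*K.sb*K.Ni*K.sg^3*K.H f - 2*K.r^2*K.x*K.a^2*K.sb*K.Ni*K.sg^3*K.B f -
    K.r^2*K.a^2*K.s*K.sb*K.Ni*K.sg^3*K.P f + K.r^2*K.a^2*K.sb^2*K.Ni*K.sg^3*K.Q f +
    8*K.r*K.x^3*K.a^4*K.M*K.sb*K.Ni*K.sg^4*K.H f - 6*K.r*K.x^3*K.a^4*K.M*K.sb*K.Ni*K.sg^4*K.B f +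
    2*K.r*K.x^2*K.a^2*K.M*K.Ni*K.sg^3*K.P f - 4*K.r*K.x*K.a^4*K.sb*K.Ni*K.sg^3*K.T f +
    2*K.r*K.x*K.a^4*K.sb*K.Ni*K.sg^3*K.R f - 10*K.r*K.x*K.a^2*K.M*K.sb*K.Ni*K.sg^3*K.H f +
    4*K.r*K.x*K.a^2*K.M*K.sb*K.Ni*K.sg^3*K.B f - 4*K.x^3*K.a^6*K.sb*K.Ni*K.sg^4*K.H f +
    3*K.x^3*K.a^6*K.sb*K.Ni*K.sg^4*K.B f + K.x^3*K.a^4*K.sb*K.Ni*K.sg^3*K.H f -
    K.x^3*K.a^4*K.sb*K.Ni*K.sg^3*K.B f - K.x^2*K.a^4*K.s*K.sb*K.Ni*K.sg^3*K.P f +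
    K.x^2*K.a^4*K.sb^2*K.Ni*K.sg^3*K.Q f - K.x^2*K.a^4*K.Ni*K.sg^3*K.P f +
    4*K.x*K.a^4*K.sb*K.Ni*K.sg^3*K.H f - 3*K.x*K.a^4*K.sb*K.Ni*K.sg^3*K.B f -
    K.x*K.a^2*K.sb*K.Ni*K.sg^2*K.H f + K.x*K.a^2*K.sb*K.Ni*K.sg^2*K.B f +
    K.a^2*K.s*K.sb*K.Ni*K.sg^2*K.P f - K.a^2*K.sb^2*K.Ni*K.sg^2*K.Q f) * ii_sq (A := A) +
    (K.r^2*K.a^2*K.Ni*K.sg^3*K.P f + K.x^2*K.a^4*K.Ni*K.sg^3*K.P f - K.a^2*K.Ni*K.sg^2*K.P f) * h.hs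
    + (-4*ii A*K.r^3*K.a*K.sb*K.Ni*K.sg^3*K.H f - ii A*K.r^3*K.a*K.sb*K.Ni*K.sg^3*K.B f + 8*ii
    A*K.r^2*K.a*K.M*K.sb*K.Ni*K.sg^3*K.H f + 2*ii A*K.r^2*K.a*K.M*K.sb*K.Ni*K.sg^3*K.B f - 3*ii
    A*K.r^2*K.a*K.sb*K.Ni*K.sg^2*K.T f + ii A*K.r^2*K.a*K.sb*K.Ni*K.sg^2*K.R f - 4*ii
    A*K.r*K.a^3*K.sb*K.Ni*K.sg^3*K.H f - ii A*K.r*K.a^3*K.sb*K.Ni*K.sg^3*K.B f + 2*ii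
    A*K.r*K.a*K.M*K.sb*K.Ni*K.sg^2*K.T f - 2*ii A*K.r*K.a*K.M*K.sb*K.Ni*K.sg^2*K.R f + ii
    A*K.r*K.a*K.sb*K.Ni*K.sg^2*K.H f + ii A*K.r*K.a*K.sb*K.Ni*K.sg^2*K.B f - 3*ii
    A*K.a^3*K.sb*K.Ni*K.sg^2*K.T f + ii A*K.a^3*K.sb*K.Ni*K.sg^2*K.R f - ii
    A*K.a*K.M*K.sb*K.Ni*K.sg^2*K.H f - ii A*K.a*K.M*K.sb*K.Ni*K.sg^2*K.B f +
    4*K.r^2*K.x*K.a^2*K.sb*K.Ni*K.sg^3*K.H f - 3*K.r^2*K.x*K.a^2*K.sb*K.Ni*K.sg^3*K.B f +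
    K.r^2*K.Ni*K.sg^2*K.P f - 8*K.r*K.x*K.a^2*K.M*K.sb*K.Ni*K.sg^3*K.H f +
    6*K.r*K.x*K.a^2*K.M*K.sb*K.Ni*K.sg^3*K.B f - 2*K.r*K.M*K.Ni*K.sg^2*K.P f -
    K.x^2*K.a^2*K.Ni*K.sg^2*K.P f + 4*K.x*K.a^4*K.sb*K.Ni*K.sg^3*K.H f -
    3*K.x*K.a^4*K.sb*K.Ni*K.sg^3*K.B f - K.x*K.a^2*K.sb*K.Ni*K.sg^2*K.H f +
    K.x*K.a^2*K.sb*K.Ni*K.sg^2*K.B f - K.a^2*K.sb^2*K.Ni*K.sg^2*K.Q f + 2*K.a^2*K.Ni*K.sg^2*K.P f) *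
    h.hg

theorem et_ep (f : A) : oet K (oep K f) = oep K (oet K f) + (K.c (orh2 K) - orh2 K) * oth K f +
    (orh K - K.c (orh K)) * otp K f + (orh K * orh2 K + K.P2) * K.H f -
    (K.c (orh K) * K.c (orh2 K) + K.c K.P2) * K.B f := by
  rw [h.V_comm (E := oet K) (F := oep K) rfl rfl]
  generalize oep K (oet K f) = u
  simp only [oth, otp, oet, oep, orh, orh2, ga, gab, ta, ta2, P2, z, zb, ee, De, W, V_ap, D_add,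
    D_sub, D_mul, D_neg, D_num, D_zero, D_ii, map_mul, map_add, map_sub, map_neg, map_zero,
    map_ofNat, h.tab]
  linear_combination (-ii A^4*K.x^4*K.a^6*K.s*K.sb*K.sg^4*K.H f + ii
    A^4*K.x^4*K.a^6*K.s*K.sb*K.sg^4*K.B f - 2*ii A^3*K.x^3*K.a^5*K.s*K.sb*K.sg^3*K.T f + 2*ii
    A^2*K.r^2*K.x^2*K.a^4*K.s*K.sb*K.sg^4*K.H f - 2*ii A^2*K.r^2*K.x^2*K.a^4*K.s*K.sb*K.sg^4*K.B f +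
    5*ii A^2*K.x^4*K.a^6*K.s*K.sb*K.sg^4*K.H f - 5*ii A^2*K.x^4*K.a^6*K.s*K.sb*K.sg^4*K.B f + 2*ii
    A^2*K.x^4*K.a^4*K.sg^3*K.H f - 2*ii A^2*K.x^4*K.a^4*K.sg^3*K.B f + ii
    A^2*K.x^3*K.a^4*K.s*K.sg^3*K.P f - ii A^2*K.x^3*K.a^4*K.sb*K.sg^3*K.Q f - 2*ii
    A^2*K.x^2*K.a^4*K.s*K.sb*K.sg^3*K.H f + 2*ii A^2*K.x^2*K.a^4*K.s*K.sb*K.sg^3*K.B f + 2*ii
    A*K.r^2*K.x*K.a^3*K.s*K.sb*K.sg^3*K.T f + 4*ii A*K.r*K.x^3*K.a^5*K.s*K.sb*K.sg^4*K.H f + 4*ii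
    A*K.r*K.x^3*K.a^5*K.s*K.sb*K.sg^4*K.B f + 2*ii A*K.r*K.x^3*K.a^3*K.sg^3*K.H f + 2*ii
    A*K.r*K.x^3*K.a^3*K.sg^3*K.B f - ii A*K.r*K.x^2*K.a^3*K.s*K.sg^3*K.P f - ii
    A*K.r*K.x^2*K.a^3*K.sb*K.sg^3*K.Q f + 6*ii A*K.x^3*K.a^5*K.s*K.sb*K.sg^3*K.T f + 2*ii
    A*K.x^3*K.a^3*K.M*K.sg^3*K.H f + 2*ii A*K.x^3*K.a^3*K.M*K.sg^3*K.B f + 4*ii
    A*K.x^3*K.a^3*K.sg^2*K.T f - 2*ii A*K.x*K.a^3*K.s*K.sb*K.sg^2*K.T f -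
    K.r^4*K.a^2*K.s*K.sb*K.sg^4*K.H f + K.r^4*K.a^2*K.s*K.sb*K.sg^4*K.B f -
    6*K.r^2*K.x^2*K.a^4*K.s*K.sb*K.sg^4*K.H f + 6*K.r^2*K.x^2*K.a^4*K.s*K.sb*K.sg^4*K.B f +
    3*K.r^2*K.x^2*K.a^2*K.N*K.Ni*K.sg^3*K.H f - 3*K.r^2*K.x^2*K.a^2*K.N*K.Ni*K.sg^3*K.B f -
    2*K.r^2*K.x^2*K.a^2*K.sg^3*K.H f + 2*K.r^2*K.x^2*K.a^2*K.sg^3*K.B f -
    K.r^2*K.x*K.a^2*K.s*K.sg^3*K.P f + K.r^2*K.x*K.a^2*K.sb*K.sg^3*K.Q f +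
    2*K.r^2*K.a^2*K.s*K.sb*K.sg^3*K.H f - 2*K.r^2*K.a^2*K.s*K.sb*K.sg^3*K.B f -
    6*K.r*K.x^2*K.a^2*K.M*K.N*K.Ni*K.sg^3*K.H f + 6*K.r*K.x^2*K.a^2*K.M*K.N*K.Ni*K.sg^3*K.B f +
    6*K.r*K.x^2*K.a^2*K.M*K.sg^3*K.H f - 6*K.r*K.x^2*K.a^2*K.M*K.sg^3*K.B f -
    5*K.x^4*K.a^6*K.s*K.sb*K.sg^4*K.H f + 5*K.x^4*K.a^6*K.s*K.sb*K.sg^4*K.B f -
    2*K.x^4*K.a^4*K.sg^3*K.H f + 2*K.x^4*K.a^4*K.sg^3*K.B f - 3*K.x^3*K.a^4*K.s*K.sg^3*K.P f +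
    3*K.x^3*K.a^4*K.sb*K.sg^3*K.Q f + 2*K.x^2*K.a^4*K.s*K.sb*K.sg^3*K.H f -
    2*K.x^2*K.a^4*K.s*K.sb*K.sg^3*K.B f + 3*K.x^2*K.a^4*K.N*K.Ni*K.sg^3*K.H f -
    3*K.x^2*K.a^4*K.N*K.Ni*K.sg^3*K.B f - 2*K.x^2*K.a^2*K.N*K.Ni*K.sg^2*K.H f +
    2*K.x^2*K.a^2*K.N*K.Ni*K.sg^2*K.B f + K.x^2*K.a^2*K.sg^2*K.H f - K.x^2*K.a^2*K.sg^2*K.B f +
    2*K.x*K.a^2*K.s*K.N*K.Ni*K.sg^2*K.P f + K.x*K.a^2*K.s*K.sg^2*K.P f -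
    2*K.x*K.a^2*K.sb*K.N*K.Ni*K.sg^2*K.Q f - K.x*K.a^2*K.sb*K.sg^2*K.Q f) * ii_sq (A := A) + (-4*ii
    A*K.r^3*K.x*K.a^3*K.sg^4*K.H f - 4*ii A*K.r^3*K.x*K.a^3*K.sg^4*K.B f - 6*ii
    A*K.r^2*K.x*K.a^3*K.sg^3*K.T f - 4*ii A*K.r*K.x^3*K.a^5*K.sg^4*K.H f - 4*ii
    A*K.r*K.x^3*K.a^5*K.sg^4*K.B f - 6*ii A*K.x^3*K.a^5*K.sg^3*K.T f + 2*ii A*K.x*K.a^3*K.sg^2*K.T f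
    + K.r^4*K.a^2*K.sg^4*K.H f - K.r^4*K.a^2*K.sg^4*K.B f + 6*K.r^2*K.x^2*K.a^4*K.sg^4*K.H f -
    6*K.r^2*K.x^2*K.a^4*K.sg^4*K.B f - 2*K.r^2*K.a^2*K.sg^3*K.H f + 2*K.r^2*K.a^2*K.sg^3*K.B f +
    5*K.x^4*K.a^6*K.sg^4*K.H f - 5*K.x^4*K.a^6*K.sg^4*K.B f - 2*K.x^2*K.a^4*K.sg^3*K.H f +
    2*K.x^2*K.a^4*K.sg^3*K.B f) * h.hs + (4*ii A*K.r^3*K.x*K.a*K.sg^3*K.H f + 4*ii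
    A*K.r^3*K.x*K.a*K.sg^3*K.B f - 8*ii A*K.r^2*K.x*K.a*K.M*K.sg^3*K.H f - 8*ii
    A*K.r^2*K.x*K.a*K.M*K.sg^3*K.B f + 4*ii A*K.r^2*K.x*K.a*K.sg^2*K.T f + 4*ii
    A*K.r*K.x*K.a^3*K.sg^3*K.H f + 4*ii A*K.r*K.x*K.a^3*K.sg^3*K.B f - 2*ii A*K.r*K.x*K.a*K.sg^2*K.H
    f - 2*ii A*K.r*K.x*K.a*K.sg^2*K.B f + 4*ii A*K.x*K.a^3*K.sg^2*K.T f + 2*ii
    A*K.x*K.a*K.M*K.sg^2*K.H f + 2*ii A*K.x*K.a*K.M*K.sg^2*K.B f + K.r^4*K.sg^3*K.H f -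
    K.r^4*K.sg^3*K.B f - 2*K.r^3*K.M*K.sg^3*K.H f + 2*K.r^3*K.M*K.sg^3*K.B f -
    3*K.r^2*K.x^2*K.a^2*K.sg^3*K.H f + 3*K.r^2*K.x^2*K.a^2*K.sg^3*K.B f + K.r^2*K.a^2*K.sg^3*K.H f -
    K.r^2*K.a^2*K.sg^3*K.B f + 6*K.r*K.x^2*K.a^2*K.M*K.sg^3*K.H f - 6*K.r*K.x^2*K.a^2*K.M*K.sg^3*K.B
    f - 3*K.x^2*K.a^4*K.sg^3*K.H f + 3*K.x^2*K.a^4*K.sg^3*K.B f + 2*K.x^2*K.a^2*K.sg^2*K.H f -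
    2*K.x^2*K.a^2*K.sg^2*K.B f - 2*K.x*K.a^2*K.s*K.sg^2*K.P f + 2*K.x*K.a^2*K.sb*K.sg^2*K.Q f) *
    h.hN + (4*ii A*K.r*K.x^3*K.a^3*K.sg^3*K.H f + 4*ii A*K.r*K.x^3*K.a^3*K.sg^3*K.B f - 4*ii
    A*K.r*K.x*K.a^3*K.sg^3*K.H f - 4*ii A*K.r*K.x*K.a^3*K.sg^3*K.B f + 2*ii A*K.r*K.x*K.a*K.sg^2*K.H
    f + 2*ii A*K.r*K.x*K.a*K.sg^2*K.B f + ii A*K.r*K.a*K.s*K.sg^2*K.P f + ii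
    A*K.r*K.a*K.sb*K.sg^2*K.Q f + 6*ii A*K.x^3*K.a^3*K.sg^2*K.T f - 6*ii A*K.x*K.a^3*K.sg^2*K.T f -
    2*ii A*K.x*K.a*K.M*K.sg^2*K.H f - 2*ii A*K.x*K.a*K.M*K.sg^2*K.B f - K.r^2*K.x^2*K.a^2*K.sg^3*K.H
    f + K.r^2*K.x^2*K.a^2*K.sg^3*K.B f + K.r^2*K.a^2*K.sg^3*K.H f - K.r^2*K.a^2*K.sg^3*K.B f +
    K.r^2*K.sg^2*K.H f - K.r^2*K.sg^2*K.B f - 5*K.x^4*K.a^4*K.sg^3*K.H f + 5*K.x^4*K.a^4*K.sg^3*K.B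
    f + 5*K.x^2*K.a^4*K.sg^3*K.H f - 5*K.x^2*K.a^4*K.sg^3*K.B f - K.x^2*K.a^2*K.sg^2*K.H f +
    K.x^2*K.a^2*K.sg^2*K.B f + 3*K.x*K.a^2*K.s*K.sg^2*K.P f - 3*K.x*K.a^2*K.sb*K.sg^2*K.Q f) * h.hg

end Vale.Agent.P354YK
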