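import Vale.Agent.P354XZ.Defs
import Vale.Agent.P354XI.Tool

/-!
Symbols on the far chart.
-/

namespace Vale.Agent.P354YK

open Vale.Agent.P354XG Vale.Agent.P354XI Vale.Agent.P354XZ Set

variable {A : Type} [CommRing A] [Algebra ℂ A] {C : Ch A} {a b : ℝ} {f g : A}

/-- The values are at most K r^(-a). -/
def Sb0 (C : Ch A) (a : ℝ) (f : A) : Prop := ∃ K, 0 ≤ K ∧ ∀ x, C.md x f ≤ K * C.rr x ^ (-a)

/-- All words are at most K r^(-a). -/
def Sb (C : Ch A) (a : ℝ) (f : A) : Prop := ∀ w, Sb0 C a (C.wd w f)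

theorem one_le_rr (h : C.Is) (x : C.Pt) : 1 ≤ C.rr x :=
  (h.one_le x.1).1.trans (h.rng _ _ (h.dom x)).1

theorem rr_pos (h : C.Is) (x : C.Pt) : 0 < C.rr x := one_pos.trans_le (one_le_rr h x)

theorem sb0_zero : Sb0 C a 0 := ⟨0, le_rfl, fun x => by simp [Ch.md, Ibp.md]⟩

theorem Sb0.add (hf : Sb0 C a f) (hg : Sb0 C a g) : Sb0 C a (f + g) := by
  obtain ⟨K, hK, e⟩ := hf
  obtain ⟨L, hL, e'⟩ := hg
  refine ⟨K + L, add_nonneg hK hL, fun x => (Ibp.md_add _ f g).trans ?_⟩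
  rw [add_mul]
  exact add_le_add (e x) (e' x)

theorem Sb0.mul (h : C.Is) (hf : Sb0 C a f) (hg : Sb0 C b g) : Sb0 C (a + b) (f * g) := by
  obtain ⟨K, hK, e⟩ := hf
  obtain ⟨L, hL, e'⟩ := hg
  refine ⟨K * L, mul_nonneg hK hL, fun x => (Ibp.md_mul _ f g).trans_le ?_⟩
  rw [neg_add, Real.rpow_add (rr_pos h x), mul_mul_mul_comm]
  exact mul_le_mul (e x) (e' x) (Ibp.md_nonneg _ _) ((Ibp.md_nonneg _ _).trans (e x))

theorem Sb0.mono (h : C.Is) (hf : Sb0 C a f) (e : b ≤ a) : Sb0 C b f := by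
  obtain ⟨K, hK, e1⟩ := hf
  exact ⟨K, hK, fun x => (e1 x).trans (mul_le_mul_of_nonneg_left
    (Real.rpow_le_rpow_of_exponent_le (one_le_rr h x) (neg_le_neg e)) hK)⟩

theorem wd_add (w : List (Fin 5)) (f g : A) : C.wd w (f + g) = C.wd w f + C.wd w g := by
  induction w generalizing f g with
  | nil => rfl
  | cons i w ih => simp only [Ch.wd, D_add, ih]

theorem Sb.sb0 (hf : Sb C a f) : Sb0 C a f := hf []

theorem Sb.der (hf : Sb C a f) (i : Fin 5) : Sb C a (C.X i f) := fun w => hf (i :: w)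

theorem sb_of (h0 : Sb0 C a f) (h : ∀ i, Sb C a (C.X i f)) : Sb C a f
  | [] => h0
  | i :: w => h i w

theorem sb_stable (S : Set A) (h0 : ∀ f ∈ S, Sb0 C a f) (hs : ∀ f ∈ S, ∀ i, C.X i f ∈ S) :
    ∀ f ∈ S, Sb C a f := by
  intro f hf w
  induction w generalizing f with
  | nil => exact h0 f hf
  | cons i w ih => exact ih _ (hs f hf i)

theorem sb_zero : Sb C a 0 :=
  sb_stable {0} (fun _ e => e ▸ sb0_zero) (fun _ e i => by rw [e, D_zero]; rfl) 0 rfl

theorem Sb.add (hf : Sb C a f) (hg : Sb C a g) : Sb C a (f + g) := fun w => by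
  rw [wd_add]; exact (hf w).add (hg w)

theorem Sb.mul (h : C.Is) (hf : Sb C a f) (hg : Sb C b g) : Sb C (a + b) (f * g) := by
  intro w
  induction w generalizing f g with
  | nil => exact Sb0.mul h (hf []) (hg [])
  | cons i w ih =>
    simp only [Ch.wd, D_mul, wd_add]
    refine (ih hf (hg.der i)).add ?_
    rw [mul_comm g]
    exact ih (hf.der i) hg

theorem Sb.mono (h : C.Is) (hf : Sb C a f) (e : b ≤ a) : Sb C b f := fun w => (hf w).mono h e

theorem Sb.of (hf : Sb C a f) (e : g = f) : Sb C a g := e ▸ hf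

theorem sb_cst (h0 : ∃ K, ∀ x, C.md x f ≤ K) (h : ∀ i, C.X i f = 0) : Sb C 0 f := by
  obtain ⟨K, e⟩ := h0
  exact sb_of ⟨max K 0, le_max_right _ _, fun x => by simpa using Or.inl (e x)⟩
    fun i => h i ▸ sb_zero

theorem sb_alg (h : C.Is) (z : ℂ) : Sb C 0 (algebraMap ℂ A z) :=
  sb_cst ⟨‖z‖, fun x => by rw [Ch.md, Ibp.md, (h.ibp _).ev_alg]⟩ fun _ => D_alg _ _

theorem Sb.cmul (h : C.Is) (hg : Sb C 0 g) (hf : Sb C a f) : Sb C a (g * f) := by
  simpa only [zero_add] using hg.mul h hf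

theorem Sb.neg (h : C.Is) (hf : Sb C a f) : Sb C a (-f) := by
  simpa only [map_neg, map_one, neg_one_mul] using (sb_alg h (-1)).cmul h hf

theorem Sb.sub (h : C.Is) (hf : Sb C a f) (hg : Sb C a g) : Sb C a (f - g) := by
  rw [sub_eq_add_neg]; exact hf.add (hg.neg h)

theorem sb_num (h : C.Is) (n : ℕ) [n.AtLeastTwo] : Sb C 0 (ofNat(n) : A) := by
  simpa only [map_ofNat] using sb_alg h (ofNat(n) : ℂ)

theorem sb_sum {ι : Type} (s : Finset ι) {u : ι → A} (e : ∀ i ∈ s, Sb C a (u i)) :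
    Sb C a (∑ i ∈ s, u i) := Finset.sum_induction u (Sb C a) (fun _ _ => Sb.add) sb_zero e

/-- A bounded element whose derivatives are polynomials in it with coefficients of order zero. -/
theorem sb_closure (h : C.Is) (h0 : Sb0 C 0 f)
    (hd : ∀ i, C.X i f ∈ Subring.closure ({f} ∪ {g | Sb C 0 g})) : Sb C 0 f := by
  have key : ∀ y ∈ Subring.closure ({f} ∪ {g | Sb C 0 g}), Sb0 C 0 y ∧
      ∀ i, C.X i y ∈ Subring.closure ({f} ∪ {g | Sb C 0 g}) := by
    intro y hy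
    induction hy using Subring.closure_induction with
    | mem x hx =>
      rcases hx with rfl | hx
      · exact ⟨h0, hd⟩
      · exact ⟨hx [], fun i => Subring.subset_closure (Or.inr (Sb.der hx i))⟩
    | zero => exact ⟨sb0_zero, fun v => by rw [D_zero]; exact zero_mem _⟩
    | one =>
      exact ⟨by simpa only [map_one] using (sb_alg h 1).sb0, fun v => by rw [D_one]; exact zero_mem _⟩
    | add x y hx hy h1 h2 =>
      exact ⟨h1.1.add h2.1, fun v => by rw [D_add]; exact add_mem (h1.2 v) (h2.2 v)⟩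
    | neg x hx h1 =>
      refine ⟨?_, fun v => by rw [D_neg]; exact neg_mem (h1.2 v)⟩
      obtain ⟨K, hK, e⟩ := h1.1
      exact ⟨K, hK, fun p => (Ibp.md_neg _ _).trans_le (e p)⟩
    | mul x y hx hy h1 h2 =>
      exact ⟨by simpa only [add_zero] using h1.1.mul h h2.1, fun v => by
        rw [D_mul]; exact add_mem (mul_mem hx (h2.2 v)) (mul_mem hy (h1.2 v))⟩
  exact sb_stable (Subring.closure ({f} ∪ {g | Sb C 0 g}) : Set A) (fun y hy => (key y hy).1)
    (fun y hy => (key y hy).2) f (Subring.subset_closure (Or.inl rfl))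

/-- An element on which the letters act by constants. -/
theorem sb_eig (h : C.Is) (h0 : Sb0 C a f) (e : ∀ i, ∃ z : ℂ, C.X i f = algebraMap ℂ A z * f) :
    Sb C a f := by
  refine sb_stable {g | ∃ z : ℂ, g = algebraMap ℂ A z * f} ?_ ?_ f ⟨1, by simp⟩
  · rintro _ ⟨z, rfl⟩
    simpa only [zero_add] using Sb0.mul h (sb_alg h z).sb0 h0
  · rintro _ ⟨z, rfl⟩ i
    obtain ⟨w, hw⟩ := e i
    exact ⟨z * w, by rw [D_mul, D_alg, hw, map_mul]; ring⟩

theorem X_r (h : C.Is) (i : Fin 5) : C.X i C.r = if i = 1 then C.r else 0 := by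
  have t : C.T C.r = 0 := h.D_r 0
  have r : C.R C.r = 1 := h.D_r 1
  fin_cases i <;> simp [Ch.X, t, r, h.O_r]

theorem md_r (h : C.Is) (x : C.Pt) : C.md x C.r = C.rr x := by
  have : (C.B x.1).Re C.r := by rw [Ibp.Re, h.c_eq, h.c_r]
  rw [Ch.md, (h.ibp _).md_re this]
  exact abs_of_pos (rr_pos h x)

theorem sb_r (h : C.Is) : Sb C (-1) C.r :=
  sb_eig h ⟨1, zero_le_one, fun x => by simp [md_r h]⟩ fun i => by
    rw [X_r h]; split_ifs
    exacts [⟨1, by simp⟩, ⟨0, by simp⟩]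

theorem sb_ri (h : C.Is) : Sb C 1 C.ri := by
  refine sb_eig h ⟨1, zero_le_one, fun x => ?_⟩ fun i => ?_
  · have := Ibp.md_mul x.2 C.r C.ri
    rw [h.hr, Ibp.md, map_one, norm_one] at this
    rw [one_mul, Real.rpow_neg_one, ← md_r h]
    exact (eq_inv_of_mul_eq_one_right this.symm).le
  · have := congrArg (C.X i) h.hr
    rw [D_mul, D_one, X_r h] at this
    split_ifs at this
    · exact ⟨-1, by rw [map_neg, map_one]; linear_combination C.ri * this - C.X i C.ri * h.hr -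
        C.ri * h.hr⟩
    · exact ⟨0, by rw [map_zero]; linear_combination C.ri * this - C.X i C.ri * h.hr⟩

theorem sb_mu (h : C.Is) (p i : Fin 3) : Sb C 0 (C.mu p i) := by
  refine sb_stable {g | ∃ z : Fin 3 → ℂ, g = ∑ l, algebraMap ℂ A (z l) * C.mu p l} ?_ ?_ _
    ⟨Pi.single i 1, by fin_cases i <;> simp [Fin.sum_univ_three]⟩
  · rintro _ ⟨z, rfl⟩
    refine Finset.sum_induction _ (Sb0 C 0) (fun _ _ => Sb0.add) sb0_zero fun l _ => ?_
    simpa only [add_zero] using Sb0.mul h (sb_alg h (z l)).sb0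
      (⟨2, zero_le_two, fun x => by simpa using h.mu_le p l x⟩ : Sb0 C 0 (C.mu p l))
  · rintro _ ⟨z, rfl⟩ j
    have o : ∀ k, C.Om k (∑ l, algebraMap ℂ A (z l) * C.mu p l) =
        ∑ l, algebraMap ℂ A (∑ m, z m * C.eo k m l) * C.mu p l := fun k => by
      simp only [Fin.sum_univ_three, D_add, D_mul, D_alg, h.O_mu, Ibp.rl, map_add, map_mul]
      ring
    fin_cases j
    · exact ⟨0, by simp [Ch.X, h.T_mu]⟩
    · exact ⟨0, by simp [Ch.X, h.R_mu]⟩
    exacts [⟨_, o 0⟩, ⟨_, o 1⟩, ⟨_, o 2⟩]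

theorem Sb.jet (hf : Sb C a f) (n : ℕ) : ∃ K, ∀ x, C.jet n f x ≤ K * C.rr x ^ (-a) := by
  have e : ∀ n f, Sb C a f → ∃ K, ∀ x, C.je n f x ≤ K * C.rr x ^ (-a) := by
    intro n
    induction n with
    | zero => exact fun f hf => let ⟨K, _, e⟩ := hf []; ⟨K, e⟩
    | succ n ih =>
      intro f hf
      choose K e using fun i => ih _ (hf.der i)
      exact ⟨∑ i, K i, fun x => by
        rw [Finset.sum_mul]; exact Finset.sum_le_sum fun i _ => e i x⟩
  choose K e using fun n => e n f hf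
  exact ⟨∑ i ∈ Finset.range (n + 1), K i, fun x => by
    rw [Finset.sum_mul]; exact Finset.sum_le_sum fun i _ => e i x⟩

theorem Sb.sy (hf : Sb C a f) (t : C.T f = 0) : C.Sy a f := ⟨t, hf.jet⟩

end Vale.Agent.P354YK
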