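import Vale.Agent.P354YF.Fte3

/-!
The differences of the components of the frame and of the scalars from the tables.
-/

noncomputable section

namespace Vale.Agent.P354YK

open Vale.Agent.P354XG Vale.Agent.P354XR Vale.Agent.P354XZ Vale.Agent.P354YF
open Vale.Agent.P354XZ.NF (nz)
open Vale.Agent.P354YS (Cj cj_sy)
open Vale.Agent.P354FA (Vw)
open Vale.Agent.P354Z (sc)
open Vale.Agent.P354YL (Tb)

variable {A : Type} [CommRing A] [Algebra ℂ A] {C : Ch A} {S : Type} {p : S → C.Pt} {e : S → ℝ}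
  {n : ℕ} {a b c a' b' c' : ℝ} {f g : A}

/-- The jet of order n is bounded by a multiple of e and a monomial. -/
abbrev Mw (p : S → C.Pt) (e : S → ℝ) (a b c : ℝ) (n : ℕ) (f : A) : Prop :=
  Cj p (fun σ => e σ * C.at' (C.mon a b c) (p σ)) n f

/-- The class g. -/
def Mg (p : S → C.Pt) (e : S → ℝ) (n : ℕ) (f : A) : Prop :=
  Mw p e 0 0 (-6 / 5) n f ∧ Mw p e 0 0 (-1 / 4) n (C.r * f)

theorem Mg.add (s : Mg p e n f) (t : Mg p e n g) : Mg p e n (f + g) :=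
  ⟨s.1.add t.1, (s.2.add t.2).of (mul_add ..)⟩
theorem Mg.sub (s : Mg p e n f) (t : Mg p e n g) : Mg p e n (f - g) :=
  ⟨s.1.sub t.1, (s.2.sub t.2).of (mul_sub ..)⟩
theorem Mg.mul (s : Cj p 1 n f) (t : Mg p e n g) : Mg p e n (f * g) :=
  ⟨s.mul t.1, (s.mul t.2).of (mul_left_comm ..)⟩
theorem Mg.of (s : Mg p e n f) (k : g = f) : Mg p e n g := k ▸ s

theorem mw_le (h : C.Is) (e0 : ∀ σ, 0 ≤ e σ) (t : Mw p e a b c n f) (e1 : a + b ≤ a' + b')
    (e2 : b + c ≤ b' + c') (e3 : a + b + c ≤ a' + b' + c') : Mw p e a' b' c' n f := by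
  obtain ⟨B, B0, k⟩ := t
  refine ⟨B * 4 ^ |b - b'|, by positivity, fun σ => (k σ).trans ?_⟩
  have := mul_le_mul_of_nonneg_left (at_le h e1 e2 e3 (p σ)) (mul_nonneg B0 (e0 σ))
  dsimp only
  linarith

theorem mw_r (h : C.Is) (t : Mw p e a b c n f) : Mw p e (1 + a) b c n (C.r * f) := by
  obtain ⟨K, K0, k⟩ := sy_jet h (sy_r h) n
  obtain ⟨B, B0, q⟩ := t
  refine ⟨K * B, mul_nonneg K0 B0, fun σ => (k f _).trans ?_⟩
  have := mul_le_mul_of_nonneg_left (q σ) (mul_nonneg K0 (rr_pos h (p σ)).le)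
  have m := at_mon_mul h 1 0 0 a b c (p σ)
  rw [at_r1, zero_add, zero_add] at m
  dsimp only at this ⊢
  rw [neg_neg, Real.rpow_one, ← m]
  linarith

theorem mg_of (h : C.Is) (e0 : ∀ σ, 0 ≤ e σ) (t : Mw p e a b c n f) (e1 : a + b ≤ -1)
    (e2 : b + c ≤ -6 / 5) (e3 : a + b + c ≤ -5 / 4) : Mg p e n f :=
  ⟨mw_le h e0 t (by linarith) (by linarith) (by linarith),
    mw_le h e0 (mw_r h t) (by linarith) (by linarith) (by linarith)⟩

theorem Dt_ge (h : C.Is) (k : Fin 5) (x : C.Pt) :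
    C.at' (C.mon 0 0 (12 / 5)) x ≤ 64 * (C.rr x * C.at' (C.Dt 0 k) x) := by
  have q : ∀ a a' b c, 0 ≤ a → 0 ≤ a' → 0 ≤ b → b ≤ 3 → b + c = 14 / 5 →
      C.at' (C.mon 0 0 (12 / 5)) x ≤ 64 * (C.rr x * (C.at' (C.mon 0 0 (-3 / 10)) x *
        C.at' (C.mon a 0 0 * C.mon a' b c) x)) := fun a a' b c a0 a1 b0 b3 s => by
    rw [at_mul, ← at_r1, at_mon_mul h, at_mon_mul h, at_mon_mul h]
    exact at_le' h (by linarith) (by linarith) (by linarith) (abs_le.2 ⟨by linarith, by linarith⟩) x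
  have d : 0 ≤ C.at' (C.Dd 1 0 k) x := by
    fin_cases k <;> simp only [Ch.Dd, Ch.w, Fin.zero_eta, Fin.mk_one, Fin.reduceFinMk,
      Matrix.cons_val, one_mul, at_mul]
    exacts [(mul_pos (at_pos h ..) (at_pos h ..)).le, (mul_pos (at_pos h ..) (at_pos h ..)).le,
      (mul_pos (at_pos h ..) (at_pos h ..)).le, (mul_pos (at_pos h ..) (at_pos h ..)).le, le_rfl]
  rw [Ch.Dt, at_mul, Ch.Dw, at_add]
  refine le_trans ?_ (mul_le_mul_of_nonneg_left (mul_le_mul_of_nonneg_left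
    (mul_le_mul_of_nonneg_left (le_add_of_nonneg_right d) (at_pos h ..).le) (rr_pos h x).le)
    (by norm_num))
  fin_cases k <;> simp only [Ch.Db, Ch.w, Fin.zero_eta, Fin.mk_one, Fin.reduceFinMk,
    Matrix.cons_val, one_mul] <;> refine q _ _ _ _ ?_ ?_ ?_ ?_ ?_ <;> norm_num

theorem jet_V (h : C.Is) {k : Fin 5} {x : C.Pt} {ε : ℝ} (e0 : 0 ≤ ε)
    (t : C.rr x * C.at' (C.Dt 0 k) x * C.jet n f x ^ 2 ≤ ε ^ 2) :
    C.jet n f x ≤ 8 * (ε * C.at' (C.mon 0 0 (-6 / 5)) x) := by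
  have w := at_pos h 0 0 (-6 / 5) x
  have m : C.at' (C.mon 0 0 (-6 / 5)) x * C.at' (C.mon 0 0 (-6 / 5)) x *
      C.at' (C.mon 0 0 (12 / 5)) x = 1 := by
    rw [at_mon_mul h, at_mon_mul h, ← at_r0 x]; norm_num
  have a := mul_le_mul_of_nonneg_right (Dt_ge h k x) (sq_nonneg (C.jet n f x))
  have b := mul_le_mul_of_nonneg_left (a.trans (show _ ≤ 64 * ε ^ 2 by linarith))
    (mul_pos w w).le
  rw [← mul_assoc, m, one_mul] at b
  exact (abs_le_of_sq_le_sq' (b.trans_eq (by ring)) (by positivity)).2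

/-- The bounds of the differences. -/
structure Ta (p : S → C.Pt) (e : S → ℝ) (n : ℕ) (d : Ix → A) (al : A) : Prop where
  b : ∀ k ≠ 1, Mw p e 0 0 (-6 / 5) n (d (.inl (1, k)))
  b1 : Mw p e 0 0 (-6 / 5) n (C.ri * d (.inl (1, 1)))
  kb : Mw p e 0 0 (-6 / 5) n (d (.inr 4))
  g : ∀ k ≥ 2, Mg p e n (d (.inl (2, k)))
  g1 : Mg p e n (C.ri * d (.inl (2, 1)))
  gs : ∀ k, k = 1 ∨ k = 2 ∨ k = 3 ∨ k = 5 ∨ k = 6 → Mg p e n (d (.inr k))
  m0 : Mw p e 0 0 0 n (C.r * d (.inl (2, 0)))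
  al : Mw p e 0 0 0 n (C.r * al) ∧ Mw p e 2 0 (-6 / 5) n (C.r * al)
  W : ∀ k ≥ 8, Mw p e 0 0 (-6 / 5) n (d (.inr k))

variable {K : KC A} (h : Cmp C K) {G : GHP A} {v m : Fin 6 → A} {al : A} {d : Ix → A}
  (d1 : ∀ e, d (.inl (1, e)) = v e - onc K e) (d2 : ∀ e, d (.inl (2, e)) = m e - omc K e)
  (d3 : ∀ i, d (.inr i) = sc G i - sc (out K) i)
include h d1 d2 d3

theorem ta_of (e0 : ∀ σ, 0 ≤ e σ) (tb : ∀ σ, ∃ o : P354YL.Od, (n ≤ o.m ∧ n ≤ o.m' ∧ n ≤ o.ia ∧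
    n ≤ o.N) ∧ Tb C (nfV K G v m al) (nfO K) (Vw (nfV K G v m al) (nfO K) C) o (e σ) (p σ)) :
    Ta p e n d al := by
  have c := h.ch
  have q : ∀ {f a b c}, (∀ σ, C.jet n f (p σ) ≤ e σ * C.at' (C.mon a b c) (p σ)) →
      Mw p e a b c n f := fun k => ⟨1, zero_le_one, fun σ => by rw [one_mul]; exact k σ⟩
  have hb : ∀ i, Mw p e 0 0 (-6 / 5) n (gf K.N K.Ni C.ri d al (.inl i)) := fun i =>
    (q fun σ => let ⟨_, k, t⟩ := tb σ; (jet_mono k.1 _).trans (t.b i)).of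
      (at_gf h d1 d2 d3 (.inl i)).symm
  have hg : ∀ i, Mg p e n (gf K.N K.Ni C.ri d al (.inr (.inl i))) := fun i =>
    (mg_of c e0 (q fun σ => let ⟨_, k, t⟩ := tb σ; (jet_mono k.1 _).trans (t.g i)) (by norm_num)
      (by norm_num) (by norm_num)).of (at_gf h d1 d2 d3 (.inr (.inl i))).symm
  have hh : ∀ i, Mg p e n (gf K.N K.Ni C.ri d al (.inr (.inr i))) := fun i =>
    (mg_of c e0 (q fun σ => let ⟨_, k, t⟩ := tb σ; (jet_mono k.1 _).trans (t.h i)) (by norm_num)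
      (by norm_num) (by norm_num)).of (at_gf h d1 d2 d3 (.inr (.inr i))).symm
  have a1 : Mw p e 0 0 0 n (C.r * al) := mw_le c e0 (mw_r c (q fun σ => let ⟨_, k, t⟩ := tb σ
    (jet_mono k.2.2.1 _).trans t.a)) (by norm_num) (by norm_num) (by norm_num)
  have a2 : Mw p e 2 0 (-6 / 5) n (C.r * al) := mw_le c e0 (mw_r c (q fun σ =>
    let ⟨_, k, t⟩ := tb σ; (jet_mono k.2.2.1 _).trans t.a')) (by norm_num) (by norm_num)
    (by norm_num)
  have sN : Cj p 1 n K.N := cj_sy c (h.nz_neg ▸ sy_nz c (-1)) le_rfl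
  have sI : Cj p 1 n K.Ni := cj_sy c (h.nz_one ▸ sy_nz c 1) le_rfl
  have sH : Cj p 1 n (Geo.hf A) := cj_sy c h.z_hf.sy le_rfl
  have N := h.kc.hN
  have t := Geo.two_hf (A := A)
  simp only [gf, Sum.elim_inl, Sum.elim_inr, Fin.forall_fin_succ, Matrix.cons_val_zero,
    Matrix.cons_val_succ, IsEmpty.forall_iff, and_true] at hb hg hh
  obtain ⟨b0, b1, b2, b3, b4, b5, b6⟩ := hb
  obtain ⟨g0, g1, g2, g3, g4, g5, g6, g7, g8⟩ := hg
  have u : ∀ y, y = K.Ni * (K.N * y) := fun y => by linear_combination -y * N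
  refine ⟨fun k hk => ?_, (sI.mul b3).of (u _), (sI.mul (sI.mul b1)).of (by rw [← u, ← u]),
    fun k hk => ?_, g5, fun k hk => ?_, ?_, ⟨a1, a2⟩, fun k hk => ?_⟩
  · fin_cases k
    · exact (sI.mul b2).of (u _)
    · exact absurd rfl hk
    · exact (sI.mul b4).of (u _)
    · exact (sI.mul b5).of (u _)
    · exact (sI.mul ((sH.mul b0).add b6)).of ((u (d (.inl (1, 4)))).trans (by
        linear_combination -K.Ni * K.N * d (.inl (1, 4)) * t))
    · exact (sI.mul ((sH.mul b0).sub b6)).of ((u (d (.inl (1, 5)))).trans (by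
        linear_combination -K.Ni * K.N * d (.inl (1, 5)) * t))
  · fin_cases k
    · exact absurd hk (by decide)
    · exact absurd hk (by decide)
    · exact g6
    · exact g7
    · exact ((Mg.mul sH g3).add g8).of (g := d (.inl (2, 4)))
        (by linear_combination -d (.inl (2, 4)) * t)
    · exact ((Mg.mul sH g3).sub g8).of (g := d (.inl (2, 5)))
        (by linear_combination -d (.inl (2, 5)) * t)
  · rcases hk with rfl | rfl | rfl | rfl | rfl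
    · exact (Mg.mul sN hh.1).of (by linear_combination -d (.inr 1) * N)
    · exact (Mg.mul sN hh.2).of (by linear_combination -d (.inr 2) * N)
    · exact g0
    · exact (Mg.mul sI g1).of (u _)
    · exact (Mg.mul sI g2).of (u _)
  · exact ((mw_le c e0 g4.2 le_rfl (by norm_num) (by norm_num)).add a1).of (by ring)
  · obtain ⟨i, rfl⟩ : ∃ i : Fin 5, k = i.natAdd 8 :=
      ⟨⟨k - 8, by omega⟩, Fin.ext (by have : 8 ≤ (k : ℕ) := hk; simp; omega)⟩
    have V : Mw p e 0 0 (-6 / 5) n (Vw (nfV K G v m al) (nfO K) C [] i) :=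
      ⟨8, by norm_num, fun σ => let ⟨_, k, t⟩ := tb σ
        jet_V c (e0 σ) (t.V n [] i k.2.1 k.2.2.2)⟩
    rw [P354FA.Vw_nil, V_eq d3] at V
    exact ((cj_sy c (sy_nz c (-(2 - (i : ℕ)))) le_rfl).mul V).of (by
      rw [← mul_assoc, ← nz_add, neg_add_cancel, nz_zero, one_mul])

end Vale.Agent.P354YK
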